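import Vale.Agent.P030.Q.Defs

set_option linter.all false

/-! (ARITH): the arithmetic lower bound for the perturbed determinant. -/

namespace Vale.Agent.P030.Q.Arith

open Finset Polynomial Vale.Agent.P030 Vale.Agent.P030.Five Vale.Agent.P030.Q

/-- the hypothesis on `x`. -/
def HX (c : ℕ → ℚ) (N K : ℕ) (x : ℚ) : Prop :=
  ∀ l : ℕ → Multiset ℤ, (∀ a, (l a).card = a) → x = (F5LevMat c N K l).det

theorem psiQ5_affine (a : ℚ) (c : ℕ → ℚ) (N : ℕ) (l : Multiset ℤ) :
    a * psiQ5 c N l = psiQ5 (fun i => a * c i) N l - psiQ5 (fun _ => 0) N l +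
      a * psiQ5 (fun _ => 0) N l := by
  unfold psiQ5
  rw [← Finset.sum_sub_distrib, mul_sum, mul_sum, ← sum_add_distrib]
  refine sum_congr rfl fun j _ => ?_
  have h : uS5 N l j * WS (fun i => a * c i) j = a • (uS5 N l j * WS c j) +
      uS5 N l j * WS (fun _ => 0) j - a • (uS5 N l j * WS (fun _ => 0) j) := by
    rw [← mul_smul_comm, ← mul_smul_comm, ← mul_add, ← mul_sub]
    congr 1
    ext i
    simp only [WS, map_add, map_sub, map_smul, PowerSeries.coeff_mk, smul_eq_mul]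
    ring
  rw [h, map_sub, map_add, map_smul, map_smul, smul_eq_mul, smul_eq_mul]
  ring

theorem psiQ5_refined_v {p : ℕ} [Fact p.Prime] (hp2 : p ≠ 2) (N v : ℕ) (hp : 2 * N < p ^ 2)
    (c : ℕ → ℚ) (hc : ∀ i, VG p (-(v : ℤ)) (c i)) (l : Multiset ℤ) (B : ℤ) (hB : 0 ≤ B)
    (h : ∀ j ∈ Icc (-(N : ℤ)) N, 2 ≤ Pd N p (2 * j) →
      5 * (Pd N p (2 * j) : ℤ) - (qd p l (2 * j) : ℤ) ≤ B) :
    VG p (-B - v) (psiQ5 c N l) := by
  have hpow : VG p (v : ℤ) ((p : ℚ) ^ v) := by
    have := VG_int_of_dvd (p := p) (k := v) (z := (p : ℤ) ^ v) (dvd_refl _)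
    exact_mod_cast this
  have h0 : VG p (-B) (psiQ5 (fun _ => 0) N l) :=
    psiQ5_refined hp2 N hp (fun _ => 0) (fun _ => VG_zero _) l B hB h
  have h1 : VG p (-B) (psiQ5 (fun i => (p : ℚ) ^ v * c i) N l) :=
    psiQ5_refined hp2 N hp _ (fun i => VG_mul' hpow (hc i) (by omega)) l B hB h
  have h2 : VG p (-B) ((p : ℚ) ^ v * psiQ5 c N l) := by
    rw [psiQ5_affine]
    exact VG_add (VG_sub h1 h0) (VG_mul' hpow h0 (by omega))
  have hp0 : (p : ℚ) ^ v ≠ 0 := pow_ne_zero _ (by exact_mod_cast (Fact.out : p.Prime).ne_zero)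
  have h3 : VG p (-(v : ℤ)) (((p : ℚ) ^ v)⁻¹) := by
    apply VG_inv hp0
    rw [padicValRat.pow, padicValRat.self (Fact.out : p.Prime).one_lt]
    simp
  have h4 : psiQ5 c N l = ((p : ℚ) ^ v)⁻¹ * ((p : ℚ) ^ v * psiQ5 c N l) := by
    field_simp
  rw [h4]
  exact VG_mul' h3 h2 (by omega)

theorem det_refined_of {p : ℕ} [Fact p.Prime] (hp2 : p ≠ 2) (N K v : ℕ) (c : ℕ → ℚ)
    (hentry : ∀ (l : Multiset ℤ) (B : ℤ), 0 ≤ B →
      (∀ j ∈ Icc (-(N : ℤ)) N, 2 ≤ Pd N p (2 * j) →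
        5 * (Pd N p (2 * j) : ℤ) - (qd p l (2 * j) : ℤ) ≤ B) →
      VG p (-B - v) (psiQ5 c N l))
    (hentry' : ∀ (l : Multiset ℤ) (B : ℤ), 0 ≤ B →
      (∀ m ∈ range N, 1 ≤ Pd N p (2 * m + 1) → (2 * m + 1 : ℤ) ∈ l ∨
        5 * (Pd N p (2 * m + 1) : ℤ) - (qd p l (2 * m + 1) : ℤ) ≤ B) →
      VG p (-B - v) (exQ5 N l))
    (x : ℚ) (hx : HX c N K x) (hx0 : x ≠ 0) (lam : ℕ) :
    -(padicValRat p x : ℝ) ≤ K * lam + levSum N K p lam + K * v := by
  have hpodd : Odd p := (Fact.out : p.Prime).odd_of_ne_two hp2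
  have hne : Nonempty (Fin ((p + 1) / 2)) := by
    refine ⟨⟨0, ?_⟩⟩
    have := (Fact.out : p.Prime).two_le
    omega
  obtain ⟨y, L, hL, hsum⟩ := greedy5 (fun z : Fin ((p + 1) / 2) => lev5 N p z)
    (fun z n => F5Lev_mono N p z n) K lam
  choose e he1 he2 using fun z : Fin ((p + 1) / 2) => F5Lev_sites (siteSet N p z)
  -- the counters and the nodes
  set cn : ℕ → Fin ((p + 1) / 2) → ℕ :=
    fun a z => ((range a).filter (fun i => y i = z)).card with hcn
  set nd : ℕ → ℤ := fun k =>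
    if Pd N p (2 * ((y k : ℕ) : ℤ)) = 1 ∧ cn k (y k) < (siteSet N p (y k)).card then
      2 * (e (y k) (cn k (y k)) : ℤ) + 1 else 2 * ((y k : ℕ) : ℤ) with hnd
  set l : ℕ → Multiset ℤ := fun a => (Multiset.range a).map nd with hl
  have hcard : ∀ a, (l a).card = a := by
    intro a
    simp [hl]
  -- the nodes are in their classes
  have hcls : ∀ k, (p : ℤ) ∣ nd k - 2 * ((y k : ℕ) : ℤ) ∨ (p : ℤ) ∣ nd k + 2 * ((y k : ℕ) : ℤ) := by
    intro k
    simp only [hnd]
    split_ifs with h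
    · have h1 := he1 (y k) _ h.2
      rw [siteSet, mem_filter] at h1
      exact h1.2
    · left
      simp
  -- number of hits
  have hhit : ∀ (a : ℕ) (z : Fin ((p + 1) / 2)) (s : ℤ),
      (p : ℤ) ∣ s - 2 * ((z : ℕ) : ℤ) ∨ (p : ℤ) ∣ s + 2 * ((z : ℕ) : ℤ) →
      cn a z ≤ qd p (l a) s := by
    intro a z s hs
    apply F5Lev_qd_ge
    intro i hi
    have h1 := hcls i
    rw [hi] at h1
    rcases hs with hs | hs <;> rcases h1 with h1 | h1
    · left
      have := dvd_sub hs h1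
      have e1 : s - 2 * ((z : ℕ) : ℤ) - (nd i - 2 * ((z : ℕ) : ℤ)) = s - nd i := by ring
      rwa [e1] at this
    · right
      have := dvd_add hs h1
      have e1 : s - 2 * ((z : ℕ) : ℤ) + (nd i + 2 * ((z : ℕ) : ℤ)) = s + nd i := by ring
      rwa [e1] at this
    · right
      have := dvd_add hs h1
      have e1 : s + 2 * ((z : ℕ) : ℤ) + (nd i - 2 * ((z : ℕ) : ℤ)) = s + nd i := by ring
      rwa [e1] at this
    · left
      have := dvd_sub hs h1
      have e1 : s + 2 * ((z : ℕ) : ℤ) - (nd i + 2 * ((z : ℕ) : ℤ)) = s - nd i := by ring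
      rwa [e1] at this
  have hxdet := hx l hcard
  have hV : VG p (-(∑ a : Fin K, ((L a : ℤ) + v))) (F5LevMat c N K l).det := by
    apply VG_det (F5LevMat c N K l) (fun a b => -(((L a : ℤ) + L b) / 2) - v)
      (fun a => (L a : ℤ) + v)
    · intro a b
      -- classes with at least two poles
      have hbig : ∀ (s : ℤ) (z : Fin ((p + 1) / 2)),
          (p : ℤ) ∣ s - 2 * ((z : ℕ) : ℤ) ∨ (p : ℤ) ∣ s + 2 * ((z : ℕ) : ℤ) →
          2 ≤ Pd N p s →
          5 * (Pd N p s : ℤ) - (qd p (l a + l b) s : ℤ) ≤ ((L a : ℤ) + L b) / 2 := by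
        intro s z hs hP
        have hPz := F5Lev_Pd_pm (N := N) hs
        have h1 := hL a z
        have h2 := hL b z
        have hq1 := hhit a z s hs
        have hq2 := hhit b z s hs
        have hq : qd p (l a + l b) s = qd p (l a) s + qd p (l b) s := F5Lev_qd_add _ _ _ _
        rw [hPz] at hP ⊢
        simp only [lev5] at h1 h2
        rw [if_pos hP] at h1 h2
        simp only [hcn] at hq1 hq2
        (clear * - hPz h1 h2 hq hq1 hq2; omega)
      refine VG_sub (hentry _ _ (by (clear * -; positivity)) ?_) (hentry' _ _ (by (clear * -; positivity)) ?_)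
      · intro j _ hP
        obtain ⟨z, hz⟩ := Lev_half' hpodd j
        refine hbig (2 * j) z ?_ hP
        rcases hz with hz | hz
        · left
          have := Dvd.dvd.mul_left hz 2
          have e1 : 2 * (j - ((z : ℕ) : ℤ)) = 2 * j - 2 * ((z : ℕ) : ℤ) := by ring
          rwa [e1] at this
        · right
          have := Dvd.dvd.mul_left hz 2
          have e1 : 2 * (j + ((z : ℕ) : ℤ)) = 2 * j + 2 * ((z : ℕ) : ℤ) := by ring
          rwa [e1] at this
      · intro m hm hP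
        -- a pole in the class
        have hex : ∃ j : ℤ, (p : ℤ) ∣ (2 * (m : ℤ) + 1) - 2 * j := by
          unfold Pd at hP
          obtain ⟨j, hj⟩ := card_pos.1 (Nat.lt_of_lt_of_le Nat.zero_lt_one hP)
          rw [mem_filter] at hj
          exact ⟨j, hj.2⟩
        obtain ⟨j, hj⟩ := hex
        obtain ⟨z, hz⟩ := Lev_half' hpodd j
        have hs : (p : ℤ) ∣ (2 * (m : ℤ) + 1) - 2 * ((z : ℕ) : ℤ) ∨
            (p : ℤ) ∣ (2 * (m : ℤ) + 1) + 2 * ((z : ℕ) : ℤ) := by
          rcases hz with hz | hz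
          · left
            have := dvd_add hj (Dvd.dvd.mul_left hz 2)
            have e1 : 2 * (m : ℤ) + 1 - 2 * j + 2 * (j - ((z : ℕ) : ℤ)) =
                2 * (m : ℤ) + 1 - 2 * ((z : ℕ) : ℤ) := by ring
            rwa [e1] at this
          · right
            have := dvd_add hj (Dvd.dvd.mul_left hz 2)
            have e1 : 2 * (m : ℤ) + 1 - 2 * j + 2 * (j + ((z : ℕ) : ℤ)) =
                2 * (m : ℤ) + 1 + 2 * ((z : ℕ) : ℤ) := by ring
            rwa [e1] at this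
        by_cases hP2 : 2 ≤ Pd N p (2 * (m : ℤ) + 1)
        · exact Or.inr (hbig _ z hs hP2)
        have hP1 : Pd N p (2 * (m : ℤ) + 1) = 1 := by omega
        have hPz : Pd N p (2 * ((z : ℕ) : ℤ)) = 1 := by
          rw [← F5Lev_Pd_pm (N := N) hs]; exact hP1
        have hms : m ∈ siteSet N p z := by
          rw [siteSet, mem_filter]
          exact ⟨hm, hs⟩
        obtain ⟨i, hi, hei⟩ := he2 z m hms
        -- if the site has been used as a node
        have hused : ∀ a' : ℕ, i < cn a' z → (2 * (m : ℤ) + 1) ∈ l a' := by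
          intro a' ha'
          obtain ⟨k, hk, hyk, hck⟩ := F5Lev_step y z a' i ha'
          have hck' : cn k z = i := hck
          simp only [hl]
          rw [Multiset.mem_map]
          refine ⟨k, Multiset.mem_range.2 hk, ?_⟩
          simp only [hnd]
          rw [hyk, hck', if_pos ⟨hPz, hi⟩, hei]
        by_cases h1 : i < cn a z
        · exact Or.inl (Multiset.mem_add.2 (Or.inl (hused a h1)))
        by_cases h2 : i < cn b z
        · exact Or.inl (Multiset.mem_add.2 (Or.inr (hused b h2)))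
        right
        have h3 := hL a z
        have h4 := hL b z
        have hq1 := hhit a z _ hs
        have hq2 := hhit b z _ hs
        have hq : qd p (l a + l b) (2 * (m : ℤ) + 1) =
          qd p (l a) (2 * (m : ℤ) + 1) + qd p (l b) (2 * (m : ℤ) + 1) := F5Lev_qd_add _ _ _ _
        have hn2 : ¬ 2 ≤ Pd N p (2 * ((z : ℕ) : ℤ)) := by omega
        simp only [lev5] at h3 h4
        rw [if_neg hn2, if_pos ⟨hPz, by simp only [hcn] at h1; omega⟩] at h3
        rw [if_neg hn2, if_pos ⟨hPz, by simp only [hcn] at h2; omega⟩] at h4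
        rw [hP1]
        simp only [hcn] at hq1 hq2
        (clear * - h3 h4 hq hq1 hq2; omega)
    · intro a b
      show -(((L a : ℤ) + v) + ((L b : ℤ) + v)) ≤ 2 * (-(((L a : ℤ) + L b) / 2) - v)
      omega
  rw [← hxdet, VG_iff hx0] at hV
  have h1 : ∑ a : Fin K, ((L a : ℤ) + v) = ∑ k ∈ range K, (L k : ℤ) + K * v := by
    rw [sum_add_distrib, ← Finset.sum_range (fun k => (L k : ℤ))]
    simp
  have h2 : (-(padicValRat p x) : ℤ) ≤ ((∑ k ∈ range K, L k : ℕ) : ℤ) + K * v := by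
    push_cast
    rw [← h1]
    omega
  have h3 : (-(padicValRat p x) : ℤ) ≤ ((K * lam + levSum N K p lam + K * v : ℕ) : ℤ) := by
    refine h2.trans ?_
    push_cast
    refine add_le_add_left ?_ _
    have h4 : ((∑ k ∈ range K, L k : ℕ) : ℤ) ≤ ((K * lam + levSum N K p lam : ℕ) : ℤ) := by
      refine Int.ofNat_le.2 (hsum.trans (le_of_eq ?_))
      congr 1
      unfold levSum
      rw [Finset.sum_range]
    push_cast at h4
    exact h4
  exact_mod_cast h3

theorem crude_of {p : ℕ} [Fact p.Prime] (N K : ℕ) (c : ℕ → ℚ) (T : ℤ) (v : ℕ → ℤ)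
    (hentry : ∀ a b, a < K → b < K →
      VG p (-T + v a + v b)
        (psiQ5 c N (evenNodes a + evenNodes b) - exQ5 N (evenNodes a + evenNodes b)))
    (x : ℚ) (hx : HX c N K x) (hx0 : x ≠ 0) :
    -(padicValRat p x) ≤ K * T - 2 * ∑ k ∈ range K, v k := by
  have hxdet := hx evenNodes F5Lev_card_evenNodes
  have hV : VG p (-(∑ a : Fin K, (T - 2 * v a))) (F5LevMat c N K evenNodes).det := by
    apply VG_det (F5LevMat c N K evenNodes) (fun a b => -T + v a + v b)
    · intro a b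
      exact hentry a b a.2 b.2
    · intro a b
      show -((T - 2 * v a) + (T - 2 * v b)) ≤ 2 * (-T + v a + v b)
      omega
  rw [← hxdet, VG_iff hx0] at hV
  have h1 : ∑ a : Fin K, (T - 2 * v a) = K * T - 2 * ∑ k ∈ range K, v k := by
    rw [sum_sub_distrib, ← mul_sum, Finset.sum_range (fun k => v k)]
    simp
  rw [h1] at hV
  omega

theorem det_crude_of {p : ℕ} [Fact p.Prime] (N K e d : ℕ) (c : ℕ → ℚ)
    (hentry : ∀ a b, a < K → b < K →
      VG p (-5 * (padicValNat p (2 * N).factorial : ℤ) + padicValNat p (2 * a - 1).factorial +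
      padicValNat p (2 * b - 1).factorial - 5 * e - d)
      (psiQ5 c N (evenNodes a + evenNodes b) - exQ5 N (evenNodes a + evenNodes b)))
    (x : ℚ) (hx : HX c N K x) (hx0 : x ≠ 0) :
    -(padicValRat p x) ≤ K * (5 * (padicValNat p (2 * N).factorial : ℤ) + 5 * e + d) -
      2 * ∑ k ∈ range K, (padicValNat p (2 * k - 1).factorial : ℤ) := by
  apply crude_of N K c _ (fun k => (padicValNat p (2 * k - 1).factorial : ℤ)) _
    x hx hx0
  intro a b ha hb
  refine VG_mono (hentry a b ha hb) (le_of_eq ?_)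
  ring


theorem det_refined {p : ℕ} [Fact p.Prime] (hp2 : p ≠ 2) (N K v : ℕ)
    (hp : 4 * N < p ^ 2) (c : ℕ → ℚ) (hci : ∀ i, VG p (-(v : ℤ)) (c i))
    (x : ℚ) (hx : HX c N K x) (hx0 : x ≠ 0) (lam : ℕ) :
    -(padicValRat p x : ℝ) ≤ K * lam + levSum N K p lam + K * v :=
  det_refined_of hp2 N K v c
    (fun l B hB h => psiQ5_refined_v hp2 N v (by omega) c hci l B hB h)
    (fun l B hB h => VG_mono (exQ5_refined hp2 N hp l B hB h) (by omega)) x hx hx0 lam

theorem det_crude_odd {p : ℕ} [Fact p.Prime] (hp2 : p ≠ 2) (N K e d : ℕ)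
    (he : 4 * N < p ^ (e + 1)) (he' : 2 * K < p ^ (e + 1))
    (c : ℕ → ℚ) (hci : ∀ i, VG p (-(d : ℤ)) (c i))
    (x : ℚ) (hx : HX c N K x) (hx0 : x ≠ 0) :
    -(padicValRat p x) ≤ K * (5 * (padicValNat p (2 * N).factorial : ℤ) + 5 * e + d) -
      2 * ∑ k ∈ range K, (padicValNat p (2 * k - 1).factorial : ℤ) :=
  det_crude_of N K e d c
    (fun a b ha hb => entry_crude_odd5 hp2 N K e d he he' c hci a b ha.le hb.le) x hx hx0

theorem det_crude_two (N K e d : ℕ)
    (hK : 2 * K ≤ 5 * N) (he : 4 * N < 2 ^ (e + 1)) (he' : 2 * K < 2 ^ (e + 1))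
    (c : ℕ → ℚ) (hci : ∀ i, VG 2 (-(d : ℤ)) (c i))
    (x : ℚ) (hx : HX c N K x) (hx0 : x ≠ 0) :
    -(padicValRat 2 x) ≤ K * (5 * (padicValNat 2 (2 * N).factorial : ℤ) + 5 * e + d) -
      2 * ∑ k ∈ range K, (padicValNat 2 (2 * k - 1).factorial : ℤ) :=
  det_crude_of N K e d c
    (fun a b ha hb => entry_crude_two5 N K e d hK he he' c hci a b ha hb) x hx hx0

/-- `p = 2`. -/
theorem two {N K e d : ℕ} (hK : 2 * K ≤ 5 * N) (he : 4 * N < 2 ^ (e + 1))
    (he' : 2 * K < 2 ^ (e + 1)) (c : ℕ → ℚ) (hci : ∀ i, VG 2 (-(d : ℤ)) (c i))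
    (x : ℚ) (hx : HX c N K x) (hx0 : x ≠ 0) :
    -(padicValRat 2 (F5MN_y N K x)) ≤ K * (5 * e + d) := by
  have : Fact (Nat.Prime 2) := ⟨Nat.prime_two⟩
  have h := det_crude_two N K e d hK he he' c hci x hx hx0
  rw [F5MN_padicValRat_y N K hx0]
  linarith only [h]

/-- odd `p` with `p² ≤ 2K`. -/
theorem crude {p : ℕ} [Fact p.Prime] (hp2 : p ≠ 2) {N K d : ℕ}
    (hNK : 4 * N ≤ 2 * K) (c : ℕ → ℚ)
    (hci : ∀ i, VG p (-(d : ℤ)) (c i)) (x : ℚ) (hx : HX c N K x) (hx0 : x ≠ 0)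
    (hp : p ^ 2 ≤ 2 * K) :
    -(padicValRat p (F5MN_y N K x) : ℝ) ≤ Ebd5 0 N K p + K * d := by
  set e := Nat.log p (2 * K) with he
  have he' : 2 * K < p ^ (e + 1) := Nat.lt_pow_succ_log_self (Fact.out : p.Prime).one_lt _
  have h := det_crude_odd hp2 N K e d (by omega) he' c hci x hx hx0
  have h2 : -(padicValRat p (F5MN_y N K x)) ≤ (K : ℤ) * (5 * e + d) := by
    rw [F5MN_padicValRat_y N K hx0]
    linarith only [h]
  unfold Ebd5
  rw [if_pos hp]
  have h3 : -((padicValRat p (F5MN_y N K x) : ℤ) : ℝ) ≤ (K : ℝ) * (5 * e + d) := by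
    exact_mod_cast h2
  push_cast
  linarith only [h3]

/-- odd `p` with `p² > 2K`. -/
theorem refined {p : ℕ} [Fact p.Prime] (hp2 : p ≠ 2) {N K v : ℕ} (hN : 1 ≤ N)
    (hK : 2 * K = 5 * N) (c : ℕ → ℚ)
    (hci : ∀ i, VG p (-(v : ℤ)) (c i)) (x : ℚ) (hx : HX c N K x) (hx0 : x ≠ 0)
    (hp : 2 * K < p ^ 2) (hpK : p ≤ 2 * K) :
    -(padicValRat p (F5MN_y N K x) : ℝ) ≤ Ebd5 0 N K p + K * v := by
  have hodd : Odd p := (Fact.out : p.Prime).odd_of_ne_two hp2
  have hp0 : 0 < p := (Fact.out : p.Prime).pos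
  have hp1 : 1 < p := (Fact.out : p.Prime).one_lt
  have hpR : (0 : ℝ) < p := by exact_mod_cast hp0
  obtain ⟨F, hF⟩ : ∃ F : ℕ, F = ∑ k ∈ range K, (2 * k - 1) / p := ⟨_, rfl⟩
  obtain ⟨G, hG⟩ : ∃ G : ℕ, G = 2 * N / p := ⟨_, rfl⟩
  have hval : (padicValRat p (F5MN_y N K x) : ℝ) = (padicValRat p x : ℝ) +
      (5 * K * (G : ℝ) - 2 * (F : ℝ)) := by
    rw [F5MN_padicValRat_y N K hx0, F5MN_val_factorial (by omega), ← hG]
    have : ∑ k ∈ range K, (padicValNat p (2 * k - 1).factorial : ℤ) = (F : ℤ) := by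
      rw [hF, Nat.cast_sum]
      refine sum_congr rfl fun k hk => ?_
      rw [mem_range] at hk
      rw [F5MN_val_factorial (by (clear * - hK hp hpK hp1 hk; omega))]
    rw [this]
    push_cast
    ring
  rw [hval]
  unfold Ebd5
  rw [if_neg (by omega), ← hG]
  have hfl := floor_sum (K := K) hodd
  rw [← hF] at hfl
  have hKR : 2 * (K : ℝ) = 5 * N := by exact_mod_cast hK
  split_ifs with h1 h2 h3 h4
  · -- p ≤ N
    have hr := det_refined hp2 N K v (by omega) c hci x hx hx0 1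
    have hcnt := count_small5 (K := K) hodd hp1 h1
    rw [Nat.cast_one] at hr
    have hKe : (K : ℝ) = 5 * N / 2 := by linarith only [hKR]
    have hNR : (p : ℝ) ≤ N := by exact_mod_cast h1
    have hN1 : (1 : ℝ) ≤ N := by exact_mod_cast hN
    -- the quadratic main terms
    have e1 : 25 / 8 * ((2 * (N : ℝ) + 1) ^ 2 / p) + 2 * (K : ℝ) ^ 2 / p =
        5 * (K : ℝ) * (2 * N / p) + 25 / 8 * ((4 * (N : ℝ) + 1) / p) := by
      rw [hKe]
      field_simp
      ring
    have e2 : 25 / 8 * ((4 * (N : ℝ) + 1) / p) ≤ 16 * N / p := by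
      rw [← mul_div_assoc]
      exact div_le_div_of_nonneg_right (by linarith only [hpR, hNR, hN1]) hpR.le
    have e3 : (2 * (N : ℝ) + 1) / p + 1 ≤ 4 * (N : ℝ) / p := by
      have : (2 * (N : ℝ) + 1) / p + 1 = (2 * (N : ℝ) + 1 + p) / p := by field_simp
      rw [this]
      exact div_le_div_of_nonneg_right (by linarith only [hNR, hN1]) hpR.le
    have e4 : 25 / 8 * ((2 * (N : ℝ) + 1) / p + 1) ^ 2 ≤ 50 * (N : ℝ) ^ 2 / (p : ℝ) ^ 2 := by
      have h0 : (0 : ℝ) ≤ (2 * (N : ℝ) + 1) / p + 1 := by positivity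
      have h5 : ((2 * (N : ℝ) + 1) / p + 1) ^ 2 ≤ (4 * (N : ℝ) / p) ^ 2 :=
        pow_le_pow_left₀ h0 e3 2
      have h6 : 50 * (N : ℝ) ^ 2 / (p : ℝ) ^ 2 = 25 / 8 * (4 * (N : ℝ) / p) ^ 2 := by
        rw [div_pow]
        ring
      rw [h6]
      linarith only [h5]
    linarith only [hfl, hr, hcnt, e1, e2, e4]
  · -- N < p ≤ 2N
    have hr := det_refined hp2 N K v (by omega) c hci x hx hx0 0
    have hcnt := count_mid5 (K := K) hodd (not_le.mp h1) h2
    have e1 : 2 * N / p = 1 := by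
      apply Nat.div_eq_of_lt_le <;> omega
    rw [Nat.cast_zero] at hr
    rw [hG, e1, Nat.cast_one]
    linarith only [hcnt, hr, hfl]
  · -- 2N < p ≤ K
    have hr := det_refined hp2 N K v (by omega) c hci x hx hx0 0
    have hcnt := count_large5 (K := K) hodd (not_le.mp h2) (by omega)
    have e1 : 2 * N / p = 0 := Nat.div_eq_of_lt (not_le.mp h2)
    rw [Nat.cast_zero] at hr
    rw [hG, e1, Nat.cast_zero]
    have h4 := floor_sum_two hodd (by (clear * - hK h2 h3; omega)) h3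
    rw [← hF] at h4
    linarith only [hr, hcnt, h4]
  · -- K < p ≤ 4N
    have hr := det_refined hp2 N K v (by omega) c hci x hx hx0 0
    have hcnt := count_large5 (K := K) hodd (not_le.mp h2) h4
    have e1 : 2 * N / p = 0 := Nat.div_eq_of_lt (not_le.mp h2)
    rw [Nat.cast_zero] at hr
    rw [hG, e1, Nat.cast_zero]
    have h4 := floor_sum_one hodd (not_le.mp h3) hpK
    rw [← hF] at h4
    linarith only [hr, hcnt, h4]
  · -- 4N < p ≤ 2K
    have hr := det_refined hp2 N K v (by omega) c hci x hx hx0 0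
    rw [count_huge5 (K := K) hodd (not_le.mp h4)] at hr
    have e1 : 2 * N / p = 0 := Nat.div_eq_of_lt (not_le.mp h2)
    rw [Nat.cast_zero] at hr
    rw [hG, e1, Nat.cast_zero]
    have h4 := floor_sum_one hodd (not_le.mp h3) hpK
    rw [← hF] at h4
    linarith only [hr, h4]

/-- primes larger than `2K`. -/
theorem large {p : ℕ} [Fact p.Prime] (hp2 : p ≠ 2) {N K v : ℕ} (hN : 1 ≤ N)
    (hNK : 4 * N ≤ 2 * K) (c : ℕ → ℚ)
    (hci : ∀ i, VG p (-(v : ℤ)) (c i)) (x : ℚ) (hx : HX c N K x) (hx0 : x ≠ 0)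
    (hpK : 2 * K < p) : -(padicValRat p (F5MN_y N K x) : ℝ) ≤ K * v := by
  have hodd : Odd p := (Fact.out : p.Prime).odd_of_ne_two hp2
  have hsq : 2 * K < p ^ 2 := by nlinarith only [hN, hNK, hpK]
  have hr := det_refined hp2 N K v (by omega) c hci x hx hx0 0
  rw [count_huge5 (K := K) hodd (by omega), Nat.cast_zero] at hr
  rw [F5MN_padicValRat_y N K hx0, F5MN_val_factorial (by omega)]
  have e1 : 2 * N / p = 0 := Nat.div_eq_of_lt (by omega)
  have : ∑ k ∈ range K, (padicValNat p (2 * k - 1).factorial : ℤ) = 0 := by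
    refine sum_eq_zero fun k hk => ?_
    rw [mem_range] at hk
    rw [F5MN_val_factorial (by omega), Nat.div_eq_of_lt (by omega)]
    rfl
  rw [this, e1]
  push_cast
  linarith only [hr]


theorem c_VG {p : ℕ} [Fact p.Prime] (P R : ℤ) (q : ℕ) (hq : 1 ≤ q) (i : ℕ) :
    VG p (-(padicValNat p q : ℤ)) (F5MN_c ((P : ℚ) / q) ((R : ℚ) / q) i) := by
  have hq0 : (q : ℚ) ≠ 0 := by
    have : q ≠ 0 := by omega
    exact_mod_cast this
  have hinv : VG p (-(padicValNat p q : ℤ)) ((q : ℚ)⁻¹) := by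
    apply VG_inv hq0
    rw [padicValRat.of_nat]
  have key : ∀ (n : ℤ) (z : ℤ), VG p (-(padicValNat p q : ℤ)) ((n : ℚ) * ((z : ℚ) / q)) := by
    intro n z
    have h1 : VG p (-(padicValNat p q : ℤ)) ((z : ℚ) / q) := by
      rw [div_eq_mul_inv]
      exact VG_mul' (VG_int z) hinv (by omega)
    exact VG_mul' (VG_int n) h1 (by omega)
  unfold F5MN_c
  split_ifs with h h
  · exact_mod_cast key 4 P
  · exact_mod_cast key 16 R
  · exact VG_zero _

/-- the growth estimate. -/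
theorem growth : ∃ M₀ : ℕ, ∀ M ≥ M₀,
    ((5 * M : ℕ) : ℝ) * (5 * (Nat.log 2 (2 * (5 * M)) : ℝ)) *
      Real.log 2 + 81.8 * (M : ℝ) ^ 2 ≤ 81.9 * (M : ℝ) ^ 2 := by
  have h1 : ∀ᶠ M : ℕ in Filter.atTop, Real.log (10 * (M : ℝ)) ≤ 1 / 4000 * (10 * (M : ℝ)) := by
    have h2 := Real.isLittleO_log_id_atTop.def (c := 1 / 4000) (by norm_num)
    have h3 : Filter.Tendsto (fun M : ℕ => 10 * (M : ℝ)) Filter.atTop Filter.atTop :=
      tendsto_natCast_atTop_atTop.const_mul_atTop (by norm_num)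
    filter_upwards [h3.eventually h2] with M hM
    simp only [id, Real.norm_eq_abs] at hM
    rw [abs_of_nonneg (by positivity : (0 : ℝ) ≤ 10 * (M : ℝ))] at hM
    exact le_trans (le_abs_self _) hM
  obtain ⟨M₁, hM₁⟩ := Filter.eventually_atTop.mp h1
  refine ⟨max M₁ 1, fun M hM => ?_⟩
  have hM1 := hM₁ M (le_trans (le_max_left _ _) hM)
  have hM2 : 1 ≤ M := le_trans (le_max_right _ _) hM
  have hM0 : (0 : ℝ) < M := by exact_mod_cast hM2
  have hlog : (Nat.log 2 (2 * (5 * M)) : ℝ) * Real.log 2 ≤ Real.log (10 * (M : ℝ)) := by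
    rw [← Real.log_pow]
    refine Real.log_le_log (by positivity) ?_
    have h4 : 2 ^ Nat.log 2 (2 * (5 * M)) ≤ 2 * (5 * M) := Nat.pow_log_le_self 2 (by omega)
    have h5 : ((2 ^ Nat.log 2 (2 * (5 * M)) : ℕ) : ℝ) ≤ ((2 * (5 * M) : ℕ) : ℝ) := by
      exact_mod_cast h4
    push_cast at h5
    linarith only [h5]
  have hA : (5 * (M : ℝ)) * (5 * ((Nat.log 2 (2 * (5 * M)) : ℝ) * Real.log 2)) ≤
      (5 * (M : ℝ)) * (5 * (1 / 4000 * (10 * (M : ℝ)))) := by
    refine mul_le_mul_of_nonneg_left ?_ (by positivity)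
    linarith only [hlog, hM1]
  push_cast
  have hM20 : 0 < (M : ℝ) ^ 2 := by positivity
  linarith only [hM20, hA]

theorem xArith : ARITH := by
  obtain ⟨M₂, hM₂⟩ := prime_sum_le5 0
  obtain ⟨M₃, hM₃⟩ := growth
  refine ⟨max (max M₂ M₃) 1, fun M hM P R q hq x hx0 hx => ?_⟩
  have h2M : M₂ ≤ M := le_trans (le_trans (le_max_left _ _) (le_max_left _ _)) hM
  have h3M : M₃ ≤ M := le_trans (le_trans (le_max_right _ _) (le_max_left _ _)) hM
  have h1M : 1 ≤ M := le_trans (le_max_right _ _) hM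
  have hprime := hM₂ M h2M
  have hgrow := hM₃ M h3M
  obtain ⟨c, hcdef⟩ : ∃ c, c = F5MN_c ((P : ℚ) / q) ((R : ℚ) / q) := ⟨_, rfl⟩
  rw [← hcdef] at hx
  have hX : HX c (2 * M) (5 * M) x := hx
  have hcv : ∀ (p : ℕ) [Fact p.Prime] (i : ℕ), VG p (-(padicValNat p q : ℤ)) (c i) := by
    intro p _ i
    rw [hcdef]
    exact c_VG P R q hq i
  have hN1 : 1 ≤ 2 * M := by omega
  have hK5 : 2 * (5 * M) = 5 * (2 * M) := by ring
  have hNK : 4 * (2 * M) ≤ 2 * (5 * M) := by omega
  obtain ⟨y, hydef⟩ : ∃ y, y = F5MN_y (2 * M) (5 * M) x := ⟨_, rfl⟩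
  have hy0 : y ≠ 0 := hydef ▸ F5MN_y_ne_zero (2 * M) (5 * M) hx0
  obtain ⟨S, hSdef⟩ : ∃ S, S = (range (10 * M + 1)).filter Nat.Prime ∪ q.primeFactors := ⟨_, rfl⟩
  have hSp : ∀ p ∈ S, p.Prime := by
    intro p hp
    rw [hSdef, mem_union] at hp
    rcases hp with hp | hp
    · exact (mem_filter.mp hp).2
    · exact Nat.prime_of_mem_primeFactors hp
  have hS := log_abs_ge y hy0 S hSp (by
      intro p hp hpS
      have : Fact p.Prime := ⟨hp⟩
      rw [hSdef, mem_union, not_or] at hpS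
      have hpl : 10 * M < p := by
        by_contra hcon
        apply hpS.1
        rw [mem_filter, mem_range]
        exact ⟨by omega, hp⟩
      have hv : padicValNat p q = 0 := by
        apply padicValNat.eq_zero_of_not_dvd
        intro hd
        exact hpS.2 (Nat.mem_primeFactors.2 ⟨hp, hd, by omega⟩)
      have h := large (p := p) (v := padicValNat p q) (by omega) hN1 hNK c (hcv p) x hX hx0
        (by omega)
      rw [hv, ← hydef] at h
      have h' : (0 : ℝ) ≤ (padicValRat p y : ℝ) := by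
        push_cast at h
        linarith only [h]
      exact_mod_cast h')
  have hlogq := LogAbs_nat q (by omega) S hSp (by
    rw [hSdef]; exact subset_union_right)
  -- the bound for a single prime
  obtain ⟨E, hE⟩ : ∃ E : ℕ → ℝ, E = fun p => if p = 2 then
      ((5 * M : ℕ) : ℝ) * (5 * (Nat.log 2 (2 * (5 * M)) : ℝ)) else
      if p ≤ 10 * M then Ebd5 0 (2 * M) (5 * M) p else 0 := ⟨_, rfl⟩
  have hone : ∀ p ∈ S, -(padicValRat p y : ℝ) * Real.log p ≤
      (E p + ((5 * M : ℕ) : ℝ) * (padicValNat p q : ℝ)) * Real.log p := by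
    intro p hp
    have hpp := hSp p hp
    have : Fact p.Prime := ⟨hpp⟩
    refine mul_le_mul_of_nonneg_right ?_ (Real.log_natCast_nonneg p)
    rw [hE, hydef]
    simp only
    by_cases h2 : p = 2
    · subst h2
      rw [if_pos rfl]
      have he' : 2 * (5 * M) < 2 ^ (Nat.log 2 (2 * (5 * M)) + 1) :=
        Nat.lt_pow_succ_log_self (by norm_num) _
      have h := two (d := padicValNat 2 q) hK5.le (by (clear * - h1M he'; omega)) he' c (hcv 2)
        x hX hx0
      have h' : ((-(padicValRat 2 (F5MN_y (2 * M) (5 * M) x)) : ℤ) : ℝ) ≤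
        ((((5 * M : ℕ) : ℤ) * (5 * (Nat.log 2 (2 * (5 * M)) : ℤ) + (padicValNat 2 q : ℤ)) : ℤ) : ℝ) :=
        Int.cast_le.2 h
      generalize padicValNat 2 q = v at h' ⊢
      push_cast at h' ⊢
      linarith only [h']
    · rw [if_neg h2]
      by_cases hl : p ≤ 10 * M
      · rw [if_pos hl]
        by_cases hsq : p ^ 2 ≤ 2 * (5 * M)
        · exact crude h2 hNK c (hcv p) x hX hx0 hsq
        · exact refined h2 hN1 hK5 c (hcv p) x hX hx0 (by omega) (by omega)
      · rw [if_neg hl, zero_add]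
        exact large h2 hN1 hNK c (hcv p) x hX hx0 (by omega)
  have hsum := sum_le_sum hone
  have hsumE : ∑ p ∈ S, E p * Real.log p =
      ((5 * M : ℕ) : ℝ) * (5 * (Nat.log 2 (2 * (5 * M)) : ℝ)) * Real.log 2 +
      ∑ p ∈ (range (10 * M + 1)).filter (fun p => p.Prime ∧ p ≠ 2),
        Ebd5 0 (2 * M) (5 * M) p * Real.log p := by
    have hsub : (range (10 * M + 1)).filter Nat.Prime ⊆ S := by
      rw [hSdef]; exact subset_union_left
    rw [← sum_subset hsub]
    · have hset : (range (10 * M + 1)).filter Nat.Prime =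
          insert 2 ((range (10 * M + 1)).filter (fun p => p.Prime ∧ p ≠ 2)) := by
        ext p
        simp only [mem_filter, mem_range, mem_insert]
        constructor
        · rintro ⟨ha, hb⟩
          by_cases h : p = 2
          · exact Or.inl h
          · exact Or.inr ⟨ha, hb, h⟩
        · rintro (h | ⟨ha, hb, _⟩)
          · subst h
            exact ⟨by omega, Nat.prime_two⟩
          · exact ⟨ha, hb⟩
      rw [hset, sum_insert (by simp)]
      congr 1
      · rw [hE]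
        simp
      · refine sum_congr rfl fun p hp => ?_
        rw [mem_filter, mem_range] at hp
        rw [hE]
        simp only
        rw [if_neg hp.2.2, if_pos (by omega)]
    · intro p hp hpn
      have hpl : 10 * M < p := by
        by_contra hcon
        apply hpn
        rw [mem_filter, mem_range]
        exact ⟨by omega, hSp p hp⟩
      rw [hE]
      simp only
      rw [if_neg (by omega), if_neg (by omega), zero_mul]
  simp only [neg_mul, sum_neg_distrib, add_mul, sum_add_distrib] at hsum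
  rw [hsumE] at hsum
  have hq' : ∑ p ∈ S, ((5 * M : ℕ) : ℝ) * (padicValNat p q : ℝ) * Real.log p =
      5 * (M : ℝ) * Real.log q := by
    rw [hlogq, mul_sum]
    refine sum_congr rfl fun p _ => ?_
    push_cast
    ring
  rw [hq'] at hsum
  rw [← hydef]
  linarith only [hsum, hS, hgrow, hprime]

end Vale.Agent.P030.Q.Arith
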