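import Vale.Agent.P030.Q.Defs

/-! The bound of the moments of the residue functionals. -/

namespace Vale.Agent.P030.Q.Bmb

open Finset Polynomial Vale.Agent.P030 Vale.Agent.P030.Five Vale.Agent.P030.Q

/-- The size of the first four coefficients. -/
noncomputable def nm (f : PowerSeries ℚ) : ℚ := ∑ s ∈ range 4, |PowerSeries.coeff s f|

theorem nm_nonneg (f : PowerSeries ℚ) : 0 ≤ nm f := sum_nonneg fun _ _ => abs_nonneg _

theorem coeff_le_nm {r : ℕ} (hr : r ≤ 3) (f : PowerSeries ℚ) :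
    |PowerSeries.coeff r f| ≤ nm f :=
  single_le_sum (f := fun s => |PowerSeries.coeff s f|) (fun _ _ => abs_nonneg _)
    (mem_range.2 (by omega))

theorem nm_mul (f g : PowerSeries ℚ) : nm (f * g) ≤ nm f * nm g := by
  have h : ∀ s, |PowerSeries.coeff s (f * g)| ≤
      ∑ x ∈ antidiagonal s, |PowerSeries.coeff x.1 f| * |PowerSeries.coeff x.2 g| := by
    intro s
    rw [PowerSeries.coeff_mul]
    refine (abs_sum_le_sum_abs _ _).trans (le_of_eq ?_)
    exact sum_congr rfl fun x _ => abs_mul _ _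
  have h0 := h 0
  have h1 := h 1
  have h2 := h 2
  have h3 := h 3
  rw [Finset.Nat.sum_antidiagonal_eq_sum_range_succ_mk] at h0 h1 h2 h3
  simp only [Nat.succ_eq_add_one, sum_range_succ, range_zero, sum_empty, zero_add, Nat.sub_zero,
    Nat.sub_self, Nat.reduceSub, Nat.reduceAdd] at h0 h1 h2 h3
  unfold nm
  simp only [sum_range_succ, range_zero, sum_empty, zero_add]
  have a0 := abs_nonneg (PowerSeries.coeff 0 f)
  have a1 := abs_nonneg (PowerSeries.coeff 1 f)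
  have a2 := abs_nonneg (PowerSeries.coeff 2 f)
  have a3 := abs_nonneg (PowerSeries.coeff 3 f)
  have b0 := abs_nonneg (PowerSeries.coeff 0 g)
  have b1 := abs_nonneg (PowerSeries.coeff 1 g)
  have b2 := abs_nonneg (PowerSeries.coeff 2 g)
  have b3 := abs_nonneg (PowerSeries.coeff 3 g)
  have m1 := mul_nonneg a1 b3
  have m2 := mul_nonneg a2 b2
  have m3 := mul_nonneg a2 b3
  have m4 := mul_nonneg a3 b1
  have m5 := mul_nonneg a3 b2
  have m6 := mul_nonneg a3 b3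
  nlinarith [h0, h1, h2, h3, m1, m2, m3, m4, m5, m6]

theorem nm_one : nm 1 = 1 := by
  simp [nm, sum_range_succ, PowerSeries.coeff_one]

theorem nm_pow (f : PowerSeries ℚ) (n : ℕ) : nm (f ^ n) ≤ nm f ^ n := by
  induction n with
  | zero => rw [pow_zero, pow_zero, nm_one]
  | succ n ih =>
    rw [pow_succ, pow_succ]
    exact (nm_mul _ _).trans (mul_le_mul_of_nonneg_right ih (nm_nonneg _))

theorem nm_prod {ι : Type} (s : Finset ι) (f : ι → PowerSeries ℚ) :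
    nm (∏ i ∈ s, f i) ≤ ∏ i ∈ s, nm (f i) := by
  classical
  induction s using Finset.induction_on with
  | empty => rw [prod_empty, prod_empty, nm_one]
  | insert a s ha ih =>
    rw [prod_insert ha, prod_insert ha]
    exact (nm_mul _ _).trans (mul_le_mul_of_nonneg_left ih (nm_nonneg _))

theorem nm_lin (c : ℚ) : nm (lin c) = |c| + 1 := by
  simp [nm, sum_range_succ, coeff_lin]

theorem nm_lin_inv {c : ℚ} (hc : 1 ≤ |c|) : nm (lin c)⁻¹ ≤ 4 / |c| := by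
  have h0 : c ≠ 0 := by
    rintro rfl
    rw [abs_zero] at hc
    linarith
  have h1 : |c|⁻¹ ≤ 1 := inv_le_one_of_one_le₀ hc
  have h2 : 0 ≤ |c|⁻¹ := inv_nonneg.2 (abs_nonneg _)
  have h3 : ∀ s ∈ range 4, |PowerSeries.coeff s (lin c)⁻¹| ≤ |c|⁻¹ := by
    intro s _
    rw [lin_inv h0, PowerSeries.coeff_mk, abs_mul, abs_pow, abs_pow, abs_neg, abs_one,
      one_pow, one_mul, abs_inv, pow_succ]
    exact mul_le_of_le_one_left h2 (pow_le_one₀ h2 h1)
  refine (sum_le_sum h3).trans (le_of_eq ?_)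
  rw [sum_const, card_range, nsmul_eq_mul, div_eq_mul_inv]
  norm_num

theorem prod_left (j : ℤ) (n : ℕ) : ∏ i ∈ Ico (j - n) j, |(j : ℚ) - i| = n.factorial := by
  induction n with
  | zero => simp
  | succ n ih =>
    have h : Ico (j - (n + 1 : ℕ)) j = insert (j - n - 1) (Ico (j - n) j) := by
      ext i
      simp only [mem_Ico, mem_insert]
      push_cast
      omega
    rw [h, prod_insert (by simp), ih, Nat.factorial_succ]
    push_cast
    have h2 : (j : ℚ) - (j - n - 1) = n + 1 := by ring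
    rw [h2, abs_of_nonneg (by positivity)]

theorem prod_right (j : ℤ) (n : ℕ) : ∏ i ∈ Ioc j (j + n), |(j : ℚ) - i| = n.factorial := by
  induction n with
  | zero => simp
  | succ n ih =>
    have h : Ioc j (j + (n + 1 : ℕ)) = insert (j + n + 1) (Ioc j (j + n)) := by
      ext i
      simp only [mem_Ioc, mem_insert]
      push_cast
      omega
    rw [h, prod_insert (by simp), ih, Nat.factorial_succ]
    push_cast
    have h2 : (j : ℚ) - (j + n + 1) = -(n + 1) := by ring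
    rw [h2, abs_neg, abs_of_nonneg (by positivity)]

theorem prod_all {N a b : ℕ} {j : ℤ} (ha : (N : ℤ) + j = a) (hb : (N : ℤ) - j = b) :
    ∏ i ∈ (Icc (-(N : ℤ)) N).erase j, |(j : ℚ) - i| = a.factorial * b.factorial := by
  have h : (Icc (-(N : ℤ)) N).erase j = Ico (j - a) j ∪ Ioc j (j + b) := by
    ext i
    simp only [mem_erase, mem_Icc, mem_union, mem_Ico, mem_Ioc]
    omega
  have hd : Disjoint (Ico (j - a) j) (Ioc j (j + b)) := by
    rw [Finset.disjoint_left]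
    intro i h1 h2
    rw [mem_Ico] at h1
    rw [mem_Ioc] at h2
    omega
  rw [h, prod_union hd, prod_left, prod_right]

theorem nm_E {N a b : ℕ} {j : ℤ} (ha : (N : ℤ) + j = a) (hb : (N : ℤ) - j = b) :
    ((2 * N).factorial : ℚ) ^ 5 * nm (F5PF_E (Icc (-(N : ℤ)) N) j) ≤ 2 ^ (30 * N) := by
  have hab : a + b = 2 * N := by omega
  have hcard : ((Icc (-(N : ℤ)) N).erase j).card = 2 * N := by
    rw [card_erase_of_mem (by rw [mem_Icc]; omega), Int.card_Icc]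
    omega
  have h1 : nm (F5PF_E (Icc (-(N : ℤ)) N) j) ≤
      ∏ i ∈ (Icc (-(N : ℤ)) N).erase j, (4 / |(j : ℚ) - i|) ^ 5 := by
    refine (nm_prod _ _).trans (prod_le_prod (fun _ _ => nm_nonneg _) fun i hi => ?_)
    refine (nm_pow _ _).trans (pow_le_pow_left₀ (nm_nonneg _) (nm_lin_inv ?_) 5)
    have h2 : j - i ≠ 0 := sub_ne_zero.2 (ne_of_mem_erase hi).symm
    have h3 : 1 ≤ |j - i| := Int.one_le_abs h2
    exact_mod_cast h3
  have hfac : (0 : ℚ) < a.factorial * b.factorial := by positivity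
  have h4 : ∏ i ∈ (Icc (-(N : ℤ)) N).erase j, ((4 : ℚ) / |(j : ℚ) - i|) ^ 5 =
      ((4 : ℚ) ^ (2 * N) / ((a.factorial : ℚ) * b.factorial)) ^ 5 := by
    rw [prod_pow, prod_div_distrib, prod_const, hcard, prod_all ha hb]
  have h5 : ((2 * N).factorial : ℚ) = (2 * N).choose b * (a.factorial * b.factorial) := by
    have h := Nat.add_choose_mul_factorial_mul_factorial a b
    rw [hab] at h
    rw [← h]
    push_cast
    ring
  have h6 : ((2 * N).choose b : ℚ) ≤ 2 ^ (2 * N) := by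
    exact_mod_cast Nat.choose_le_two_pow (2 * N) b
  rw [h4] at h1
  calc ((2 * N).factorial : ℚ) ^ 5 * nm (F5PF_E (Icc (-(N : ℤ)) N) j)
      ≤ ((2 * N).factorial : ℚ) ^ 5 *
          ((4 : ℚ) ^ (2 * N) / ((a.factorial : ℚ) * b.factorial)) ^ 5 := by
        gcongr
    _ = (((2 * N).choose b : ℚ) * 4 ^ (2 * N)) ^ 5 := by
        rw [h5, ← mul_pow]
        congr 1
        field_simp
    _ ≤ (2 ^ (2 * N) * 4 ^ (2 * N)) ^ 5 := by
        gcongr
    _ = 2 ^ (30 * N) := by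
        have : (4 : ℚ) = 2 ^ 2 := by norm_num
        rw [this, ← pow_mul, ← pow_add, ← pow_mul]
        congr 1
        ring

theorem term_le {N a b r m : ℕ} {j : ℤ} (hN : 1 ≤ N) (ha : (N : ℤ) + j = a)
    (hb : (N : ℤ) - j = b) (hr : r ≤ 3) :
    ((2 * N).factorial : ℚ) ^ 5 * |(-1 : ℚ) ^ j * PowerSeries.coeff r
      (((((X : ℚ[X]) ^ (2 * m + 1)).comp (X + C (j : ℚ)) : ℚ[X]) : PowerSeries ℚ) *
      F5PF_E (Icc (-(N : ℤ)) N) j)| ≤ (2 * (N : ℚ)) ^ (2 * m + 1) * 2 ^ (30 * N) := by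
  have h1 : ((((X : ℚ[X]) ^ (2 * m + 1)).comp (X + C (j : ℚ)) : ℚ[X]) : PowerSeries ℚ) =
      lin (j : ℚ) ^ (2 * m + 1) := by
    rw [Polynomial.pow_comp, Polynomial.X_comp, Polynomial.coe_pow, PF_lin_coe]
  have h2 : nm (lin (j : ℚ)) ≤ 2 * (N : ℚ) := by
    rw [nm_lin]
    have h3 : |j| ≤ (N : ℤ) := abs_le.2 ⟨by omega, by omega⟩
    have h4 : |(j : ℚ)| ≤ (N : ℚ) := by exact_mod_cast h3
    have h5 : (1 : ℚ) ≤ N := by exact_mod_cast hN
    linarith
  have h3 : |(-1 : ℚ) ^ j| = 1 := by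
    rw [abs_zpow, abs_neg, abs_one, one_zpow]
  rw [abs_mul, h3, one_mul, h1]
  calc ((2 * N).factorial : ℚ) ^ 5 * |PowerSeries.coeff r
        (lin (j : ℚ) ^ (2 * m + 1) * F5PF_E (Icc (-(N : ℤ)) N) j)|
      ≤ ((2 * N).factorial : ℚ) ^ 5 * ((2 * (N : ℚ)) ^ (2 * m + 1) *
        nm (F5PF_E (Icc (-(N : ℤ)) N) j)) := by
        gcongr
        refine (coeff_le_nm hr _).trans ((nm_mul _ _).trans ?_)
        refine mul_le_mul_of_nonneg_right ?_ (nm_nonneg _)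
        exact (nm_pow _ _).trans (pow_le_pow_left₀ (nm_nonneg _) h2 _)
    _ = (2 * (N : ℚ)) ^ (2 * m + 1) * (((2 * N).factorial : ℚ) ^ 5 *
        nm (F5PF_E (Icc (-(N : ℤ)) N) j)) := by ring
    _ ≤ (2 * (N : ℚ)) ^ (2 * m + 1) * 2 ^ (30 * N) := by
        gcongr
        exact nm_E ha hb

theorem bm_le {N r m : ℕ} (hN : 1 ≤ N) (hr : r ≤ 3) :
    ((2 * N).factorial : ℚ) ^ 5 * |bm N r m| ≤
      (24 * 2 ^ 30 : ℚ) ^ N * (2 * (N : ℚ)) ^ (2 * m) := by
  have h1 : ((2 * N).factorial : ℚ) ^ 5 * |bm N r m| ≤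
      ∑ j ∈ Icc (-(N : ℤ)) N, (2 * (N : ℚ)) ^ (2 * m + 1) * 2 ^ (30 * N) := by
    unfold bm
    refine (mul_le_mul_of_nonneg_left (abs_sum_le_sum_abs _ _) (by positivity)).trans ?_
    rw [mul_sum]
    refine sum_le_sum fun j hj => ?_
    rw [mem_Icc] at hj
    obtain ⟨a, ha⟩ := Int.eq_ofNat_of_zero_le (show 0 ≤ (N : ℤ) + j by omega)
    obtain ⟨b, hb⟩ := Int.eq_ofNat_of_zero_le (show 0 ≤ (N : ℤ) - j by omega)
    exact term_le hN ha hb hr
  have hcard : (Icc (-(N : ℤ)) N).card = 2 * N + 1 := by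
    rw [Int.card_Icc]
    omega
  rw [sum_const, hcard, nsmul_eq_mul] at h1
  refine h1.trans ?_
  have h2 : ((2 * N + 1 : ℕ) : ℚ) * (2 * (N : ℚ)) ≤ 24 ^ N := by
    have h3 : (N : ℚ) ≤ 2 ^ N := by exact_mod_cast Nat.lt_two_pow_self.le
    have h4 : (1 : ℚ) ≤ 2 ^ N := one_le_pow₀ (by norm_num)
    have h5 : (6 : ℚ) ≤ 6 ^ N := by
      calc (6 : ℚ) = 6 ^ 1 := by norm_num
        _ ≤ 6 ^ N := pow_le_pow_right₀ (by norm_num) hN
    have h6 : ((2 * N + 1 : ℕ) : ℚ) ≤ 3 * 2 ^ N := by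
      push_cast
      linarith
    calc ((2 * N + 1 : ℕ) : ℚ) * (2 * (N : ℚ)) ≤ (3 * 2 ^ N) * (2 * 2 ^ N) := by gcongr
      _ = 6 * (2 ^ N * 2 ^ N) := by ring
      _ ≤ 6 ^ N * (2 ^ N * 2 ^ N) := by gcongr
      _ = 24 ^ N := by
        rw [← mul_pow, ← mul_pow]
        norm_num
  calc ((2 * N + 1 : ℕ) : ℚ) * ((2 * (N : ℚ)) ^ (2 * m + 1) * 2 ^ (30 * N))
      = (((2 * N + 1 : ℕ) : ℚ) * (2 * (N : ℚ))) * 2 ^ (30 * N) * (2 * (N : ℚ)) ^ (2 * m) := by
        ring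
    _ ≤ 24 ^ N * 2 ^ (30 * N) * (2 * (N : ℚ)) ^ (2 * m) := by gcongr
    _ = (24 * 2 ^ 30 : ℚ) ^ N * (2 * (N : ℚ)) ^ (2 * m) := by
        rw [mul_pow (24 : ℚ) (2 ^ 30) N, ← pow_mul (2 : ℚ) 30 N]

theorem xBMB : BMB := by
  refine ⟨24 * 2 ^ 30, fun N hN r m hr _ => ?_⟩
  have h := bm_le (m := m) hN hr
  have h2 : (((((2 * N).factorial : ℚ) ^ 5 * |bm N r m| : ℚ)) : ℝ) ≤
      (((24 * 2 ^ 30 : ℚ) ^ N * (2 * (N : ℚ)) ^ (2 * m) : ℚ) : ℝ) := by exact_mod_cast h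
  push_cast at h2
  exact h2

end Vale.Agent.P030.Q.Bmb
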