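import Vale.Agent.P030.Q.Defs

set_option linter.all false

/-! Block COEFF: bounds for the Taylor coefficients of the inverse Laplace transform. -/

namespace Vale.Agent.P030.Q.CoeffB

open Finset Polynomial Vale.Agent.P030 Vale.Agent.P030.Five Vale.Agent.P030.Q

/-- multiplication by a further geometric series -/
theorem geo_step {N : ℝ} (hN : 0 < N) {W : ℝ} (hW : 0 ≤ W) {l : ℕ} {T : PowerSeries ℝ}
    (hT : ∀ r, |PowerSeries.coeff r T| ≤ 2 ^ (r + l) * N ^ r * W) {a : ℝ} (ha : |a| ≤ N) (r : ℕ) :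
    |PowerSeries.coeff r (NVPhi_geo a * T)| ≤ 2 ^ (r + (l + 1)) * N ^ r * W := by
  rw [PowerSeries.coeff_mul, Finset.Nat.sum_antidiagonal_eq_sum_range_succ_mk]
  have h1 : ∀ i ∈ range (r + 1), |PowerSeries.coeff i (NVPhi_geo a) *
      PowerSeries.coeff (r - i) T| ≤ 2 ^ (r - i) * (2 ^ l * N ^ r * W) := by
    intro i hi
    have hir : i ≤ r := by
      rw [Finset.mem_range] at hi
      omega
    rw [abs_mul, NVPhi_geo, PowerSeries.coeff_mk, abs_pow]
    have h2 : |a| ^ i ≤ N ^ i := pow_le_pow_left₀ (abs_nonneg _) ha _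
    have h3 := hT (r - i)
    calc |a| ^ i * |PowerSeries.coeff (r - i) T| ≤
        N ^ i * (2 ^ (r - i + l) * N ^ (r - i) * W) := by
          apply mul_le_mul h2 h3 (abs_nonneg _) (by positivity)
      _ = 2 ^ (r - i) * (2 ^ l * (N ^ i * N ^ (r - i)) * W) := by
          rw [pow_add]; ring
      _ = _ := by rw [← pow_add, Nat.add_sub_cancel' hir]
  refine (Finset.abs_sum_le_sum_abs _ _).trans ((Finset.sum_le_sum h1).trans ?_)
  rw [← Finset.sum_mul]
  have h4 : ∑ i ∈ range (r + 1), (2 : ℝ) ^ (r - i) = ∑ i ∈ range (r + 1), (2 : ℝ) ^ i := by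
    have := Finset.sum_range_reflect (fun i => (2 : ℝ) ^ i) (r + 1)
    rw [← this]
    refine Finset.sum_congr rfl fun i _ => ?_
    congr 1
  rw [h4]
  have h5 : ∑ i ∈ range (r + 1), (2 : ℝ) ^ i ≤ 2 ^ (r + 1) := by
    rw [geom_sum_eq (by norm_num)]
    norm_num
  calc (∑ i ∈ range (r + 1), (2 : ℝ) ^ i) * (2 ^ l * N ^ r * W) ≤
      2 ^ (r + 1) * (2 ^ l * N ^ r * W) := mul_le_mul_of_nonneg_right h5 (by positivity)
    _ = _ := by ring

/-- the first geometric series -/
theorem geo_first {N : ℝ} (hN : 0 < N) {A : ℝ[X]} {n : ℕ} (hA : A.natDegree < n) {a : ℝ}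
    (ha : |a| ≤ N) (r : ℕ) :
    |PowerSeries.coeff r (NVPhi_geo a * (A : PowerSeries ℝ))| ≤
      2 ^ (r + 0) * N ^ r * ∑ i ∈ range n, |A.coeff i| / N ^ i := by
  rw [mul_comm, PowerSeries.coeff_mul, Finset.Nat.sum_antidiagonal_eq_sum_range_succ_mk]
  have h1 : ∀ i ∈ range (r + 1), |PowerSeries.coeff i (A : PowerSeries ℝ) *
      PowerSeries.coeff (r - i) (NVPhi_geo a)| ≤ N ^ r * (|A.coeff i| / N ^ i) := by
    intro i hi
    have hir : i ≤ r := by
      rw [Finset.mem_range] at hi
      omega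
    rw [abs_mul, NVPhi_geo, PowerSeries.coeff_mk, abs_pow, Polynomial.coeff_coe]
    have h2 : |a| ^ (r - i) ≤ N ^ (r - i) := pow_le_pow_left₀ (abs_nonneg _) ha _
    have h3 : N ^ r = N ^ (r - i) * N ^ i := by rw [← pow_add, Nat.sub_add_cancel hir]
    calc |A.coeff i| * |a| ^ (r - i) ≤ |A.coeff i| * N ^ (r - i) :=
          mul_le_mul_of_nonneg_left h2 (abs_nonneg _)
      _ = N ^ r * (|A.coeff i| / N ^ i) := by
          rw [h3]
          field_simp
  refine (Finset.abs_sum_le_sum_abs _ _).trans ((Finset.sum_le_sum h1).trans ?_)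
  rw [← Finset.mul_sum]
  have h4 : ∑ i ∈ range (r + 1), |A.coeff i| / N ^ i ≤ ∑ i ∈ range n, |A.coeff i| / N ^ i := by
    rcases le_total (r + 1) n with h | h
    · exact Finset.sum_le_sum_of_subset_of_nonneg (Finset.range_mono h)
        fun i _ _ => by positivity
    · refine le_of_eq (Finset.sum_subset (Finset.range_mono h) fun i _ hi => ?_).symm
      rw [Finset.mem_range, not_lt] at hi
      rw [Polynomial.coeff_eq_zero_of_natDegree_lt (by omega), abs_zero, zero_div]
  have h5 : 0 ≤ ∑ i ∈ range n, |A.coeff i| / N ^ i := Finset.sum_nonneg fun i _ => by positivity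
  have h6 : (1 : ℝ) ≤ 2 ^ (r + 0) := one_le_pow₀ (by norm_num)
  calc N ^ r * ∑ i ∈ range (r + 1), |A.coeff i| / N ^ i ≤
      N ^ r * ∑ i ∈ range n, |A.coeff i| / N ^ i := mul_le_mul_of_nonneg_left h4 (by positivity)
    _ ≤ 2 ^ (r + 0) * (N ^ r * ∑ i ∈ range n, |A.coeff i| / N ^ i) :=
        le_mul_of_one_le_left (by positivity) h6
    _ = _ := by ring

/-- all geometric series -/
theorem geo_all {N : ℝ} (hN : 0 < N) {A : ℝ[X]} {n : ℕ} (hA : A.natDegree < n) {a : ℝ}
    (ha : |a| ≤ N) (L : List ℝ) (hL : ∀ b ∈ L, |b| ≤ N) : ∀ r : ℕ,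
    |PowerSeries.coeff r ((L.map NVPhi_geo).prod * (NVPhi_geo a * (A : PowerSeries ℝ)))| ≤
      2 ^ (r + L.length) * N ^ r * ∑ i ∈ range n, |A.coeff i| / N ^ i := by
  induction L with
  | nil =>
    intro r
    rw [List.map_nil, List.prod_nil, one_mul, List.length_nil]
    exact geo_first hN hA ha r
  | cons b L ih =>
    intro r
    rw [List.map_cons, List.prod_cons, mul_assoc, List.length_cons]
    exact geo_step hN (Finset.sum_nonneg fun i _ => by positivity)
      (ih fun c hc => hL c (List.mem_cons_of_mem _ hc)) (hL b (List.mem_cons_self)) r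

/-- the roots are at most `N` in absolute value -/
theorem abs_le_of_mem {N : ℕ} {a : ℝ} (ha : a ∈ NVPhi_list N) : |a| ≤ N := by
  rw [NVPhi_list, List.mem_append] at ha
  rcases ha with h | h
  · rw [List.mem_flatMap] at h
    obtain ⟨j, hj, h⟩ := h
    rw [Finset.mem_toList, Finset.mem_Icc] at hj
    rw [List.eq_of_mem_replicate h, abs_le]
    exact ⟨by exact_mod_cast hj.1, by exact_mod_cast hj.2⟩
  · rw [List.mem_flatMap] at h
    obtain ⟨k, hk, h⟩ := h
    rw [Finset.mem_toList, Finset.mem_range] at hk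
    have hk' : (k : ℝ) + 1 ≤ N := by exact_mod_cast hk
    have hk0 : (0 : ℝ) ≤ k := Nat.cast_nonneg _
    simp only [List.mem_cons, List.not_mem_nil, or_false] at h
    rcases h with rfl | rfl
    · rw [abs_le]; constructor <;> linarith
    · rw [abs_le]; constructor <;> linarith

theorem mul_geo_prod (L : List ℝ) :
    (L.map fun a => 1 - PowerSeries.C a * PowerSeries.X).prod * (L.map NVPhi_geo).prod = 1 := by
  induction L with
  | nil => simp
  | cons a L ih =>
    rw [List.map_cons, List.map_cons, List.prod_cons, List.prod_cons, mul_mul_mul_comm,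
      NVPhi_geo_mul, ih, one_mul]

theorem B_eq (N : ℕ) : NVPhi_B N = ((NVPhi_list N).map NVPhi_geo).prod := by
  have h1 := NVPhi_list_mul_B N
  have h2 := mul_geo_prod (NVPhi_list N)
  calc NVPhi_B N = ((((NVPhi_list N).map fun a => 1 - PowerSeries.C a * PowerSeries.X).prod *
        ((NVPhi_list N).map NVPhi_geo).prod)) * NVPhi_B N := by rw [h2, one_mul]
    _ = (((NVPhi_list N).map fun a => 1 - PowerSeries.C a * PowerSeries.X).prod * NVPhi_B N) *
        ((NVPhi_list N).map NVPhi_geo).prod := by ring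
    _ = _ := by rw [h1, one_mul]

/-- multiplication by a linear factor -/
theorem lin_step {N : ℝ} (hN : 0 < N) {a : ℝ} (ha : |a| ≤ N) (F : PowerSeries ℝ) (n : ℕ) :
    ∑ i ∈ range n, |PowerSeries.coeff i ((1 - PowerSeries.C a * PowerSeries.X) * F)| / N ^ i ≤
      2 * ∑ i ∈ range n, |PowerSeries.coeff i F| / N ^ i := by
  have h0 : ∀ i, |PowerSeries.coeff i ((1 - PowerSeries.C a * PowerSeries.X) * F)| / N ^ i ≤
      |PowerSeries.coeff i F| / N ^ i +
        (if i = 0 then 0 else |PowerSeries.coeff (i - 1) F| / N ^ (i - 1)) := by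
    intro i
    rcases Nat.eq_zero_or_pos i with rfl | hi
    · rw [if_pos rfl, add_zero]
      have : PowerSeries.coeff 0 ((1 - PowerSeries.C a * PowerSeries.X) * F) =
          PowerSeries.coeff 0 F := by
        simp [PowerSeries.coeff_zero_eq_constantCoeff]
      rw [this]
    · obtain ⟨m, rfl⟩ : ∃ m, i = m + 1 := ⟨i - 1, by omega⟩
      rw [if_neg (by omega), Nat.add_sub_cancel]
      have h1 : PowerSeries.coeff (m + 1) ((1 - PowerSeries.C a * PowerSeries.X) * F) =
          PowerSeries.coeff (m + 1) F - a * PowerSeries.coeff m F := by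
        rw [sub_mul, one_mul, map_sub, mul_assoc, PowerSeries.coeff_C_mul,
          PowerSeries.coeff_succ_X_mul]
      rw [h1]
      have h2 : |PowerSeries.coeff (m + 1) F - a * PowerSeries.coeff m F| ≤
          |PowerSeries.coeff (m + 1) F| + N * |PowerSeries.coeff m F| := by
        refine (abs_sub _ _).trans (add_le_add le_rfl ?_)
        rw [abs_mul]
        exact mul_le_mul_of_nonneg_right ha (abs_nonneg _)
      calc |PowerSeries.coeff (m + 1) F - a * PowerSeries.coeff m F| / N ^ (m + 1) ≤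
          (|PowerSeries.coeff (m + 1) F| + N * |PowerSeries.coeff m F|) / N ^ (m + 1) :=
            div_le_div_of_nonneg_right h2 (by positivity)
        _ = _ := by
            rw [add_div, pow_succ']
            congr 1
            field_simp
  refine (Finset.sum_le_sum fun i _ => h0 i).trans ?_
  rw [Finset.sum_add_distrib, two_mul]
  refine add_le_add le_rfl ?_
  rcases Nat.eq_zero_or_pos n with rfl | hn
  · simp
  · obtain ⟨m, rfl⟩ : ∃ m, n = m + 1 := ⟨n - 1, by omega⟩
    rw [Finset.sum_range_succ', if_pos rfl, add_zero]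
    have : ∑ k ∈ range m, (if k + 1 = 0 then (0 : ℝ) else
        |PowerSeries.coeff (k + 1 - 1) F| / N ^ (k + 1 - 1)) =
        ∑ k ∈ range m, |PowerSeries.coeff k F| / N ^ k :=
      Finset.sum_congr rfl fun k _ => by rw [if_neg (by omega), Nat.add_sub_cancel]
    rw [this]
    exact Finset.sum_le_sum_of_subset_of_nonneg (Finset.range_mono (by omega))
      fun i _ _ => by positivity

theorem lin_all {N : ℝ} (hN : 0 < N) (F : PowerSeries ℝ) (n : ℕ) (L : List ℝ)
    (hL : ∀ b ∈ L, |b| ≤ N) :
    ∑ i ∈ range n, |PowerSeries.coeff i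
      ((L.map fun a => 1 - PowerSeries.C a * PowerSeries.X).prod * F)| / N ^ i ≤
      2 ^ L.length * ∑ i ∈ range n, |PowerSeries.coeff i F| / N ^ i := by
  induction L with
  | nil => simp
  | cons b L ih =>
    rw [List.map_cons, List.prod_cons, mul_assoc, List.length_cons]
    refine (lin_step hN (hL b List.mem_cons_self) _ n).trans ?_
    have := ih fun c hc => hL c (List.mem_cons_of_mem _ hc)
    calc _ ≤ 2 * (2 ^ L.length * ∑ i ∈ range n, |PowerSeries.coeff i F| / N ^ i) := by
          linarith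
      _ = _ := by ring

theorem xCOEFF : COEFF := by
  intro N hN P hP hk
  have hN0 : (0 : ℝ) < N := by exact_mod_cast hN
  set μ := 12 * N + 3 - 2 * P.natDegree with hμ
  set A := NVPhi_A μ P with hA
  have hdeg : A.natDegree < 12 * N + 4 := by
    have := NVPhi_A_natDegree μ P
    rw [← hA] at this
    omega
  have hlist := NVPhi_list_length N
  refine ⟨?_, ?_, ?_⟩
  · intro r
    obtain ⟨a, L, hL⟩ : ∃ a L, NVPhi_list N = a :: L := by
      cases h : NVPhi_list N with
      | nil => rw [h] at hlist; simp at hlist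
      | cons a L => exact ⟨a, L, rfl⟩
    have hlen : L.length = 12 * N + 4 := by
      rw [hL, List.length_cons] at hlist
      omega
    have h1 := geo_all hN0 hdeg (a := a) (abs_le_of_mem (by rw [hL]; exact List.mem_cons_self)) L
      (fun b hb => abs_le_of_mem (by rw [hL]; exact List.mem_cons_of_mem _ hb)) r
    have h2 : (L.map NVPhi_geo).prod * (NVPhi_geo a * (A : PowerSeries ℝ)) =
        (A : PowerSeries ℝ) * NVPhi_B N := by
      rw [B_eq, hL, List.map_cons, List.prod_cons]
      ring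
    rw [h2, hlen] at h1
    change |PowerSeries.coeff r ((A : PowerSeries ℝ) * NVPhi_B N)| ≤ _
    refine h1.trans (le_of_eq ?_)
    rw [Ws, pow_add, mul_pow]
    ring
  · have h1 := lin_all hN0 ((A : PowerSeries ℝ) * NVPhi_B N) (12 * N + 4) (NVPhi_list N)
      fun b hb => abs_le_of_mem hb
    rw [hlist, mul_left_comm, NVPhi_list_mul_B, mul_one] at h1
    simp only [Polynomial.coeff_coe] at h1
    exact h1
  · have h1 : A.coeff μ = 1 := by
      rw [hA, NVPhi_A_coeff, if_pos le_rfl, Nat.sub_self, if_pos (dvd_zero 2), Nat.zero_div,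
        Polynomial.coeff_zero_reverse, hP.leadingCoeff]
    have h2 : |A.coeff μ| / (N : ℝ) ^ μ ≤ Ws N P := by
      rw [Ws]
      refine Finset.single_le_sum (f := fun i => |A.coeff i| / (N : ℝ) ^ i)
        (fun i _ => by positivity) ?_
      rw [Finset.mem_range]
      omega
    rwa [h1, abs_one] at h2

end Vale.Agent.P030.Q.CoeffB
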