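import Mathlib

set_option linter.all false

/-! Consequences of a simultaneous measure for two real numbers. -/

namespace Vale.Agent.P030.Q

/-- if `y` is rational, the simultaneous measure gives a measure for `x`. -/
theorem cor_rat (x y : ℝ) (C : ℝ) (hC : 0 < C)
    (h : ∀ (p r : ℤ) (q : ℕ), 2 ≤ q →
      Real.exp (-(C * Real.log q ^ 2)) ≤ max |x - p / q| |y - r / q|)
    (hy : ¬ Irrational y) :
    ∃ D : ℝ, 0 < D ∧ ∀ (p : ℤ) (q : ℕ), 2 ≤ q →
      Real.exp (-(D * Real.log q ^ 2)) ≤ |x - p / q| := by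
  unfold Irrational at hy
  rw [not_not] at hy
  obtain ⟨a, ha⟩ := hy
  have hb1 : 1 ≤ a.den := a.den_pos
  obtain ⟨b, hb⟩ : ∃ b : ℕ, b = a.den := ⟨_, rfl⟩
  rw [← hb] at hb1
  have hbR : (1 : ℝ) ≤ b := by exact_mod_cast hb1
  have hay : y = (a.num : ℝ) / b := by
    rw [← ha, hb]
    exact_mod_cast (Rat.num_div_den a).symm
  have hl2 := Real.log_two_gt_d9
  have hlb : 0 ≤ Real.log b := Real.log_nonneg hbR
  obtain ⟨κ, hκ⟩ : ∃ κ : ℝ, κ = 1 + 2 * Real.log b := ⟨_, rfl⟩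
  have hκ0 : 0 < κ := by rw [hκ]; positivity
  refine ⟨C * κ ^ 2, by positivity, fun p q hq => ?_⟩
  have hqR : (2 : ℝ) ≤ q := by exact_mod_cast hq
  have hq0 : (q : ℝ) ≠ 0 := by positivity
  have hb0 : (b : ℝ) ≠ 0 := by positivity
  have h1 := h (p * b) (a.num * q) (q * b) (by nlinarith)
  have e1 : |x - ((p * b : ℤ) : ℝ) / ((q * b : ℕ) : ℝ)| = |x - p / q| := by
    congr 2
    push_cast
    field_simp
  have e2 : |y - ((a.num * q : ℤ) : ℝ) / ((q * b : ℕ) : ℝ)| = 0 := by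
    rw [abs_eq_zero, sub_eq_zero, hay]
    push_cast
    field_simp
  rw [e1, e2, max_eq_left (abs_nonneg _)] at h1
  refine le_trans (Real.exp_le_exp.2 ?_) h1
  have hlq : Real.log 2 ≤ Real.log q := Real.log_le_log (by norm_num) hqR
  have hlog : Real.log ((q * b : ℕ) : ℝ) = Real.log q + Real.log b := by
    push_cast
    exact Real.log_mul hq0 hb0
  have h2 : Real.log ((q * b : ℕ) : ℝ) ≤ κ * Real.log q := by
    rw [hlog, hκ]
    have : Real.log b * 0.5 ≤ Real.log b * Real.log q :=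
      mul_le_mul_of_nonneg_left (by linarith) hlb
    linarith
  have h3 : 0 ≤ Real.log ((q * b : ℕ) : ℝ) := by
    rw [hlog]
    linarith
  have h4 : Real.log ((q * b : ℕ) : ℝ) ^ 2 ≤ (κ * Real.log q) ^ 2 := pow_le_pow_left₀ h3 h2 2
  have h5 : C * Real.log ((q * b : ℕ) : ℝ) ^ 2 ≤ C * (κ * Real.log q) ^ 2 :=
    mul_le_mul_of_nonneg_left h4 hC.le
  have h6 : C * (κ * Real.log q) ^ 2 = C * κ ^ 2 * Real.log q ^ 2 := by ring
  linarith

end Vale.Agent.P030.Q
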