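import Vale.Agent.P030.Q.Defs

set_option linter.all false

/-! Block GRID of the quantitative form of P030: many sample points. -/

namespace Vale.Agent.P030.Q

open Finset Polynomial MeasureTheory Vale.Agent.P030 Vale.Agent.P030.Five

namespace GridH398

theorem exp_nat (m : ℕ) : Real.exp (m : ℝ) = Real.exp 1 ^ m := by
  rw [← Real.exp_nat_mul, mul_one]

theorem two_pow_le (m : ℕ) : (2 : ℝ) ^ m ≤ Real.exp (m : ℝ) := by
  rw [exp_nat]
  exact pow_le_pow_left₀ (by norm_num) (by have := Real.add_one_le_exp (1 : ℝ); linarith) m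

theorem fifteen_le : (15 : ℝ) ≤ Real.exp 3 := by
  have h : Real.exp 3 = Real.exp 1 ^ 3 := by rw [← exp_nat]; norm_num
  rw [h]
  have h1 : (2.7 : ℝ) ≤ Real.exp 1 := by have := Real.exp_one_gt_d9; linarith
  calc (15 : ℝ) ≤ 2.7 ^ 3 := by norm_num
    _ ≤ _ := pow_le_pow_left₀ (by norm_num) h1 3

theorem fifteen_pow_le (m : ℕ) : (15 : ℝ) ^ m ≤ Real.exp (3 * m : ℝ) := by
  have h : Real.exp (3 * m : ℝ) = Real.exp 3 ^ m := by
    rw [← Real.exp_nat_mul]; congr 1; ring
  rw [h]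
  exact pow_le_pow_left₀ (by norm_num) fifteen_le m

theorem nat_lt_exp (m : ℕ) : (m : ℝ) < Real.exp (m : ℝ) := by
  have := Real.add_one_le_exp (m : ℝ); linarith

theorem tail_bound {c : ℕ → ℝ} {K ρ lam : ℝ} (hK : 0 ≤ K) (hρ : 0 ≤ ρ) (hlam : 1 ≤ lam)
    (hc : ∀ r, |c r| ≤ K * ρ ^ r) (D : ℕ) {s : ℝ} (hs : |s| ≤ 1) :
    |NVPhi_F c s - ∑ r ∈ range (D + 1), c r * s ^ r / (r.factorial : ℝ)| ≤
      K * Real.exp (ρ * lam) / lam ^ (D + 1) := by
  have hlam0 : (0 : ℝ) < lam := by linarith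
  have hterm : ∀ r : ℕ, |c r * s ^ r / (r.factorial : ℝ)| ≤ K * (ρ ^ r / (r.factorial : ℝ)) := by
    intro r
    rw [abs_div, abs_mul, abs_pow, Nat.abs_cast, ← mul_div_assoc]
    have h1 : |s| ^ r ≤ 1 := pow_le_one₀ (abs_nonneg s) hs
    have h2 : |c r| * |s| ^ r ≤ K * ρ ^ r := by
      calc |c r| * |s| ^ r ≤ |c r| * 1 := mul_le_mul_of_nonneg_left h1 (abs_nonneg _)
        _ ≤ K * ρ ^ r := by rw [mul_one]; exact hc r
    exact div_le_div_of_nonneg_right h2 (Nat.cast_nonneg _)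
  have hE : ∀ x : ℝ, Summable (fun r : ℕ => x ^ r / (r.factorial : ℝ)) :=
    fun x => Real.summable_pow_div_factorial x
  have hsum : Summable (fun r : ℕ => c r * s ^ r / (r.factorial : ℝ)) :=
    Summable.of_norm_bounded ((hE ρ).mul_left K) (fun r => by
      rw [Real.norm_eq_abs]; exact hterm r)
  have hsplit := hsum.sum_add_tsum_nat_add (D + 1)
  have h1 : NVPhi_F c s - ∑ r ∈ range (D + 1), c r * s ^ r / (r.factorial : ℝ) =
      ∑' r : ℕ, c (r + (D + 1)) * s ^ (r + (D + 1)) / ((r + (D + 1)).factorial : ℝ) := by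
    unfold NVPhi_F
    rw [← hsplit]; ring
  rw [h1]
  have hexp : Real.exp (ρ * lam) = ∑' r : ℕ, (ρ * lam) ^ r / (r.factorial : ℝ) := by
    rw [Real.exp_eq_exp_ℝ, NormedSpace.exp_eq_tsum_div]
  have hs2 := (hE (ρ * lam)).sum_add_tsum_nat_add (D + 1)
  have hge : ∑' r : ℕ, (ρ * lam) ^ (r + (D + 1)) / ((r + (D + 1)).factorial : ℝ) ≤
      Real.exp (ρ * lam) := by
    rw [hexp, ← hs2]
    have : 0 ≤ ∑ r ∈ range (D + 1), (ρ * lam) ^ r / (r.factorial : ℝ) :=
      Finset.sum_nonneg fun r _ => by positivity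
    linarith
  have hsm : Summable (fun r : ℕ => K / lam ^ (D + 1) *
      ((ρ * lam) ^ (r + (D + 1)) / ((r + (D + 1)).factorial : ℝ))) :=
    ((summable_nat_add_iff (D + 1)).mpr (hE (ρ * lam))).mul_left _
  have hb := tsum_of_norm_bounded hsm.hasSum (f := fun r : ℕ =>
    c (r + (D + 1)) * s ^ (r + (D + 1)) / ((r + (D + 1)).factorial : ℝ)) (fun r => by
      rw [Real.norm_eq_abs]
      refine (hterm _).trans ?_
      rw [mul_pow, div_mul_eq_mul_div, le_div_iff₀ (pow_pos hlam0 _)]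
      have h2 : lam ^ (D + 1) ≤ lam ^ (r + (D + 1)) :=
        pow_le_pow_right₀ hlam (by omega)
      have h3 : 0 ≤ K * (ρ ^ (r + (D + 1)) / ((r + (D + 1)).factorial : ℝ)) := by positivity
      calc K * (ρ ^ (r + (D + 1)) / ((r + (D + 1)).factorial : ℝ)) * lam ^ (D + 1)
          ≤ K * (ρ ^ (r + (D + 1)) / ((r + (D + 1)).factorial : ℝ)) * lam ^ (r + (D + 1)) :=
            mul_le_mul_of_nonneg_left h2 h3
        _ = _ := by ring)
  rw [Real.norm_eq_abs, tsum_mul_left] at hb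
  refine hb.trans ?_
  rw [div_mul_eq_mul_div]
  exact div_le_div_of_nonneg_right (mul_le_mul_of_nonneg_left hge hK) (pow_nonneg hlam0.le _)

/-- some low Taylor coefficient is large -/
theorem coeff_low (hC : COEFF) {N : ℕ} (hN : 1 ≤ N) {P : ℝ[X]} (hP : P.Monic)
    (hk : 2 * P.natDegree < 5 * N) :
    ∃ r ∈ range (12 * N + 4), Ws N P * Real.exp (-(78 * N : ℝ)) ≤
      |cs N P r| / (r.factorial : ℝ) := by
  obtain ⟨-, h2, h3⟩ := hC N hN P hP hk
  have hN1 : (1 : ℝ) ≤ N := by exact_mod_cast hN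
  have hN0 : (0 : ℝ) < N := by linarith
  have hW : 0 < Ws N P := lt_of_lt_of_le (by positivity) h3
  by_contra hcon
  push Not at hcon
  have hstep : ∀ r ∈ range (12 * N + 4), |cs N P r| / (N : ℝ) ^ r <
      Ws N P * Real.exp (-(78 * N : ℝ)) * 15 ^ (12 * N + 3) := by
    intro r hr
    have hr' : r ≤ 12 * N + 3 := by have := mem_range.mp hr; omega
    have hlt := hcon r hr
    have hf : ((r.factorial : ℕ) : ℝ) ≤ 15 ^ (12 * N + 3) * (N : ℝ) ^ r := by
      have e1 : ((r.factorial : ℕ) : ℝ) ≤ (r : ℝ) ^ r := by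
        exact_mod_cast Nat.factorial_le_pow r
      have e2 : (r : ℝ) ^ r ≤ (15 * N : ℝ) ^ r := by
        apply pow_le_pow_left₀ (Nat.cast_nonneg _)
        have : (r : ℝ) ≤ 12 * N + 3 := by exact_mod_cast hr'
        linarith
      have e3 : (15 * N : ℝ) ^ r = 15 ^ r * (N : ℝ) ^ r := mul_pow _ _ _
      have e4 : (15 : ℝ) ^ r ≤ 15 ^ (12 * N + 3) := pow_le_pow_right₀ (by norm_num) hr'
      calc ((r.factorial : ℕ) : ℝ) ≤ 15 ^ r * (N : ℝ) ^ r := by rw [← e3]; exact e1.trans e2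
        _ ≤ _ := mul_le_mul_of_nonneg_right e4 (by positivity)
    have hf0 : (0 : ℝ) < (r.factorial : ℝ) := by exact_mod_cast r.factorial_pos
    rw [div_lt_iff₀ hf0] at hlt
    rw [div_lt_iff₀ (by positivity)]
    calc |cs N P r| < Ws N P * Real.exp (-(78 * N : ℝ)) * (r.factorial : ℝ) := hlt
      _ ≤ Ws N P * Real.exp (-(78 * N : ℝ)) * (15 ^ (12 * N + 3) * (N : ℝ) ^ r) :=
          mul_le_mul_of_nonneg_left hf (by positivity)
      _ = _ := by ring
  have hsum : ∑ r ∈ range (12 * N + 4), |cs N P r| / (N : ℝ) ^ r <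
      ∑ r ∈ range (12 * N + 4), Ws N P * Real.exp (-(78 * N : ℝ)) * 15 ^ (12 * N + 3) :=
    Finset.sum_lt_sum_of_nonempty ⟨0, by simp⟩ hstep
  rw [Finset.sum_const, card_range, nsmul_eq_mul] at hsum
  have hA : (2 : ℝ) ^ (12 * N + 5) ≤ Real.exp (17 * N : ℝ) := by
    refine (two_pow_le _).trans (Real.exp_le_exp.mpr ?_)
    push_cast; linarith
  have hB : ((12 * N + 4 : ℕ) : ℝ) ≤ Real.exp (16 * N : ℝ) := by
    refine (nat_lt_exp _).le.trans (Real.exp_le_exp.mpr ?_)
    push_cast; linarith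
  have hC' : (15 : ℝ) ^ (12 * N + 3) ≤ Real.exp (45 * N : ℝ) := by
    refine (fifteen_pow_le _).trans (Real.exp_le_exp.mpr ?_)
    push_cast; linarith
  have hlast : (2 : ℝ) ^ (12 * N + 5) * (((12 * N + 4 : ℕ) : ℝ) *
      (Ws N P * Real.exp (-(78 * N : ℝ)) * 15 ^ (12 * N + 3))) ≤ Ws N P := by
    have e : Real.exp (17 * N : ℝ) * (Real.exp (16 * N : ℝ) *
        (Ws N P * Real.exp (-(78 * N : ℝ)) * Real.exp (45 * N : ℝ))) = Ws N P := by
      have : Real.exp (17 * N : ℝ) * (Real.exp (16 * N : ℝ) *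
        (Ws N P * Real.exp (-(78 * N : ℝ)) * Real.exp (45 * N : ℝ))) =
          Ws N P * (Real.exp (17 * N : ℝ) * Real.exp (16 * N : ℝ) * Real.exp (-(78 * N : ℝ)) *
            Real.exp (45 * N : ℝ)) := by ring
      rw [this, ← Real.exp_add, ← Real.exp_add, ← Real.exp_add]
      have h0 : (17 * N : ℝ) + 16 * N + -(78 * N) + 45 * N = 0 := by ring
      rw [h0, Real.exp_zero, mul_one]
    calc _ ≤ Real.exp (17 * N : ℝ) * (Real.exp (16 * N : ℝ) *
        (Ws N P * Real.exp (-(78 * N : ℝ)) * Real.exp (45 * N : ℝ))) := by gcongr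
      _ = _ := e
  have hp : (0 : ℝ) < 2 ^ (12 * N + 5) := by positivity
  have := mul_lt_mul_of_pos_left hsum hp
  linarith

/-- LREM with the spacing `1 / (2 m)` -/
theorem rem_use (hL : LREM) {d m : ℕ} (hm : 1 ≤ m) {p : ℝ[X]} (S : Finset ℕ) (x : ℕ → ℝ)
    {b η : ℝ} (hp : p.natDegree ≤ d) (hS : S.card = d + 1) (hb : 0 ≤ b) (hη : 0 ≤ η)
    (hx : ∀ i ∈ S, |x i| ≤ b)
    (hsep : ∀ i ∈ S, ∀ j ∈ S, 1 / (2 * m : ℝ) * |(i : ℝ) - j| ≤ |x i - x j|)
    (hval : ∀ i ∈ S, |p.eval (x i)| ≤ η) (r : ℕ) :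
    |p.coeff r| ≤ η * ((d + 1) * (2 * (1 + b)) ^ d * Real.exp (2 * m)) := by
  have hm0 : (0 : ℝ) < m := by exact_mod_cast hm
  have h1 := hL d p S x (1 / (2 * m : ℝ)) b η hp hS (by positivity) hb hx hsep hval r
  refine h1.trans ?_
  have h2 : (2 * m : ℝ) ^ d / (d.factorial : ℝ) ≤ Real.exp (2 * m) :=
    Real.pow_div_factorial_le_exp _ (by positivity) d
  have h3 : η * (d + 1) * (2 * (1 + b)) ^ d / ((1 / (2 * m : ℝ)) ^ d * (d.factorial : ℝ)) =
      η * ((d + 1) * (2 * (1 + b)) ^ d * ((2 * m : ℝ) ^ d / (d.factorial : ℝ))) := by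
    have hf : (d.factorial : ℝ) ≠ 0 := by exact_mod_cast d.factorial_ne_zero
    rw [one_div, inv_pow]
    field_simp
  rw [h3]
  gcongr

/-- among `2000 N + 1` sample points, one carries a large value -/
theorem F_grid (hL : LREM) (hC : COEFF) {N : ℕ} (hN : 1 ≤ N) {P : ℝ[X]} (hP : P.Monic)
    (hk : 2 * P.natDegree < 5 * N) {m : ℕ} (hm : m = 2000 * N + P.natDegree + 1)
    (S : Finset ℕ) (hS : S.card = 2000 * N + 1) (x : ℕ → ℝ) (hx : ∀ i ∈ S, |x i| ≤ 1)
    (hsep : ∀ i ∈ S, ∀ j ∈ S, 1 / (2 * m : ℝ) * |(i : ℝ) - j| ≤ |x i - x j|)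
    (hval : ∀ i ∈ S, |NVPhi_F (cs N P) (x i)| ≤ Ws N P * Real.exp (-(10086 * N : ℝ))) :
    False := by
  obtain ⟨h1, h2, h3⟩ := hC N hN P hP hk
  have hN1 : (1 : ℝ) ≤ N := by exact_mod_cast hN
  have hN0 : (0 : ℝ) < N := by linarith
  have hW : 0 < Ws N P := lt_of_lt_of_le (by positivity) h3
  obtain ⟨r, hr, hlow⟩ := coeff_low hC hN hP hk
  have hr' : r ≤ 12 * N + 3 := by have := mem_range.mp hr; omega
  -- the Taylor polynomial
  set T : ℝ[X] := ∑ r ∈ range (2000 * N + 1),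
    Polynomial.monomial r (cs N P r / (r.factorial : ℝ)) with hT
  have hTdeg : T.natDegree ≤ 2000 * N := by
    refine Polynomial.natDegree_sum_le_of_forall_le _ _ fun i hi => ?_
    refine (Polynomial.natDegree_monomial_le _).trans ?_
    have := mem_range.mp hi; omega
  have hTeval : ∀ y : ℝ, T.eval y =
      ∑ r ∈ range (2000 * N + 1), cs N P r * y ^ r / (r.factorial : ℝ) := by
    intro y
    rw [hT, Polynomial.eval_finset_sum]
    refine Finset.sum_congr rfl fun i _ => ?_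
    rw [Polynomial.eval_monomial]; ring
  have hTcoeff : T.coeff r = cs N P r / (r.factorial : ℝ) := by
    rw [hT, Polynomial.finset_sum_coeff]
    simp only [Polynomial.coeff_monomial]
    rw [Finset.sum_ite_eq' (range (2000 * N + 1)) r]
    rw [if_pos (mem_range.mpr (by omega))]
  -- the remainder
  have he6 : Real.exp 6 ≤ 729 := by
    have h : Real.exp 6 = Real.exp 1 ^ 6 := by rw [← exp_nat]; norm_num
    rw [h]
    have h1 : Real.exp 1 ≤ 3 := by have := Real.exp_one_lt_d9; linarith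
    calc Real.exp 1 ^ 6 ≤ 3 ^ 6 := pow_le_pow_left₀ (Real.exp_pos _).le h1 6
      _ = 729 := by norm_num
  have hR : ∀ i ∈ S, |NVPhi_F (cs N P) (x i) - T.eval (x i)| ≤
      Ws N P * Real.exp (-(10086 * N : ℝ)) := by
    intro i hi
    have hb := tail_bound (c := cs N P) (K := 2 ^ (12 * N + 4) * Ws N P) (ρ := 2 * (N : ℝ))
      (lam := Real.exp 6) (by positivity) (by positivity)
      (Real.one_le_exp (by norm_num)) (fun r => by
        refine (h1 r).trans (le_of_eq ?_); ring) (2000 * N) (hx i hi)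
    rw [← hTeval] at hb
    refine hb.trans ?_
    have e1 : Real.exp 6 ^ (2000 * N + 1) = Real.exp (6 * (2000 * N + 1)) := by
      rw [← Real.exp_nat_mul]; congr 1; push_cast; ring
    rw [e1, div_le_iff₀ (Real.exp_pos _)]
    have e2 : (2 : ℝ) ^ (12 * N + 4) ≤ Real.exp (16 * N : ℝ) := by
      refine (two_pow_le _).trans (Real.exp_le_exp.mpr ?_)
      push_cast; linarith
    have e3 : 2 * (N : ℝ) * Real.exp 6 ≤ 1458 * N := by nlinarith
    calc 2 ^ (12 * N + 4) * Ws N P * Real.exp (2 * (N : ℝ) * Real.exp 6)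
        ≤ Real.exp (16 * N : ℝ) * Ws N P * Real.exp (1458 * N) := by gcongr
      _ = Ws N P * Real.exp (16 * N + 1458 * N) := by rw [Real.exp_add]; ring
      _ ≤ Ws N P * Real.exp (-(10086 * N : ℝ) + 6 * (2000 * N + 1)) :=
          mul_le_mul_of_nonneg_left (Real.exp_le_exp.mpr (by linarith)) hW.le
      _ = _ := by rw [Real.exp_add]; ring
  have hTval : ∀ i ∈ S, |T.eval (x i)| ≤ 2 * (Ws N P * Real.exp (-(10086 * N : ℝ))) := by
    intro i hi
    have a1 := hR i hi
    have a2 := hval i hi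
    have a3 : |T.eval (x i)| ≤ |NVPhi_F (cs N P) (x i)| +
        |NVPhi_F (cs N P) (x i) - T.eval (x i)| := by
      have := abs_sub (NVPhi_F (cs N P) (x i)) (NVPhi_F (cs N P) (x i) - T.eval (x i))
      simpa using this
    linarith
  have hmain := rem_use hL (m := m) (by omega) S x hTdeg hS zero_le_one (by positivity) hx hsep
    hTval r
  rw [hTcoeff, abs_div, Nat.abs_cast] at hmain
  have hk' : (2 * P.natDegree : ℝ) ≤ 5 * N := by exact_mod_cast hk.le
  have hmR : (2 * m : ℝ) ≤ 4007 * N := by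
    rw [hm]; push_cast; linarith
  have b1 : ((2000 * N : ℕ) : ℝ) + 1 ≤ Real.exp (2000 * N : ℝ) := by
    have := Real.add_one_le_exp ((2000 * N : ℕ) : ℝ)
    push_cast at this ⊢
    exact this
  have b2 : (2 * (1 + (1 : ℝ))) ^ (2000 * N) ≤ Real.exp (4000 * N : ℝ) := by
    have h4 : (2 * (1 + (1 : ℝ))) = 2 ^ 2 := by norm_num
    rw [h4, ← pow_mul]
    refine (two_pow_le _).trans (Real.exp_le_exp.mpr ?_)
    push_cast; linarith
  have b3 : Real.exp (2 * m : ℝ) ≤ Real.exp (4007 * N : ℝ) := Real.exp_le_exp.mpr hmR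
  have hup : |cs N P r| / (r.factorial : ℝ) ≤
      2 * (Ws N P * Real.exp (-(79 * N : ℝ))) := by
    refine hmain.trans ?_
    calc 2 * (Ws N P * Real.exp (-(10086 * N : ℝ))) *
          ((((2000 * N : ℕ) : ℝ) + 1) * (2 * (1 + (1 : ℝ))) ^ (2000 * N) * Real.exp (2 * m : ℝ))
        ≤ 2 * (Ws N P * Real.exp (-(10086 * N : ℝ))) *
          (Real.exp (2000 * N : ℝ) * Real.exp (4000 * N : ℝ) * Real.exp (4007 * N : ℝ)) := by
          gcongr
      _ = 2 * (Ws N P * (Real.exp (-(10086 * N : ℝ)) * Real.exp (2000 * N : ℝ) *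
            Real.exp (4000 * N : ℝ) * Real.exp (4007 * N : ℝ))) := by ring
      _ = 2 * (Ws N P * Real.exp (-(79 * N : ℝ))) := by
          rw [← Real.exp_add, ← Real.exp_add, ← Real.exp_add]
          congr 3
          ring
  have hfin := hlow.trans hup
  have c1 : Real.exp (-(78 * N : ℝ)) = Real.exp (-(79 * N : ℝ)) * Real.exp N := by
    rw [← Real.exp_add]; congr 1; ring
  rw [c1] at hfin
  have c2 : (2 : ℝ) < Real.exp N := by
    have d1 : (2 : ℝ) < Real.exp 1 := by have := Real.exp_one_gt_d9; linarith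
    exact d1.trans_le (Real.exp_le_exp.mpr hN1)
  have c3 : 0 < Ws N P * Real.exp (-(79 * N : ℝ)) := by positivity
  nlinarith

/-- the product of the node factors -/
theorem Q_grid (hL : LREM) {N k : ℕ} (hN : 1 ≤ N) (hk : 2 * k < 5 * N) {m : ℕ}
    (hm : m = 2000 * N + k + 1) (Z : Finset ℝ) (hZ : Z.card ≤ k) (a : ℝ → ℝ)
    (S : Finset ℕ) (hS : S.card = k + 1) (u : ℕ → ℝ) (hu : ∀ i ∈ S, |u i| ≤ 6)
    (hsep : ∀ i ∈ S, ∀ j ∈ S, 1 / (2 * m : ℝ) * |(i : ℝ) - j| ≤ |u i - u j|)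
    (hval : ∀ i ∈ S, |∏ z ∈ Z, (1 - a z * u i)| ≤ Real.exp (-(4018 * N : ℝ))) :
    False := by
  have hN1 : (1 : ℝ) ≤ N := by exact_mod_cast hN
  have hN0 : (0 : ℝ) < N := by linarith
  set Q : ℝ[X] := ∏ z ∈ Z, (1 - Polynomial.C (a z) * Polynomial.X) with hQ
  have hQdeg : Q.natDegree ≤ k := by
    refine (Polynomial.natDegree_prod_le _ _).trans ?_
    refine le_trans (Finset.sum_le_card_nsmul _ _ 1 fun z _ => ?_) (by simpa using hZ)
    refine (Polynomial.natDegree_sub_le _ _).trans ?_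
    rw [Polynomial.natDegree_one]
    refine max_le (by norm_num) ?_
    exact (Polynomial.natDegree_C_mul_le _ _).trans Polynomial.natDegree_X_le
  have hQeval : ∀ y : ℝ, Q.eval y = ∏ z ∈ Z, (1 - a z * y) := by
    intro y
    rw [hQ, Polynomial.eval_prod]
    refine Finset.prod_congr rfl fun z _ => ?_
    simp
  have hQ0 : Q.coeff 0 = 1 := by
    rw [Polynomial.coeff_zero_eq_eval_zero, hQeval]
    simp
  have hmain := rem_use hL (m := m) (by omega) S u hQdeg hS (by norm_num : (0 : ℝ) ≤ 6)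
    (Real.exp_pos _).le hu hsep (fun i hi => by rw [hQeval]; exact hval i hi) 0
  rw [hQ0, abs_one] at hmain
  have hk' : (2 * k : ℝ) ≤ 5 * N := by exact_mod_cast hk.le
  have hmR : (2 * m : ℝ) ≤ 4007 * N := by
    rw [hm]; push_cast; linarith
  have b1 : (k : ℝ) + 1 ≤ Real.exp (k : ℝ) := Real.add_one_le_exp _
  have b2 : (2 * (1 + (6 : ℝ))) ^ k ≤ Real.exp (3 * k : ℝ) := by
    refine le_trans ?_ (fifteen_pow_le k)
    exact pow_le_pow_left₀ (by norm_num) (by norm_num) k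
  have b3 : Real.exp (2 * m : ℝ) ≤ Real.exp (4007 * N : ℝ) := Real.exp_le_exp.mpr hmR
  have hup : (1 : ℝ) ≤ Real.exp (-(1 * N : ℝ)) := by
    refine hmain.trans ?_
    calc Real.exp (-(4018 * N : ℝ)) *
          (((k : ℝ) + 1) * (2 * (1 + (6 : ℝ))) ^ k * Real.exp (2 * m : ℝ))
        ≤ Real.exp (-(4018 * N : ℝ)) *
          (Real.exp (k : ℝ) * Real.exp (3 * k : ℝ) * Real.exp (4007 * N : ℝ)) := by
          gcongr
      _ = Real.exp (-(4018 * N : ℝ) + (k + 3 * k + 4007 * N)) := by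
          rw [← Real.exp_add, ← Real.exp_add, ← Real.exp_add]
      _ ≤ Real.exp (-(1 * N : ℝ)) := Real.exp_le_exp.mpr (by linarith)
  have : Real.exp (-(1 * N : ℝ)) < 1 := by
    rw [Real.exp_lt_one_iff]; linarith
  linarith

/-! ### the weight -/

theorem gg_pos (s : ℝ) : 0 < gg s := by unfold gg; positivity

theorem gg_sq (s : ℝ) : gg s ^ 2 * (Real.exp s + Real.exp (-s) + 2) = 1 := by
  unfold gg
  have h1 : Real.exp (-(s / 2)) ^ 2 = Real.exp (-s) := by
    rw [← Real.exp_nat_mul]; congr 1; push_cast; ring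
  have h2 : Real.exp (-s) * Real.exp s = 1 := by rw [← Real.exp_add]; simp
  have h3 : (1 + Real.exp (-s)) ≠ 0 := by positivity
  rw [div_pow, h1, div_mul_eq_mul_div, div_eq_one_iff_eq (by positivity)]
  have : Real.exp (-s) * (Real.exp s + Real.exp (-s) + 2) =
      Real.exp (-s) * Real.exp s + Real.exp (-s) ^ 2 + 2 * Real.exp (-s) := by ring
  rw [this, h2]; ring

theorem u_sep {s t : ℝ} (hs : 1 / 2 ≤ s) (hst : s ≤ t) :
    t - s ≤ (Real.exp t + Real.exp (-t) + 2) - (Real.exp s + Real.exp (-s) + 2) := by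
  have h1 : (Real.exp t + Real.exp (-t) + 2) - (Real.exp s + Real.exp (-s) + 2) =
      (Real.exp (t - s) - 1) * (Real.exp s - Real.exp (-t)) := by
    have e1 : Real.exp (t - s) * Real.exp s = Real.exp t := by rw [← Real.exp_add]; congr 1; ring
    have e2 : Real.exp (t - s) * Real.exp (-t) = Real.exp (-s) := by
      rw [← Real.exp_add]; congr 1; ring
    have : (Real.exp (t - s) - 1) * (Real.exp s - Real.exp (-t)) =
        Real.exp (t - s) * Real.exp s - Real.exp (t - s) * Real.exp (-t) -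
          Real.exp s + Real.exp (-t) := by ring
    rw [this, e1, e2]; ring
  rw [h1]
  have h2 : t - s ≤ Real.exp (t - s) - 1 := by have := Real.add_one_le_exp (t - s); linarith
  have h3 : (1.625 : ℝ) ≤ Real.exp s := by
    have := Real.quadratic_le_exp_of_nonneg (x := 1 / 2) (by norm_num)
    have h4 : Real.exp (1 / 2) ≤ Real.exp s := Real.exp_le_exp.mpr hs
    linarith
  have h4 : Real.exp (-t) ≤ 0.62 := by
    have h5 : Real.exp (-t) * Real.exp t = 1 := by rw [← Real.exp_add]; simp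
    have h6 : (1.625 : ℝ) ≤ Real.exp t := h3.trans (Real.exp_le_exp.mpr hst)
    have h7 : 0 < Real.exp (-t) := Real.exp_pos _
    nlinarith
  have h5 : 0 ≤ t - s := by linarith
  nlinarith

theorem u_le {s : ℝ} (hs0 : 0 ≤ s) (hs : s ≤ 1) : Real.exp s + Real.exp (-s) + 2 ≤ 6 := by
  have h1 : Real.exp s ≤ 2.72 := by
    have := Real.exp_one_lt_d9
    have h2 : Real.exp s ≤ Real.exp 1 := Real.exp_le_exp.mpr hs
    linarith
  have h2 : Real.exp (-s) ≤ 1 := by rw [Real.exp_le_one_iff]; linarith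
  linarith

theorem gg_low {s : ℝ} (hs0 : 0 ≤ s) (hs : s ≤ 1) : Real.exp (-1) ≤ gg s := by
  have h1 := gg_sq s
  have h2 := u_le hs0 hs
  have h3 : Real.exp (-1) ^ 2 * 7 ≤ 1 := by
    have e : Real.exp (-1) * Real.exp 1 = 1 := by rw [← Real.exp_add]; simp
    have h4 : (2.7 : ℝ) ≤ Real.exp 1 := by have := Real.exp_one_gt_d9; linarith
    have h5 : 0 < Real.exp (-1) := Real.exp_pos _
    have h6 : Real.exp (-1) * 2.7 ≤ 1 := by nlinarith
    nlinarith
  have h4 : Real.exp (-1) ^ 2 ≤ gg s ^ 2 := by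
    have : 0 < gg s ^ 2 := by have := gg_pos s; positivity
    nlinarith
  exact le_of_sq_le_sq h4 (gg_pos s).le

/-- at one of the grid points the integrand is large -/
theorem point_low (hL : LREM) (hC : COEFF) {N : ℕ} (hN : 1 ≤ N) {P : ℝ[X]} (hP : P.Monic)
    (hk : 2 * P.natDegree < 5 * N) {m : ℕ} (hm : m = 2000 * N + P.natDegree + 1)
    (Z : Finset ℝ) (hZ : Z.card ≤ P.natDegree) (x : ℕ → ℝ)
    (hx : ∀ i ∈ range m, 1 / 2 ≤ x i ∧ x i ≤ 1)
    (hsep : ∀ i ∈ range m, ∀ j ∈ range m, 1 / (2 * m : ℝ) * |(i : ℝ) - j| ≤ |x i - x j|) :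
    ∃ i ∈ range m, Ws N P * Real.exp (-(14112 * N : ℝ)) ≤ |NVPhi_F (cs N P) (x i)| *
      (gg (x i) ^ (2 * N + 1) * ∏ z ∈ Z, |gg (x i) ^ 2 - gg z ^ 2|) := by
  classical
  obtain ⟨-, -, h3⟩ := hC N hN P hP hk
  have hN1 : (1 : ℝ) ≤ N := by exact_mod_cast hN
  have hN0 : (0 : ℝ) < N := by linarith
  have hW : 0 < Ws N P := lt_of_lt_of_le (by positivity) h3
  set u : ℕ → ℝ := fun i => Real.exp (x i) + Real.exp (-(x i)) + 2 with hu
  set B1 := (range m).filter fun i =>
    |NVPhi_F (cs N P) (x i)| ≤ Ws N P * Real.exp (-(10086 * N : ℝ)) with hB1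
  set B2 := (range m).filter fun i =>
    |∏ z ∈ Z, (1 - gg z ^ 2 * u i)| ≤ Real.exp (-(4018 * N : ℝ)) with hB2
  have hc1 : B1.card ≤ 2000 * N := by
    by_contra hcon
    obtain ⟨S, hS1, hS2⟩ := Finset.exists_subset_card_eq (show 2000 * N + 1 ≤ B1.card by omega)
    have hmem : ∀ i ∈ S, i ∈ range m ∧
        |NVPhi_F (cs N P) (x i)| ≤ Ws N P * Real.exp (-(10086 * N : ℝ)) := fun i hi => by
      have := hS1 hi; rw [hB1, mem_filter] at this; exact this
    refine F_grid hL hC hN hP hk hm S hS2 x (fun i hi => ?_) (fun i hi j hj => ?_)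
      (fun i hi => (hmem i hi).2)
    · have := hx i (hmem i hi).1
      rw [abs_le]; constructor <;> linarith
    · exact hsep i (hmem i hi).1 j (hmem j hj).1
  have husep : ∀ i ∈ range m, ∀ j ∈ range m, |x i - x j| ≤ |u i - u j| := by
    intro i hi j hj
    rcases le_total (x i) (x j) with h | h
    · have := u_sep (hx i hi).1 h
      rw [abs_sub_comm, abs_sub_comm (u i), abs_of_nonneg (by linarith : 0 ≤ x j - x i)]
      exact this.trans (le_abs_self _)
    · have := u_sep (hx j hj).1 h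
      rw [abs_of_nonneg (by linarith : 0 ≤ x i - x j)]
      exact this.trans (le_abs_self _)
  have hc2 : B2.card ≤ P.natDegree := by
    by_contra hcon
    obtain ⟨S, hS1, hS2⟩ := Finset.exists_subset_card_eq
      (show P.natDegree + 1 ≤ B2.card by omega)
    have hmem : ∀ i ∈ S, i ∈ range m ∧
        |∏ z ∈ Z, (1 - gg z ^ 2 * u i)| ≤ Real.exp (-(4018 * N : ℝ)) := fun i hi => by
      have := hS1 hi; rw [hB2, mem_filter] at this; exact this
    refine Q_grid hL hN hk hm Z hZ (fun z => gg z ^ 2) S hS2 u (fun i hi => ?_)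
      (fun i hi j hj => ?_) (fun i hi => (hmem i hi).2)
    · have h1 := hx i (hmem i hi).1
      rw [abs_of_nonneg (by positivity)]
      exact u_le (by linarith) h1.2
    · exact (hsep i (hmem i hi).1 j (hmem j hj).1).trans (husep i (hmem i hi).1 j (hmem j hj).1)
  obtain ⟨i, hi, hni⟩ : ∃ i ∈ range m, i ∉ B1 ∪ B2 := by
    by_contra hcon
    push Not at hcon
    have h1 : range m ⊆ B1 ∪ B2 := fun i hi => hcon i hi
    have h2 := Finset.card_le_card h1
    rw [card_range] at h2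
    have h3 := Finset.card_union_le B1 B2
    omega
  refine ⟨i, hi, ?_⟩
  rw [mem_union, not_or] at hni
  have hb1 : Ws N P * Real.exp (-(10086 * N : ℝ)) < |NVPhi_F (cs N P) (x i)| := by
    by_contra hcon
    exact hni.1 (by rw [hB1, mem_filter]; exact ⟨hi, not_lt.mp hcon⟩)
  have hb2 : Real.exp (-(4018 * N : ℝ)) < |∏ z ∈ Z, (1 - gg z ^ 2 * u i)| := by
    by_contra hcon
    exact hni.2 (by rw [hB2, mem_filter]; exact ⟨hi, not_lt.mp hcon⟩)
  have hg := gg_low (by linarith [(hx i hi).1] : 0 ≤ x i) (hx i hi).2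
  have hgp := gg_pos (x i)
  have hprod : ∏ z ∈ Z, |gg (x i) ^ 2 - gg z ^ 2| =
      (gg (x i) ^ 2) ^ Z.card * |∏ z ∈ Z, (1 - gg z ^ 2 * u i)| := by
    rw [Finset.abs_prod, ← Finset.prod_const, ← Finset.prod_mul_distrib]
    refine Finset.prod_congr rfl fun z _ => ?_
    have h1 := gg_sq (x i)
    have h2 : gg (x i) ^ 2 * (1 - gg z ^ 2 * u i) = gg (x i) ^ 2 - gg z ^ 2 := by
      have : gg (x i) ^ 2 * (1 - gg z ^ 2 * u i) =
          gg (x i) ^ 2 - gg z ^ 2 * (gg (x i) ^ 2 * u i) := by ring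
      rw [this, hu]
      simp only
      rw [h1, mul_one]
    rw [← h2, abs_mul, abs_of_nonneg (by positivity : 0 ≤ gg (x i) ^ 2)]
  rw [hprod]
  have hg1 : gg (x i) ^ (2 * N + 1) ≥ Real.exp (-(2 * N + 1 : ℝ)) := by
    have : Real.exp (-(2 * N + 1 : ℝ)) = Real.exp (-1) ^ (2 * N + 1) := by
      rw [← Real.exp_nat_mul]; congr 1; push_cast; ring
    rw [this]
    exact pow_le_pow_left₀ (Real.exp_pos _).le hg _
  have hk' : (2 * P.natDegree : ℝ) ≤ 5 * N := by exact_mod_cast hk.le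
  have hZ' : (Z.card : ℝ) ≤ P.natDegree := by exact_mod_cast hZ
  have hg2 : (gg (x i) ^ 2) ^ Z.card ≥ Real.exp (-(5 * N : ℝ)) := by
    have h1 : Real.exp (-(2 * Z.card : ℝ)) = (Real.exp (-1) ^ 2) ^ Z.card := by
      rw [← pow_mul, ← Real.exp_nat_mul]; congr 1; push_cast; ring
    have h2 : (Real.exp (-1) ^ 2) ^ Z.card ≤ (gg (x i) ^ 2) ^ Z.card :=
      pow_le_pow_left₀ (by positivity) (pow_le_pow_left₀ (Real.exp_pos _).le hg 2) _
    rw [← h1] at h2
    refine le_trans (Real.exp_le_exp.mpr ?_) h2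
    linarith
  calc Ws N P * Real.exp (-(14112 * N : ℝ))
      ≤ Ws N P * Real.exp (-(10086 * N : ℝ) + (-(2 * N + 1 : ℝ) + (-(5 * N : ℝ) +
          (-(4018 * N : ℝ))))) :=
        mul_le_mul_of_nonneg_left (Real.exp_le_exp.mpr (by linarith)) hW.le
    _ = (Ws N P * Real.exp (-(10086 * N : ℝ))) * (Real.exp (-(2 * N + 1 : ℝ)) *
          (Real.exp (-(5 * N : ℝ)) * Real.exp (-(4018 * N : ℝ)))) := by
        rw [Real.exp_add, Real.exp_add, Real.exp_add]; ring
    _ ≤ _ := by gcongr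

theorem grid_of (hL : LREM) (hC : COEFF) : GRID := by
  refine ⟨18119, fun N hN P hP hk Z hZ hZ0 hint => ?_⟩
  obtain ⟨-, -, h3⟩ := hC N hN P hP hk
  have hN1 : (1 : ℝ) ≤ N := by exact_mod_cast hN
  have hN0 : (0 : ℝ) < N := by linarith
  have hW : 0 < Ws N P := lt_of_lt_of_le (by positivity) h3
  obtain ⟨m, hm⟩ : ∃ m : ℕ, m = 2000 * N + P.natDegree + 1 := ⟨_, rfl⟩
  have hm1 : 1 ≤ m := by omega
  have hm0 : (0 : ℝ) < m := by exact_mod_cast hm1
  set f : ℝ → ℝ := fun s => |NVPhi_F (cs N P) s| *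
    (gg s ^ (2 * N + 1) * ∏ z ∈ Z, |gg s ^ 2 - gg z ^ 2|) with hf
  have hf0 : ∀ s, 0 ≤ f s := fun s => by
    have := gg_pos s
    simp only [hf]
    exact mul_nonneg (abs_nonneg _) (mul_nonneg (by positivity)
      (Finset.prod_nonneg fun _ _ => abs_nonneg _))
  set h : ℝ := 1 / (2 * m : ℝ) with hh
  have hh0 : 0 < h := by positivity
  have hmh : (m : ℝ) * h = 1 / 2 := by rw [hh]; field_simp
  -- the integral over (1/2, 1]
  have hstep1 : ∫ s in (1 / 2 : ℝ)..1, f s ≤ ∫ s in Set.Ioi (0 : ℝ), f s := by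
    rw [intervalIntegral.integral_of_le (by norm_num)]
    refine setIntegral_mono_set hint (Filter.Eventually.of_forall fun s => hf0 s) ?_
    refine HasSubset.Subset.eventuallyLE fun s hs => ?_
    exact lt_trans (by norm_num) hs.1
  have hII : ∀ a b : ℝ, 0 < a → a ≤ b → IntervalIntegrable f volume a b := by
    intro a b ha hab
    rw [intervalIntegrable_iff_integrableOn_Ioc_of_le hab]
    exact hint.mono_set fun s hs => lt_trans ha hs.1
  set a : ℕ → ℝ := fun i => 1 / 2 + i * h with ha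
  have hapos : ∀ i, 0 < a i := fun i => by simp only [ha]; positivity
  have hastep : ∀ i, a i ≤ a (i + 1) := fun i => by
    simp only [ha]; push_cast; nlinarith
  have hsum := intervalIntegral.sum_integral_adjacent_intervals (f := f) (μ := volume)
    (a := a) (n := m) (fun i _ => hII _ _ (hapos i) (hastep i))
  have ha0 : a 0 = 1 / 2 := by simp [ha]
  have ham : a m = 1 := by simp only [ha]; rw [hmh]; norm_num
  rw [ha0, ham] at hsum
  have hshift : ∀ i, ∫ x in a i..a (i + 1), f x = ∫ x in (0 : ℝ)..h, f (a i + x) := by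
    intro i
    rw [intervalIntegral.integral_comp_add_left (f := f) (a i)]
    congr 1
    · ring
    · simp only [ha]; push_cast; ring
  have hIIs : ∀ i, IntervalIntegrable (fun x => f (a i + x)) volume 0 h := by
    intro i
    have h1 := (hII (a i) (a (i + 1)) (hapos i) (hastep i)).comp_add_left (a i)
    have h2 : a i - a i = 0 := sub_self _
    have h3 : a (i + 1) - a i = h := by simp only [ha]; push_cast; ring
    rw [h2, h3] at h1
    exact h1
  have hswap : ∫ s in (1 / 2 : ℝ)..1, f s = ∫ x in (0 : ℝ)..h, ∑ i ∈ range m, f (a i + x) := by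
    rw [intervalIntegral.integral_finset_sum (fun i _ => hIIs i), ← hsum]
    exact Finset.sum_congr rfl fun i _ => hshift i
  have hlow : ∀ x ∈ Set.Icc (0 : ℝ) h, Ws N P * Real.exp (-(14112 * N : ℝ)) ≤
      ∑ i ∈ range m, f (a i + x) := by
    intro x hx
    obtain ⟨i, hi, hle⟩ := point_low hL hC hN hP hk hm Z hZ (fun i => a i + x)
      (fun i hi => by
        have hi' : (i : ℝ) + 1 ≤ m := by exact_mod_cast mem_range.mp hi
        simp only [ha]
        constructor
        · have : 0 ≤ (i : ℝ) * h := by positivity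
          linarith [hx.1]
        · have : ((i : ℝ) + 1) * h ≤ m * h := mul_le_mul_of_nonneg_right hi' hh0.le
          rw [hmh] at this
          linarith [hx.2])
      (fun i hi j hj => by
        have : a i + x - (a j + x) = h * ((i : ℝ) - j) := by simp only [ha]; ring
        rw [this, abs_mul, abs_of_pos hh0])
    refine hle.trans ?_
    exact Finset.single_le_sum (f := fun i => f (a i + x)) (fun j _ => hf0 _) hi
  have hIsum : IntervalIntegrable (fun x => ∑ i ∈ range m, f (a i + x)) volume 0 h := by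
    have h1 := IntervalIntegrable.sum (μ := volume) (a := 0) (b := h) (range m)
      (f := fun i x => f (a i + x)) (fun i _ => hIIs i)
    have h2 : (fun x => ∑ i ∈ range m, f (a i + x)) = ∑ i ∈ range m, fun x => f (a i + x) := by
      funext x
      rw [Finset.sum_apply]
    rw [h2]
    exact h1
  have hmono : ∫ x in (0 : ℝ)..h, Ws N P * Real.exp (-(14112 * N : ℝ)) ≤
      ∫ x in (0 : ℝ)..h, ∑ i ∈ range m, f (a i + x) :=
    intervalIntegral.integral_mono_on hh0.le (by simp) hIsum hlow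
  rw [intervalIntegral.integral_const, sub_zero, smul_eq_mul] at hmono
  have hk' : (2 * P.natDegree : ℝ) ≤ 5 * N := by exact_mod_cast hk.le
  have hmR : (2 * m : ℝ) ≤ 4007 * N := by
    rw [hm]; push_cast; linarith
  have hhlow : Real.exp (-(4007 * N : ℝ)) ≤ h := by
    rw [hh, le_div_iff₀ (by positivity)]
    have h1 : (2 * m : ℝ) ≤ Real.exp (4007 * N : ℝ) := by
      have := Real.add_one_le_exp (4007 * N : ℝ)
      linarith
    calc Real.exp (-(4007 * N : ℝ)) * (2 * m : ℝ)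
        ≤ Real.exp (-(4007 * N : ℝ)) * Real.exp (4007 * N : ℝ) :=
          mul_le_mul_of_nonneg_left h1 (Real.exp_pos _).le
      _ = 1 := by rw [← Real.exp_add]; simp
  calc Ws N P * Real.exp (-(18119 * N : ℝ))
      = Real.exp (-(4007 * N : ℝ)) * (Ws N P * Real.exp (-(14112 * N : ℝ))) := by
        rw [mul_left_comm, ← Real.exp_add]; congr 2; ring
    _ ≤ h * (Ws N P * Real.exp (-(14112 * N : ℝ))) :=
        mul_le_mul_of_nonneg_right hhlow (by positivity)
    _ ≤ _ := hmono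
    _ = ∫ s in (1 / 2 : ℝ)..1, f s := hswap.symm
    _ ≤ _ := hstep1

end GridH398

theorem grid_of : LREM → COEFF → GRID := GridH398.grid_of

end Vale.Agent.P030.Q
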