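import Vale.Agent.P030.Q.Defs

set_option linter.all false

/-! The block LIP: the Hankel determinant depends on `c` in a Lipschitz way. -/

namespace Vale.Agent.P030.Q.Lip

open Finset Polynomial Vale.Agent.P030 Vale.Agent.P030.Five Vale.Agent.P030.Q

theorem prod_sub_le {ι : Type*} (s : Finset ι) (a b : ι → ℝ) (X ε : ℝ) (hX : 1 ≤ X) (hε : 0 ≤ ε)
    (ha : ∀ i ∈ s, |a i| ≤ X) (hb : ∀ i ∈ s, |b i| ≤ X) (hab : ∀ i ∈ s, |a i - b i| ≤ ε) :
    |∏ i ∈ s, a i - ∏ i ∈ s, b i| ≤ s.card * ε * X ^ s.card := by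
  classical
  have hX0 : 0 ≤ X := zero_le_one.trans hX
  induction s using Finset.induction_on with
  | empty => simp
  | insert i s hi ih =>
    have ha' : ∀ j ∈ s, |a j| ≤ X := fun j hj => ha j (mem_insert_of_mem hj)
    have hb' : ∀ j ∈ s, |b j| ≤ X := fun j hj => hb j (mem_insert_of_mem hj)
    have hab' : ∀ j ∈ s, |a j - b j| ≤ ε := fun j hj => hab j (mem_insert_of_mem hj)
    have h1 := ih ha' hb' hab'
    have h2 : |∏ j ∈ s, a j| ≤ X ^ s.card := by
      rw [abs_prod]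
      calc ∏ j ∈ s, |a j| ≤ ∏ j ∈ s, X := prod_le_prod (fun _ _ => abs_nonneg _) ha'
        _ = X ^ s.card := by rw [prod_const]
    rw [prod_insert hi, prod_insert hi, card_insert_of_notMem hi]
    have e : a i * ∏ j ∈ s, a j - b i * ∏ j ∈ s, b j =
        (a i - b i) * ∏ j ∈ s, a j + b i * (∏ j ∈ s, a j - ∏ j ∈ s, b j) := by ring
    rw [e]
    have h3 : |(a i - b i) * ∏ j ∈ s, a j| ≤ ε * X ^ s.card := by
      rw [abs_mul]
      exact mul_le_mul (hab i (mem_insert_self _ _)) h2 (abs_nonneg _) hε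
    have h4 : |b i * (∏ j ∈ s, a j - ∏ j ∈ s, b j)| ≤ X * (s.card * ε * X ^ s.card) := by
      rw [abs_mul]
      exact mul_le_mul (hb i (mem_insert_self _ _)) h1 (abs_nonneg _) hX0
    refine (abs_add_le _ _).trans ((add_le_add h3 h4).trans ?_)
    have h5 : ε * X ^ s.card ≤ ε * X ^ (s.card + 1) :=
      mul_le_mul_of_nonneg_left (pow_le_pow_right₀ hX (Nat.le_succ _)) hε
    have h6 : X * ((s.card : ℝ) * ε * X ^ s.card) = s.card * ε * X ^ (s.card + 1) := by
      rw [pow_succ]; ring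
    rw [h6]
    push_cast
    linarith

theorem det_sub_le {K : ℕ} (A B : Matrix (Fin K) (Fin K) ℝ) (X ε : ℝ) (hX : 1 ≤ X) (hε : 0 ≤ ε)
    (hA : ∀ i j, |A i j| ≤ X) (hB : ∀ i j, |B i j| ≤ X) (hAB : ∀ i j, |A i j - B i j| ≤ ε) :
    |A.det - B.det| ≤ K.factorial * (K * ε * X ^ K) := by
  classical
  rw [Matrix.det_apply', Matrix.det_apply', ← Finset.sum_sub_distrib]
  refine (Finset.abs_sum_le_sum_abs _ _).trans ?_
  have h1 : ∀ σ ∈ (univ : Finset (Equiv.Perm (Fin K))),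
      |((Equiv.Perm.sign σ : ℤ) : ℝ) * ∏ i, A (σ i) i -
        ((Equiv.Perm.sign σ : ℤ) : ℝ) * ∏ i, B (σ i) i| ≤ K * ε * X ^ K := by
    intro σ _
    rw [← mul_sub, abs_mul]
    have h2 : |((Equiv.Perm.sign σ : ℤ) : ℝ)| = 1 := by
      rcases Int.units_eq_one_or (Equiv.Perm.sign σ) with h | h <;> rw [h] <;> simp
    rw [h2, one_mul]
    have h3 := prod_sub_le (univ : Finset (Fin K)) (fun i => A (σ i) i) (fun i => B (σ i) i) X ε
      hX hε (fun i _ => hA _ _) (fun i _ => hB _ _) (fun i _ => hAB _ _)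
    rw [Finset.card_univ, Fintype.card_fin] at h3
    exact h3
  refine (Finset.sum_le_card_nsmul _ _ _ h1).trans ?_
  rw [Finset.card_univ, Fintype.card_perm, Fintype.card_fin, nsmul_eq_mul]

theorem det_scale {K : ℕ} (A : Matrix (Fin K) (Fin K) ℝ) (u v : Fin K → ℝ) :
    (Matrix.of fun a b => u a * (v b * A a b)).det = (∏ a, u a * v a) * A.det := by
  have h1 : (Matrix.of fun a b => u a * (v b * A a b)).det =
      (∏ a, u a) * (Matrix.of fun a b => v b * A a b).det :=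
    Matrix.det_mul_column u (Matrix.of fun a b => v b * A a b)
  rw [h1, Matrix.det_mul_row v A, Finset.prod_mul_distrib]
  ring

theorem psi5_X (N m : ℕ) : psi5 N (X ^ m) = mom5 N m := by
  unfold psi5
  rw [Polynomial.lsum_apply, ← Polynomial.monomial_one_right_eq_X_pow, Polynomial.sum_monomial_index]
  · simp
  · simp

theorem bt_X (N r m : ℕ) : bt N r (X ^ m) = ((bm N r m : ℚ) : ℝ) := by
  unfold bt
  rw [Polynomial.lsum_apply, ← Polynomial.monomial_one_right_eq_X_pow, Polynomial.sum_monomial_index]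
  · simp
  · simp

theorem pow_div_le (T : ℝ) (hT : 1 ≤ T) (a : ℕ) :
    T ^ (2 * a) / ((2 * a - 1).factorial : ℝ) ≤ Real.exp (2 * T) := by
  have hT0 : 0 ≤ T := zero_le_one.trans hT
  have h1 : T ≤ Real.exp T := (Real.add_one_le_exp T).trans' (by linarith)
  have h2 : (1 : ℝ) ≤ Real.exp (2 * T) := Real.one_le_exp (by linarith)
  rcases Nat.eq_zero_or_pos a with rfl | ha
  · simpa using h2
  · have e : 2 * a = (2 * a - 1) + 1 := by omega
    have h3 := Real.pow_div_factorial_le_exp T hT0 (2 * a - 1)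
    calc T ^ (2 * a) / ((2 * a - 1).factorial : ℝ)
        = T * (T ^ (2 * a - 1) / ((2 * a - 1).factorial : ℝ)) := by
          rw [show T ^ (2 * a) = T ^ (2 * a - 1) * T by rw [← pow_succ, ← e]]
          ring
      _ ≤ Real.exp T * Real.exp T := mul_le_mul h1 h3 (by positivity) (Real.exp_pos _).le
      _ = Real.exp (2 * T) := by rw [← Real.exp_add]; congr 1; ring

theorem lip_of (hmom : MOM) (hbmb : BMB) : LIP := by
  obtain ⟨C1, h1⟩ := hmom
  obtain ⟨C2, h2⟩ := hbmb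
  set C0 : ℝ := max 1 (max |C1| |C2|) with hC0
  have hC0a : 1 ≤ C0 := le_max_left _ _
  have hC1 : |C1| ≤ C0 := (le_max_left _ _).trans (le_max_right _ _)
  have hC2 : |C2| ≤ C0 := (le_max_right _ _).trans (le_max_right _ _)
  set l : ℝ := Real.log C0 with hl
  have hl0 : 0 ≤ l := Real.log_nonneg hC0a
  have hexpl : Real.exp l = C0 := Real.exp_log (by linarith)
  set L : ℝ := 10 + l with hL
  refine ⟨30 + 12 * L, ?_⟩
  intro M hM c δ hδ0 hδ1 hc4 hc2
  set N : ℕ := 2 * M with hN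
  set K : ℕ := 5 * M with hK
  have hN1 : 1 ≤ N := by omega
  have hM1 : (1 : ℝ) ≤ M := by exact_mod_cast hM
  have hNr : (N : ℝ) = 2 * M := by rw [hN]; push_cast; ring
  have hKr : (K : ℝ) = 5 * M := by rw [hK]; push_cast; ring
  have hNr1 : (1 : ℝ) ≤ N := by rw [hNr]; linarith
  set Fb : ℝ := ((2 * N).factorial : ℝ) ^ 5 with hFb
  have hFb0 : 0 < Fb := by positivity
  set T : ℝ := 2 * (N : ℝ) with hT
  have hT1 : 1 ≤ T := by rw [hT]; linarith
  have hT0 : 0 < T := by linarith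
  set u : Fin K → ℝ := fun a => Fb / ((2 * (a : ℕ) - 1).factorial : ℝ) with hu
  set v : Fin K → ℝ := fun a => 1 / ((2 * (a : ℕ) - 1).factorial : ℝ) with hv
  have hNf : Nf N K = ∏ a : Fin K, u a * v a := by
    unfold Nf
    rw [Finset.prod_range]
    refine Finset.prod_congr rfl fun a _ => ?_
    rw [hu, hv]
    simp only
    rw [div_mul_div_comm, mul_one, sq]
  have hNf0 : 0 ≤ Nf N K := by
    rw [hNf]
    exact Finset.prod_nonneg fun a _ => by rw [hu, hv]; positivity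
  set X : ℝ := 3 * C0 ^ N * Real.exp (8 * N) with hX
  have hX1 : 1 ≤ X := by
    have e1 : 1 ≤ C0 ^ N := one_le_pow₀ hC0a
    have e2 : 1 ≤ Real.exp (8 * N) := Real.one_le_exp (by positivity)
    rw [hX]
    nlinarith [mul_le_mul e1 e2 zero_le_one (by positivity)]
  set A : Matrix (Fin K) (Fin K) ℝ :=
    Matrix.of fun a b : Fin K => psiC N c (Polynomial.X ^ ((a : ℕ) + (b : ℕ))) with hA
  set B : Matrix (Fin K) (Fin K) ℝ :=
    Matrix.of fun a b : Fin K => psi5 N (Polynomial.X ^ ((a : ℕ) + (b : ℕ))) with hB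
  -- moments
  have hmb : ∀ m, m + 2 ≤ 5 * N → Fb * |mom5 N m| ≤ C0 ^ N * T ^ (2 * m) := by
    intro m hm
    refine (h1 N hN1 m hm).trans (mul_le_mul_of_nonneg_right ?_ (by positivity))
    calc C1 ^ N ≤ |C1 ^ N| := le_abs_self _
      _ = |C1| ^ N := abs_pow _ _
      _ ≤ C0 ^ N := pow_le_pow_left₀ (abs_nonneg _) hC1 N
  have hbb : ∀ r m, r ≤ 3 → m + 2 ≤ 5 * N → Fb * |((bm N r m : ℚ) : ℝ)| ≤ C0 ^ N * T ^ (2 * m) := by
    intro r m hr hm
    refine (h2 N hN1 r m hr hm).trans (mul_le_mul_of_nonneg_right ?_ (by positivity))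
    calc C2 ^ N ≤ |C2 ^ N| := le_abs_self _
      _ = |C2| ^ N := abs_pow _ _
      _ ≤ C0 ^ N := pow_le_pow_left₀ (abs_nonneg _) hC2 N
  have hmK : ∀ a b : Fin K, (a : ℕ) + (b : ℕ) + 2 ≤ 5 * N := by
    intro a b
    have := a.2
    have := b.2
    omega
  have hAe : ∀ a b : Fin K, A a b = mom5 N (a + b) +
      ((c 4 : ℝ) - 2 ^ 4 * beta 4) * ((bm N 1 (a + b) : ℚ) : ℝ) +
      ((c 2 : ℝ) - 2 ^ 2 * beta 2) * ((bm N 3 (a + b) : ℚ) : ℝ) := by
    intro a b
    show psiC N c (Polynomial.X ^ ((a : ℕ) + (b : ℕ))) = _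
    unfold psiC
    rw [LinearMap.add_apply, LinearMap.add_apply, LinearMap.smul_apply, LinearMap.smul_apply,
      psi5_X, bt_X, bt_X, smul_eq_mul, smul_eq_mul]
  have hBe : ∀ a b : Fin K, B a b = mom5 N (a + b) := fun a b => psi5_X N _
  -- difference
  have hD : ∀ a b : Fin K, Fb * |A a b - B a b| ≤ δ * (2 * (C0 ^ N * T ^ (2 * ((a : ℕ) + b)))) := by
    intro a b
    have e : A a b - B a b = ((c 4 : ℝ) - 2 ^ 4 * beta 4) * ((bm N 1 (a + b) : ℚ) : ℝ) +
      ((c 2 : ℝ) - 2 ^ 2 * beta 2) * ((bm N 3 (a + b) : ℚ) : ℝ) := by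
      rw [hAe, hBe]; ring
    rw [e]
    have g1 := hbb 1 (a + b) (by norm_num) (hmK a b)
    have g3 := hbb 3 (a + b) (by norm_num) (hmK a b)
    have k1 : Fb * |((c 4 : ℝ) - 2 ^ 4 * beta 4) * ((bm N 1 (a + b) : ℚ) : ℝ)| ≤
        δ * (C0 ^ N * T ^ (2 * ((a : ℕ) + b))) := by
      rw [abs_mul]
      calc Fb * (|(c 4 : ℝ) - 2 ^ 4 * beta 4| * |((bm N 1 (a + b) : ℚ) : ℝ)|)
          = |(c 4 : ℝ) - 2 ^ 4 * beta 4| * (Fb * |((bm N 1 (a + b) : ℚ) : ℝ)|) := by ring
        _ ≤ _ := mul_le_mul hc4 g1 (by positivity) hδ0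
    have k3 : Fb * |((c 2 : ℝ) - 2 ^ 2 * beta 2) * ((bm N 3 (a + b) : ℚ) : ℝ)| ≤
        δ * (C0 ^ N * T ^ (2 * ((a : ℕ) + b))) := by
      rw [abs_mul]
      calc Fb * (|(c 2 : ℝ) - 2 ^ 2 * beta 2| * |((bm N 3 (a + b) : ℚ) : ℝ)|)
          = |(c 2 : ℝ) - 2 ^ 2 * beta 2| * (Fb * |((bm N 3 (a + b) : ℚ) : ℝ)|) := by ring
        _ ≤ _ := mul_le_mul hc2 g3 (by positivity) hδ0
    have k := mul_le_mul_of_nonneg_left (abs_add_le
      (((c 4 : ℝ) - 2 ^ 4 * beta 4) * ((bm N 1 (a + b) : ℚ) : ℝ))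
      (((c 2 : ℝ) - 2 ^ 2 * beta 2) * ((bm N 3 (a + b) : ℚ) : ℝ))) hFb0.le
    rw [mul_add] at k
    linarith
  have hBb : ∀ a b : Fin K, Fb * |B a b| ≤ C0 ^ N * T ^ (2 * ((a : ℕ) + b)) := by
    intro a b
    rw [hBe]
    exact hmb _ (hmK a b)
  have hAb : ∀ a b : Fin K, Fb * |A a b| ≤ 3 * (C0 ^ N * T ^ (2 * ((a : ℕ) + b))) := by
    intro a b
    have e : |A a b| ≤ |A a b - B a b| + |B a b| := by
      have := abs_add_le (A a b - B a b) (B a b)
      rwa [sub_add_cancel] at this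
    have k := mul_le_mul_of_nonneg_left e hFb0.le
    rw [mul_add] at k
    have k2 : δ * (2 * (C0 ^ N * T ^ (2 * ((a : ℕ) + b)))) ≤
        1 * (2 * (C0 ^ N * T ^ (2 * ((a : ℕ) + b)))) :=
      mul_le_mul_of_nonneg_right hδ1 (by positivity)
    linarith [hD a b, hBb a b]
  -- scaled entries
  have hsc : ∀ (a b : Fin K) (z R : ℝ), 0 ≤ R → Fb * |z| ≤ R * (C0 ^ N * T ^ (2 * ((a : ℕ) + b))) →
      |u a * (v b * z)| ≤ R * (C0 ^ N * Real.exp (8 * N)) := by
    intro a b z R hR hz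
    have pa : (0 : ℝ) < ((2 * (a : ℕ) - 1).factorial : ℝ) := by positivity
    have pb : (0 : ℝ) < ((2 * (b : ℕ) - 1).factorial : ℝ) := by positivity
    have e : |u a * (v b * z)| = Fb * |z| / (((2 * (a : ℕ) - 1).factorial : ℝ) *
        ((2 * (b : ℕ) - 1).factorial : ℝ)) := by
      rw [hu, hv]
      simp only
      rw [abs_mul, abs_mul, abs_of_pos (div_pos hFb0 pa), abs_of_pos (div_pos one_pos pb)]
      field_simp
    rw [e]
    have k1 := pow_div_le T hT1 a
    have k2 := pow_div_le T hT1 b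
    calc Fb * |z| / (((2 * (a : ℕ) - 1).factorial : ℝ) * ((2 * (b : ℕ) - 1).factorial : ℝ))
        ≤ R * (C0 ^ N * T ^ (2 * ((a : ℕ) + b))) /
          (((2 * (a : ℕ) - 1).factorial : ℝ) * ((2 * (b : ℕ) - 1).factorial : ℝ)) :=
          div_le_div_of_nonneg_right hz (by positivity)
      _ = R * (C0 ^ N * (T ^ (2 * (a : ℕ)) / ((2 * (a : ℕ) - 1).factorial : ℝ) *
          (T ^ (2 * (b : ℕ)) / ((2 * (b : ℕ) - 1).factorial : ℝ)))) := by
          rw [mul_add, pow_add]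
          field_simp
      _ ≤ R * (C0 ^ N * (Real.exp (2 * T) * Real.exp (2 * T))) := by
          refine mul_le_mul_of_nonneg_left (mul_le_mul_of_nonneg_left
            (mul_le_mul k1 k2 (by positivity) (Real.exp_pos _).le) (by positivity)) hR
      _ = R * (C0 ^ N * Real.exp (8 * N)) := by
          rw [← Real.exp_add]
          congr 3
          rw [hT]; ring
  set A' : Matrix (Fin K) (Fin K) ℝ := Matrix.of fun a b => u a * (v b * A a b) with hA'
  set B' : Matrix (Fin K) (Fin K) ℝ := Matrix.of fun a b => u a * (v b * B a b) with hB'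
  have q1 : ∀ a b, |A' a b| ≤ X := by
    intro a b
    have := hsc a b (A a b) 3 (by norm_num) (hAb a b)
    rw [hX, mul_assoc]
    exact this
  have hpos : 0 ≤ C0 ^ N * Real.exp (8 * N) := by positivity
  have q2 : ∀ a b, |B' a b| ≤ X := by
    intro a b
    have := hsc a b (B a b) 1 (by norm_num) (by rw [one_mul]; exact hBb a b)
    rw [hX, mul_assoc]
    refine this.trans (mul_le_mul_of_nonneg_right (by norm_num) hpos)
  have q3 : ∀ a b, |A' a b - B' a b| ≤ δ * X := by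
    intro a b
    have e : A' a b - B' a b = u a * (v b * (A a b - B a b)) := by
      show u a * (v b * A a b) - u a * (v b * B a b) = _
      ring
    rw [e]
    have := hsc a b (A a b - B a b) (δ * 2) (by positivity) (by
      rw [mul_assoc]; exact hD a b)
    refine this.trans ?_
    rw [hX]
    have : δ * 2 * (C0 ^ N * Real.exp (8 * N)) ≤ δ * 3 * (C0 ^ N * Real.exp (8 * N)) :=
      mul_le_mul_of_nonneg_right (by linarith) hpos
    linarith
  have hδX : 0 ≤ δ * X := mul_nonneg hδ0 (zero_le_one.trans hX1)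
  have hdet := det_sub_le A' B' X (δ * X) hX1 hδX q1 q2 q3
  have hfin : |HKc N K c - HK5 N K| * Nf N K = |A'.det - B'.det| := by
    rw [hA', hB', det_scale, det_scale, ← hNf, ← mul_sub, abs_mul, abs_of_nonneg hNf0, mul_comm]
    rfl
  rw [hfin]
  refine hdet.trans ?_
  -- numerical estimate
  have n1 : (K.factorial : ℝ) ≤ Real.exp (K * K) := by
    calc (K.factorial : ℝ) ≤ (K : ℝ) ^ K := by exact_mod_cast Nat.factorial_le_pow K
      _ ≤ (Real.exp K) ^ K := pow_le_pow_left₀ (by positivity)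
          ((Real.add_one_le_exp (K : ℝ)).trans' (by linarith)) K
      _ = Real.exp (K * K) := by rw [← Real.exp_nat_mul]
  have n2 : (K : ℝ) ≤ Real.exp K := (Real.add_one_le_exp (K : ℝ)).trans' (by linarith)
  have n3 : X ≤ Real.exp (N * L) := by
    have e3 : (3 : ℝ) ≤ Real.exp (2 * N) := by
      have : (2 * (N : ℝ)) + 1 ≤ Real.exp (2 * N) := Real.add_one_le_exp _
      linarith
    calc X = 3 * Real.exp (N * l) * Real.exp (8 * N) := by
          rw [hX, ← hexpl, ← Real.exp_nat_mul]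
      _ ≤ Real.exp (2 * N) * Real.exp (N * l) * Real.exp (8 * N) := by gcongr
      _ = Real.exp (N * L) := by
          rw [← Real.exp_add, ← Real.exp_add]
          congr 1
          rw [hL]; ring
  have hX0 : 0 ≤ X := zero_le_one.trans hX1
  have n4 : X * X ^ K ≤ Real.exp (((K : ℝ) + 1) * (N * L)) := by
    calc X * X ^ K = X ^ (K + 1) := by rw [pow_succ]; ring
      _ ≤ (Real.exp (N * L)) ^ (K + 1) := pow_le_pow_left₀ hX0 n3 _
      _ = Real.exp (((K : ℝ) + 1) * (N * L)) := by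
          rw [← Real.exp_nat_mul]; push_cast; rfl
  calc (K.factorial : ℝ) * (K * (δ * X) * X ^ K) = δ * (K.factorial * (K * (X * X ^ K))) := by ring
    _ ≤ δ * (Real.exp (K * K) * (Real.exp K * Real.exp (((K : ℝ) + 1) * (N * L)))) := by
        refine mul_le_mul_of_nonneg_left ?_ hδ0
        exact mul_le_mul n1 (mul_le_mul n2 n4 (by positivity) (Real.exp_pos _).le)
          (by positivity) (Real.exp_pos _).le
    _ = δ * Real.exp (K * K + (K + ((K : ℝ) + 1) * (N * L))) := by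
        rw [← Real.exp_add, ← Real.exp_add]
    _ ≤ δ * Real.exp ((30 + 12 * L) * (M : ℝ) ^ 2) := by
        refine mul_le_mul_of_nonneg_left (Real.exp_le_exp.2 ?_) hδ0
        rw [hKr, hNr]
        have hLp : 0 ≤ L := by rw [hL]; linarith
        have m1 : (M : ℝ) ≤ (M : ℝ) ^ 2 := by nlinarith
        have m2 : (M : ℝ) * L ≤ (M : ℝ) ^ 2 * L := mul_le_mul_of_nonneg_right m1 hLp
        nlinarith

end Vale.Agent.P030.Q.Lip
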