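import Vale.Agent.P030.Q.Defs

set_option linter.all false

/-! (LOWROW) from PHI, GRID, SIGN, COEFF. -/

namespace Vale.Agent.P030.Q.LowRow

open Finset Polynomial MeasureTheory Vale.Agent.P030 Vale.Agent.P030.Five Vale.Agent.P030.Q

/-- lower bound for the factorial. -/
theorem pow_le_exp_mul_factorial (N n : ℕ) :
    (N : ℝ) ^ n ≤ Real.exp N * (n.factorial : ℝ) := by
  have h1 := Real.pow_div_factorial_le_exp (N : ℝ) (Nat.cast_nonneg N) n
  have h2 : (0 : ℝ) < n.factorial := by positivity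
  rwa [div_le_iff₀ h2] at h1

/-- the factorial estimate. -/
theorem fac_bound (N k : ℕ) (hN : 1 ≤ N) (hk : 2 * k < 5 * N) :
    Real.exp (-(29 * (N : ℝ))) ≤ ((2 * N + 2 * k).factorial : ℝ) *
      (1 / (N : ℝ) ^ (12 * N + 3 - 2 * k)) *
      (((2 * N).factorial : ℝ) ^ 5 / ((2 * k - 1).factorial : ℝ) ^ 2) := by
  have hN1 : (1 : ℝ) ≤ N := by exact_mod_cast hN
  have hN0 : (0 : ℝ) < N := by linarith
  -- numerators
  have hA := pow_le_exp_mul_factorial N (2 * N + 2 * k)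
  have hB := pow_le_exp_mul_factorial N (2 * N)
  have hB5 : ((N : ℝ) ^ (2 * N)) ^ 5 ≤ (Real.exp N * ((2 * N).factorial : ℝ)) ^ 5 :=
    pow_le_pow_left₀ (by positivity) hB 5
  -- denominators
  have hD : ((2 * k - 1).factorial : ℝ) ≤ 5 ^ (5 * N) * (N : ℝ) ^ (2 * k - 1) := by
    have h1 : ((2 * k - 1).factorial : ℝ) ≤ ((2 * k - 1 : ℕ) : ℝ) ^ (2 * k - 1) := by
      exact_mod_cast Nat.factorial_le_pow (2 * k - 1)
    have h2 : ((2 * k - 1 : ℕ) : ℝ) ≤ 5 * N := by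
      have : 2 * k - 1 ≤ 5 * N := by omega
      exact_mod_cast this
    calc ((2 * k - 1).factorial : ℝ) ≤ ((2 * k - 1 : ℕ) : ℝ) ^ (2 * k - 1) := h1
      _ ≤ (5 * N) ^ (2 * k - 1) := pow_le_pow_left₀ (by positivity) h2 _
      _ = 5 ^ (2 * k - 1) * (N : ℝ) ^ (2 * k - 1) := mul_pow _ _ _
      _ ≤ 5 ^ (5 * N) * (N : ℝ) ^ (2 * k - 1) := by
        apply mul_le_mul_of_nonneg_right _ (by positivity)
        exact pow_le_pow_right₀ (by norm_num) (by omega)
  have hD2 : ((2 * k - 1).factorial : ℝ) ^ 2 ≤ (5 ^ (5 * N) * (N : ℝ) ^ (2 * k - 1)) ^ 2 :=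
    pow_le_pow_left₀ (by positivity) hD 2
  have h5 : (5 : ℝ) ≤ Real.exp 2 := by
    have h1 := Real.exp_one_gt_d9
    have h2 : Real.exp 2 = Real.exp 1 * Real.exp 1 := by rw [← Real.exp_add]; norm_num
    rw [h2]
    nlinarith
  have h5N : ((5 : ℝ) ^ (5 * N)) ^ 2 ≤ Real.exp (20 * N) := by
    rw [← pow_mul]
    calc (5 : ℝ) ^ (5 * N * 2) ≤ Real.exp 2 ^ (5 * N * 2) := pow_le_pow_left₀ (by norm_num) h5 _
      _ = Real.exp (20 * N) := by
        rw [← Real.exp_nat_mul]; congr 1; push_cast; ring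
  have hNe : (N : ℝ) ≤ Real.exp N := by
    have := Real.add_one_le_exp (N : ℝ)
    linarith
  have hN3 : (N : ℝ) ^ 3 ≤ Real.exp (3 * N) := by
    calc (N : ℝ) ^ 3 ≤ Real.exp N ^ 3 := pow_le_pow_left₀ hN0.le hNe 3
      _ = Real.exp (3 * N) := by rw [← Real.exp_nat_mul]; norm_num
  -- the denominator
  have hden : (N : ℝ) ^ (12 * N + 3 - 2 * k) * ((2 * k - 1).factorial : ℝ) ^ 2 ≤
      Real.exp (23 * N) * (N : ℝ) ^ (12 * N + 2 * k) := by
    have e1 : (N : ℝ) ^ (12 * N + 3 - 2 * k) * ((N : ℝ) ^ (2 * k - 1)) ^ 2 ≤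
        (N : ℝ) ^ (12 * N + 2 * k) * (N : ℝ) ^ 3 := by
      rw [← pow_mul, ← pow_add, ← pow_add]
      exact pow_le_pow_right₀ hN1 (by omega)
    calc (N : ℝ) ^ (12 * N + 3 - 2 * k) * ((2 * k - 1).factorial : ℝ) ^ 2
        ≤ (N : ℝ) ^ (12 * N + 3 - 2 * k) * (5 ^ (5 * N) * (N : ℝ) ^ (2 * k - 1)) ^ 2 :=
          mul_le_mul_of_nonneg_left hD2 (by positivity)
      _ = (5 ^ (5 * N)) ^ 2 * ((N : ℝ) ^ (12 * N + 3 - 2 * k) * ((N : ℝ) ^ (2 * k - 1)) ^ 2) := by
          ring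
      _ ≤ Real.exp (20 * N) * ((N : ℝ) ^ (12 * N + 2 * k) * (N : ℝ) ^ 3) :=
          mul_le_mul h5N e1 (by positivity) (by positivity)
      _ ≤ Real.exp (20 * N) * ((N : ℝ) ^ (12 * N + 2 * k) * Real.exp (3 * N)) := by
          apply mul_le_mul_of_nonneg_left _ (by positivity)
          exact mul_le_mul_of_nonneg_left hN3 (by positivity)
      _ = Real.exp (23 * N) * (N : ℝ) ^ (12 * N + 2 * k) := by
          have : Real.exp (23 * (N : ℝ)) = Real.exp (20 * N) * Real.exp (3 * N) := by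
            rw [← Real.exp_add]; congr 1; ring
          rw [this]; ring
  -- the numerator
  have hnum : (N : ℝ) ^ (12 * N + 2 * k) ≤
      Real.exp (6 * N) * (((2 * N + 2 * k).factorial : ℝ) * ((2 * N).factorial : ℝ) ^ 5) := by
    calc (N : ℝ) ^ (12 * N + 2 * k) = (N : ℝ) ^ (2 * N + 2 * k) * ((N : ℝ) ^ (2 * N)) ^ 5 := by
          rw [← pow_mul, ← pow_add]; congr 1; ring
      _ ≤ (Real.exp N * ((2 * N + 2 * k).factorial : ℝ)) *
          (Real.exp N * ((2 * N).factorial : ℝ)) ^ 5 :=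
          mul_le_mul hA hB5 (by positivity) (by positivity)
      _ = Real.exp (6 * N) * (((2 * N + 2 * k).factorial : ℝ) * ((2 * N).factorial : ℝ) ^ 5) := by
          have : Real.exp (6 * (N : ℝ)) = Real.exp N ^ 6 := by
            rw [← Real.exp_nat_mul]; norm_num
          rw [this]; ring
  have hDpos : (0 : ℝ) < (N : ℝ) ^ (12 * N + 3 - 2 * k) * ((2 * k - 1).factorial : ℝ) ^ 2 := by
    positivity
  have e2 : ((2 * N + 2 * k).factorial : ℝ) * (1 / (N : ℝ) ^ (12 * N + 3 - 2 * k)) *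
      (((2 * N).factorial : ℝ) ^ 5 / ((2 * k - 1).factorial : ℝ) ^ 2) =
      (((2 * N + 2 * k).factorial : ℝ) * ((2 * N).factorial : ℝ) ^ 5) /
        ((N : ℝ) ^ (12 * N + 3 - 2 * k) * ((2 * k - 1).factorial : ℝ) ^ 2) := by
    field_simp
  rw [e2, le_div_iff₀ hDpos]
  have e3 : Real.exp (-(29 * (N : ℝ))) * (Real.exp (23 * N) * Real.exp (6 * N)) = 1 := by
    rw [← Real.exp_add, ← Real.exp_add]
    have : -(29 * (N : ℝ)) + (23 * N + 6 * N) = 0 := by ring
    rw [this, Real.exp_zero]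
  calc Real.exp (-(29 * (N : ℝ))) *
        ((N : ℝ) ^ (12 * N + 3 - 2 * k) * ((2 * k - 1).factorial : ℝ) ^ 2)
      ≤ Real.exp (-(29 * (N : ℝ))) * (Real.exp (23 * N) * (N : ℝ) ^ (12 * N + 2 * k)) :=
        mul_le_mul_of_nonneg_left hden (Real.exp_pos _).le
    _ ≤ Real.exp (-(29 * (N : ℝ))) * (Real.exp (23 * N) * (Real.exp (6 * N) *
        (((2 * N + 2 * k).factorial : ℝ) * ((2 * N).factorial : ℝ) ^ 5))) := by
        apply mul_le_mul_of_nonneg_left _ (Real.exp_pos _).le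
        exact mul_le_mul_of_nonneg_left hnum (Real.exp_pos _).le
    _ = (Real.exp (-(29 * (N : ℝ))) * (Real.exp (23 * N) * Real.exp (6 * N))) *
        (((2 * N + 2 * k).factorial : ℝ) * ((2 * N).factorial : ℝ) ^ 5) := by ring
    _ = ((2 * N + 2 * k).factorial : ℝ) * ((2 * N).factorial : ℝ) ^ 5 := by rw [e3, one_mul]

/-- at most `k` positive zeros. -/
theorem zeros_le (N k : ℕ) (hkN : 2 * k < 5 * N) (Φ : ℝ → ℝ)
    (hsm : ContDiff ℝ ((⊤ : ℕ∞) : WithTop ℕ∞) Φ) (hne : Φ ≠ 0) (hodd : ∀ x, Φ (-x) = -Φ x)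
    (l : List ℝ) (hl : l.length = 12 * N + 5) (hann : Ann l Φ)
    (hvan : ∀ i < 12 * N + 3 - 2 * k, iteratedDeriv i Φ 0 = 0)
    (S : Finset ℝ) (hS : ∀ x ∈ S, 0 < x ∧ Φ x = 0) : S.card ≤ k := by
  have hdisj : Disjoint S (S.image fun x => -x) := by
    rw [Finset.disjoint_left]
    intro x hx hx'
    obtain ⟨y, hy, hyx⟩ := Finset.mem_image.mp hx'
    have h1 := (hS x hx).1
    have h2 := (hS y hy).1
    linarith only [hyx, h1, h2]
  have hcard : (S ∪ S.image fun x => -x).card = 2 * S.card := by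
    rw [Finset.card_union_of_disjoint hdisj, Finset.card_image_of_injective _ neg_injective]
    ring
  have h3 := rolle_count l Φ hsm hann hne (S ∪ S.image fun x => -x) (by
    intro x hx
    rcases Finset.mem_union.mp hx with h | h
    · exact ⟨(hS x h).2, (hS x h).1.ne'⟩
    · obtain ⟨y, hy, hyx⟩ := Finset.mem_image.mp h
      subst hyx
      refine ⟨by rw [hodd, (hS y hy).2, neg_zero], ?_⟩
      have := (hS y hy).1
      linarith only [this]) (12 * N + 3 - 2 * k) hvan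
  rw [hcard, hl] at h3
  omega

/-- LOWROW from the other blocks. -/
theorem lowrow_of (hPHI : PHI) (hGRID : GRID) (hSIGN : SIGN) (hCOEFF : COEFF) : LOWROW := by
  obtain ⟨C, hC⟩ := hGRID
  refine ⟨C + 29, fun N hN P hmon hkN horth => ?_⟩
  have hP0 : P ≠ 0 := hmon.ne_zero
  obtain ⟨hsm, hne, hodd, ⟨l, hl, hann⟩, hvan, hgrow, hlap⟩ := hPHI N P hN hP0 hkN
  set Φ : ℝ → ℝ := NVPhi_F (cs N P) with hΦ
  have hcont : Continuous Φ := hsm.continuous
  set k := P.natDegree with hk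
  -- orthogonality
  have hpQ : ∀ Q : ℝ[X], Q.natDegree < k → psi5 N (P * Q) = 0 := by
    intro Q hQ
    rw [Q.as_sum_range_C_mul_X_pow, Finset.mul_sum, map_sum]
    apply Finset.sum_eq_zero
    intro i hi
    have hi' : i < k := by have := Finset.mem_range.mp hi; omega
    have e : P * (Polynomial.C (Q.coeff i) * X ^ i) = (Q.coeff i) • (P * X ^ i) := by
      rw [smul_eq_C_mul]; ring
    rw [e, map_smul, horth i hi', smul_zero]
  have hzeros : ∀ S : Finset ℝ, (∀ x ∈ S, 0 < x ∧ Φ x = 0) → S.card ≤ k := fun S hS =>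
    zeros_le N k hkN Φ hsm hne hodd l hl hann hvan S hS
  set Q : ℕ → ℝ[X] := fun l => ∏ i ∈ Ico N (N + l), (X - Polynomial.C (((i : ℝ) + 1 / 2) ^ 2))
    with hQ
  have hQdeg : ∀ l, (Q l).natDegree = l := by
    intro l
    simp only [hQ]
    rw [natDegree_prod_of_monic _ _ (fun i _ => monic_X_sub_C _)]
    simp only [natDegree_X_sub_C, sum_const, Nat.card_Ico, smul_eq_mul, mul_one]
    omega
  have hQmon : ∀ l, (Q l).Monic := fun l => monic_prod_of_monic _ _ fun i _ => monic_X_sub_C _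
  have hmul : ∀ l, l ≤ k → IntegrableOn (fun s => Φ s * gg s ^ (2 * N + 2 * l + 1)) (Set.Ioi 0) ∧
      psi5 N (P * Q l) = (-1) ^ (N + l) * (2 * N + 2 * l).factorial *
      ∫ s in Set.Ioi (0 : ℝ), Φ s * gg s ^ (2 * N + 2 * l + 1) := by
    intro l hlk
    exact psi5_mul_Qt N k l hN P rfl hkN (by omega) Φ hcont hgrow hlap (Q l) rfl
  have hzero : ∀ l < k, ∫ s in Set.Ioi (0 : ℝ), Φ s * gg s ^ (2 * N + 2 * l + 1) = 0 := by
    intro l hlk
    obtain ⟨-, h2⟩ := hmul l hlk.le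
    rw [hpQ (Q l) (by rw [hQdeg]; exact hlk)] at h2
    have h3 : ((-1 : ℝ) ^ (N + l) * (2 * N + 2 * l).factorial) ≠ 0 := by
      apply mul_ne_zero
      · exact pow_ne_zero _ (by norm_num)
      · positivity
    exact (mul_eq_zero.mp h2.symm).resolve_left h3
  -- `psi (P P) = psi (P Q_k)`
  have hPP : psi5 N (P * P) = psi5 N (P * Q k) := by
    have h1 : psi5 N (P * (P - Q k)) = 0 := by
      rcases Nat.eq_zero_or_pos k with h0 | h0
      · have e1 : P = 1 := Polynomial.eq_one_of_monic_natDegree_zero hmon (hk ▸ h0)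
        have e2 : Q k = 1 :=
          Polynomial.eq_one_of_monic_natDegree_zero (hQmon k) (by rw [hQdeg]; exact h0)
        rw [e2, e1]
        simp
      · by_cases hd : P - Q k = 0
        · rw [hd, mul_zero, map_zero]
        · apply hpQ
          have hdeg : P.degree = (Q k).degree := by
            rw [degree_eq_natDegree hP0, degree_eq_natDegree (hQmon k).ne_zero, hQdeg]
          have h2 := degree_sub_lt hdeg hP0 (by rw [hmon.leadingCoeff, (hQmon k).leadingCoeff])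
          exact (natDegree_lt_natDegree_iff hd).2 h2
    have h2 : P * (P - Q k) = P * P - P * Q k := by ring
    rw [h2, map_sub, sub_eq_zero] at h1
    exact h1
  obtain ⟨Z, hZc, hZp, hZi, hZ⟩ := hSIGN N k Φ hcont hzeros (fun l hl => (hmul l hl).1) hzero
  have hG := hC N hN P hmon hkN Z hZc hZp hZi
  have hW := (hCOEFF N hN P hmon hkN).2.2
  set I : ℝ := ∫ s in Set.Ioi (0 : ℝ), Φ s * gg s ^ (2 * N + 2 * k + 1) with hI
  have hIlow : 1 / (N : ℝ) ^ (12 * N + 3 - 2 * k) * Real.exp (-(C * N)) ≤ |I| :=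
    (mul_le_mul_of_nonneg_right hW (Real.exp_pos _).le).trans (hG.trans hZ)
  have hval : |psi5 N (P * P)| = ((2 * N + 2 * k).factorial : ℝ) * |I| := by
    rw [hPP, (hmul k le_rfl).2, abs_mul, abs_mul, abs_pow, abs_neg, abs_one, one_pow, one_mul,
      Nat.abs_cast]
  rw [hval]
  have hfac := fac_bound N k hN hkN
  have hpos : (0 : ℝ) ≤ ((2 * N).factorial : ℝ) ^ 5 / ((2 * k - 1).factorial : ℝ) ^ 2 := by
    positivity
  calc Real.exp (-((C + 29) * N)) = Real.exp (-(C * N)) * Real.exp (-(29 * (N : ℝ))) := by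
        rw [← Real.exp_add]; congr 1; ring
    _ ≤ Real.exp (-(C * N)) * (((2 * N + 2 * k).factorial : ℝ) *
      (1 / (N : ℝ) ^ (12 * N + 3 - 2 * k)) *
      (((2 * N).factorial : ℝ) ^ 5 / ((2 * k - 1).factorial : ℝ) ^ 2)) :=
        mul_le_mul_of_nonneg_left hfac (Real.exp_pos _).le
    _ = ((2 * N + 2 * k).factorial : ℝ) * (1 / (N : ℝ) ^ (12 * N + 3 - 2 * k) *
      Real.exp (-(C * N))) *
      (((2 * N).factorial : ℝ) ^ 5 / ((2 * k - 1).factorial : ℝ) ^ 2) := by ring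
    _ ≤ ((2 * N + 2 * k).factorial : ℝ) * |I| *
      (((2 * N).factorial : ℝ) ^ 5 / ((2 * k - 1).factorial : ℝ) ^ 2) := by
        apply mul_le_mul_of_nonneg_right _ hpos
        exact mul_le_mul_of_nonneg_left hIlow (by positivity)

end Vale.Agent.P030.Q.LowRow
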