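import Vale.Agent.P030.Q.Defs
import Mathlib.LinearAlgebra.Lagrange

set_option linter.all false

/-! Block LREM: a polynomial that is small at `d + 1` separated points has small coefficients. -/

namespace Vale.Agent.P030.Q.LremA

open Finset Polynomial

theorem coeff_mul_lin (q : ℝ[X]) (y : ℝ) (r : ℕ) :
    ((X - C y) * q).coeff (r + 1) = q.coeff r - y * q.coeff (r + 1) := by
  rw [sub_mul, coeff_sub, coeff_X_mul, coeff_C_mul]

theorem coeff_mul_lin_zero (q : ℝ[X]) (y : ℝ) :
    ((X - C y) * q).coeff 0 = - (y * q.coeff 0) := by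
  rw [sub_mul, coeff_sub, coeff_C_mul, mul_coeff_zero, coeff_X_zero]; ring

/-- `ℓ¹` bound for a product with a linear factor. -/
theorem l1_lin (q : ℝ[X]) (c y B : ℝ) (hB : ∀ M : ℕ, ∑ r ∈ range M, |q.coeff r| ≤ B) (M : ℕ) :
    ∑ r ∈ range M, |(C c * (X - C y) * q).coeff r| ≤ |c| * (1 + |y|) * B := by
  have h0 : ∀ r, |(C c * (X - C y) * q).coeff r| = |c| * |((X - C y) * q).coeff r| := by
    intro r
    rw [mul_assoc, coeff_C_mul, abs_mul]
  simp_rw [h0]
  rw [← Finset.mul_sum, mul_assoc]
  refine mul_le_mul_of_nonneg_left ?_ (abs_nonneg c)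
  have hB0 : 0 ≤ B := by simpa using hB 0
  rcases M with _ | M
  · simp only [range_zero, sum_empty]
    positivity
  · rw [Finset.sum_range_succ']
    have h1 : ∀ r, |((X - C y) * q).coeff (r + 1)| ≤ |q.coeff r| + |y| * |q.coeff (r + 1)| := by
      intro r
      rw [coeff_mul_lin]
      refine (abs_sub _ _).trans ?_
      rw [abs_mul]
    have h2 : |((X - C y) * q).coeff 0| = |y| * |q.coeff 0| := by
      rw [coeff_mul_lin_zero, abs_neg, abs_mul]
    have h3 := hB M
    have h4 := hB (M + 1)
    rw [Finset.sum_range_succ'] at h4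
    calc ∑ r ∈ range M, |((X - C y) * q).coeff (r + 1)| + |((X - C y) * q).coeff 0|
        ≤ ∑ r ∈ range M, (|q.coeff r| + |y| * |q.coeff (r + 1)|) + |y| * |q.coeff 0| := by
          rw [h2]
          exact add_le_add (Finset.sum_le_sum fun r _ => h1 r) le_rfl
      _ = ∑ r ∈ range M, |q.coeff r| +
            |y| * (∑ r ∈ range M, |q.coeff (r + 1)| + |q.coeff 0|) := by
          rw [Finset.sum_add_distrib, ← Finset.mul_sum]; ring
      _ ≤ B + |y| * B := by
          exact add_le_add h3 (mul_le_mul_of_nonneg_left h4 (abs_nonneg y))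
      _ = (1 + |y|) * B := by ring

theorem l1_prod (s : Finset ℕ) (c y : ℕ → ℝ) : ∀ M : ℕ,
    ∑ r ∈ range M, |(∏ j ∈ s, (C (c j) * (X - C (y j)))).coeff r| ≤
      ∏ j ∈ s, (|c j| * (1 + |y j|)) := by
  classical
  induction s using Finset.induction_on with
  | empty =>
    intro M
    rw [Finset.prod_empty, Finset.prod_empty]
    rcases M with _ | M
    · simp
    · rw [Finset.sum_range_succ']
      have : ∀ r ∈ range M, |(1 : ℝ[X]).coeff (r + 1)| = 0 := by
        intro r _
        rw [coeff_one, if_neg (by omega), abs_zero]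
      rw [Finset.sum_eq_zero this]
      simp
  | insert a s ha ih =>
    intro M
    rw [Finset.prod_insert ha, Finset.prod_insert ha]
    exact l1_lin _ _ _ _ ih M

theorem coeff_prod_le (s : Finset ℕ) (c y : ℕ → ℝ) (r : ℕ) :
    |(∏ j ∈ s, (C (c j) * (X - C (y j)))).coeff r| ≤ ∏ j ∈ s, (|c j| * (1 + |y j|)) := by
  refine le_trans ?_ (l1_prod s c y (r + 1))
  exact Finset.single_le_sum (f := fun r => |(∏ j ∈ s, (C (c j) * (X - C (y j)))).coeff r|)
    (fun _ _ => abs_nonneg _) (Finset.mem_range.2 (Nat.lt_succ_self r))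

/-- product of distances to the elements above `i`. -/
theorem prod_above (i : ℕ) : ∀ (n : ℕ) (s : Finset ℕ), s.card = n → (∀ j ∈ s, i < j) →
    (n.factorial : ℝ) ≤ ∏ j ∈ s, |(i : ℝ) - j| := by
  intro n
  induction n with
  | zero =>
    intro s hs _
    rw [Finset.card_eq_zero] at hs
    simp [hs]
  | succ n ih =>
    intro s hs hj
    have hne : s.Nonempty := by rw [← Finset.card_pos]; omega
    set m := s.max' hne with hm
    have hmem : m ∈ s := s.max'_mem hne
    have hcard : (s.erase m).card = n := by rw [Finset.card_erase_of_mem hmem]; omega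
    have h1 := ih (s.erase m) hcard (fun j h => hj j (Finset.mem_of_mem_erase h))
    rw [← Finset.mul_prod_erase s _ hmem, Nat.factorial_succ]
    push_cast
    have h2 : n + 1 ≤ m - i := by
      have h3 : s ⊆ Finset.Ioc i m := by
        intro j h
        rw [Finset.mem_Ioc]
        exact ⟨hj j h, s.le_max' j h⟩
      have h4 := Finset.card_le_card h3
      rw [Nat.card_Ioc] at h4
      omega
    have h5 : (n : ℝ) + 1 ≤ |(i : ℝ) - m| := by
      have h6 : i < m := hj m hmem
      rw [abs_sub_comm, abs_of_pos (by have : (i : ℝ) < m := by exact_mod_cast h6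
                                       linarith)]
      have h7 : ((n + 1 : ℕ) : ℝ) ≤ ((m - i : ℕ) : ℝ) := by exact_mod_cast h2
      rw [Nat.cast_sub h6.le] at h7
      push_cast at h7
      linarith
    exact mul_le_mul h5 h1 (by positivity) (abs_nonneg _)

theorem prod_below (i : ℕ) : ∀ (n : ℕ) (s : Finset ℕ), s.card = n → (∀ j ∈ s, j < i) →
    (n.factorial : ℝ) ≤ ∏ j ∈ s, |(i : ℝ) - j| := by
  intro n
  induction n with
  | zero =>
    intro s hs _
    rw [Finset.card_eq_zero] at hs
    simp [hs]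
  | succ n ih =>
    intro s hs hj
    have hne : s.Nonempty := by rw [← Finset.card_pos]; omega
    set m := s.min' hne with hm
    have hmem : m ∈ s := s.min'_mem hne
    have hcard : (s.erase m).card = n := by rw [Finset.card_erase_of_mem hmem]; omega
    have h1 := ih (s.erase m) hcard (fun j h => hj j (Finset.mem_of_mem_erase h))
    rw [← Finset.mul_prod_erase s _ hmem, Nat.factorial_succ]
    push_cast
    have h2 : n + 1 ≤ i - m := by
      have h3 : s ⊆ Finset.Ico m i := by
        intro j h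
        rw [Finset.mem_Ico]
        exact ⟨s.min'_le j h, hj j h⟩
      have h4 := Finset.card_le_card h3
      rw [Nat.card_Ico] at h4
      omega
    have h5 : (n : ℝ) + 1 ≤ |(i : ℝ) - m| := by
      have h6 : m < i := hj m hmem
      rw [abs_of_pos (by have : (m : ℝ) < i := by exact_mod_cast h6
                         linarith)]
      have h7 : ((n + 1 : ℕ) : ℝ) ≤ ((i - m : ℕ) : ℝ) := by exact_mod_cast h2
      rw [Nat.cast_sub h6.le] at h7
      push_cast at h7
      linarith
    exact mul_le_mul h5 h1 (by positivity) (abs_nonneg _)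

/-- product of all the distances. -/
theorem prod_dist (S : Finset ℕ) (d i : ℕ) (hi : i ∈ S) (hS : S.card = d + 1) :
    (d.factorial : ℝ) / 2 ^ d ≤ ∏ j ∈ S.erase i, |(i : ℝ) - j| := by
  classical
  set A := (S.erase i).filter (fun j => j < i) with hA
  set B := (S.erase i).filter (fun j => ¬ j < i) with hB
  have hAB : ∏ j ∈ S.erase i, |(i : ℝ) - j| = (∏ j ∈ A, |(i : ℝ) - j|) * ∏ j ∈ B, |(i : ℝ) - j| :=
    (Finset.prod_filter_mul_prod_filter_not _ _ _).symm
  have hcard : A.card + B.card = d := by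
    rw [hA, hB, Finset.card_filter_add_card_filter_not, Finset.card_erase_of_mem hi]
    omega
  have h1 := prod_below i A.card A rfl (fun j h => (Finset.mem_filter.1 h).2)
  have h2 := prod_above i B.card B rfl (fun j h => by
    have h3 := Finset.mem_filter.1 h
    have h4 := Finset.ne_of_mem_erase h3.1
    omega)
  rw [hAB]
  have h3 : (d.factorial : ℝ) ≤ 2 ^ d * ((A.card.factorial : ℝ) * B.card.factorial) := by
    have h4 := Nat.choose_le_two_pow d A.card
    have h5 : d.choose A.card * A.card.factorial * B.card.factorial = d.factorial := by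
      have h6 := Nat.choose_mul_factorial_mul_factorial (n := d) (k := A.card) (by omega)
      have h7 : d - A.card = B.card := by omega
      rwa [h7] at h6
    have h8 : (d.factorial : ℝ) = (d.choose A.card : ℝ) * ((A.card.factorial : ℝ) * B.card.factorial) := by
      rw [← h5]; push_cast; ring
    rw [h8]
    have h9 : (d.choose A.card : ℝ) ≤ 2 ^ d := by exact_mod_cast h4
    exact mul_le_mul_of_nonneg_right h9 (by positivity)
  rw [div_le_iff₀ (by positivity)]
  calc (d.factorial : ℝ) ≤ 2 ^ d * ((A.card.factorial : ℝ) * B.card.factorial) := h3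
    _ ≤ 2 ^ d * ((∏ j ∈ A, |(i : ℝ) - j|) * ∏ j ∈ B, |(i : ℝ) - j|) := by
        refine mul_le_mul_of_nonneg_left ?_ (by positivity)
        exact mul_le_mul h1 h2 (by positivity) (by positivity)
    _ = _ := by ring

theorem main (d : ℕ) (p : ℝ[X]) (S : Finset ℕ) (x : ℕ → ℝ) (h b η : ℝ)
    (hp : p.natDegree ≤ d) (hS : S.card = d + 1) (hh : 0 < h) (hb : 0 ≤ b)
    (hx : ∀ i ∈ S, |x i| ≤ b)
    (hsep : ∀ i ∈ S, ∀ j ∈ S, h * |(i : ℝ) - j| ≤ |x i - x j|)
    (hη : ∀ i ∈ S, |p.eval (x i)| ≤ η) (r : ℕ) :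
    |p.coeff r| ≤ η * (d + 1) * (2 * (1 + b)) ^ d / (h ^ d * d.factorial) := by
  classical
  have hinj : Set.InjOn x S := by
    intro i hi j hj hij
    by_contra hne
    have h1 := hsep i hi j hj
    rw [hij, sub_self, abs_zero] at h1
    have h2 : 0 < |(i : ℝ) - j| := by
      rw [abs_pos, sub_ne_zero]
      exact_mod_cast hne
    nlinarith
  have hdeg : p.degree < S.card := by
    rw [hS]
    refine lt_of_le_of_lt Polynomial.degree_le_natDegree ?_
    exact_mod_cast Nat.lt_succ_of_le hp
  have hint := Lagrange.eq_interpolate (f := p) hinj hdeg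
  have hη0 : 0 ≤ η := by
    have : S.Nonempty := by rw [← Finset.card_pos]; omega
    obtain ⟨i, hi⟩ := this
    exact (abs_nonneg _).trans (hη i hi)
  have hcoef : p.coeff r = ∑ i ∈ S, p.eval (x i) * (Lagrange.basis S x i).coeff r := by
    conv_lhs => rw [hint]
    rw [Lagrange.interpolate_apply, Polynomial.finset_sum_coeff]
    refine Finset.sum_congr rfl fun i _ => ?_
    rw [coeff_C_mul]
  set K : ℝ := (2 * (1 + b)) ^ d / (h ^ d * d.factorial) with hK
  have hbasis : ∀ i ∈ S, |(Lagrange.basis S x i).coeff r| ≤ K := by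
    intro i hi
    have h1 : Lagrange.basis S x i =
        ∏ j ∈ S.erase i, (C (x i - x j)⁻¹ * (X - C (x j))) := rfl
    rw [h1]
    refine (coeff_prod_le (S.erase i) (fun j => (x i - x j)⁻¹) x r).trans ?_
    have hcard : (S.erase i).card = d := by rw [Finset.card_erase_of_mem hi]; omega
    rw [Finset.prod_mul_distrib]
    have h2 : ∏ j ∈ S.erase i, (1 + |x j|) ≤ (1 + b) ^ d := by
      rw [← hcard, ← Finset.prod_const]
      refine Finset.prod_le_prod (fun j _ => by positivity) fun j hj => ?_
      have := hx j (Finset.mem_of_mem_erase hj)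
      linarith
    have h3 : h ^ d * ((d.factorial : ℝ) / 2 ^ d) ≤ ∏ j ∈ S.erase i, |x i - x j| := by
      calc h ^ d * ((d.factorial : ℝ) / 2 ^ d) ≤ h ^ d * ∏ j ∈ S.erase i, |(i : ℝ) - j| :=
            mul_le_mul_of_nonneg_left (prod_dist S d i hi hS) (by positivity)
        _ = ∏ j ∈ S.erase i, (h * |(i : ℝ) - j|) := by
            rw [Finset.prod_mul_distrib, Finset.prod_const, hcard]
        _ ≤ _ := Finset.prod_le_prod (fun j _ => by positivity)
            fun j hj => hsep i hi j (Finset.mem_of_mem_erase hj)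
    have h4 : ∏ j ∈ S.erase i, |(x i - x j)⁻¹| = (∏ j ∈ S.erase i, |x i - x j|)⁻¹ := by
      rw [← Finset.prod_inv_distrib]
      exact Finset.prod_congr rfl fun j _ => abs_inv _
    have hpos : 0 < h ^ d * ((d.factorial : ℝ) / 2 ^ d) := by positivity
    rw [h4]
    calc (∏ j ∈ S.erase i, |x i - x j|)⁻¹ * ∏ j ∈ S.erase i, (1 + |x j|)
        ≤ (h ^ d * ((d.factorial : ℝ) / 2 ^ d))⁻¹ * (1 + b) ^ d := by
          refine mul_le_mul (inv_anti₀ hpos h3) h2 ?_ (by positivity)
          exact Finset.prod_nonneg fun j _ => by positivity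
      _ = K := by
          rw [hK, mul_pow]
          field_simp
  have hK0 : 0 ≤ K := by rw [hK]; positivity
  rw [hcoef]
  calc |∑ i ∈ S, p.eval (x i) * (Lagrange.basis S x i).coeff r|
      ≤ ∑ i ∈ S, |p.eval (x i) * (Lagrange.basis S x i).coeff r| := Finset.abs_sum_le_sum_abs _ _
    _ ≤ ∑ i ∈ S, η * K := by
        refine Finset.sum_le_sum fun i hi => ?_
        rw [abs_mul]
        exact mul_le_mul (hη i hi) (hbasis i hi) (abs_nonneg _) hη0
    _ = _ := by
        rw [Finset.sum_const, hS, nsmul_eq_mul, hK]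
        push_cast
        ring

end Vale.Agent.P030.Q.LremA

namespace Vale.Agent.P030.Q

theorem xLrem : LREM := fun d p S x h b η h1 h2 h3 h4 h5 h6 h7 r =>
  LremA.main d p S x h b η h1 h2 h3 h4 h5 h6 h7 r

end Vale.Agent.P030.Q
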