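import Vale.Agent.P030.Q.Defs

set_option linter.all false

/-! Block MOM: bound for the moments. -/

namespace Vale.Agent.P030.Q.MomA

open Finset Polynomial MeasureTheory Vale.Agent.P030 Vale.Agent.P030.Five

/-- the denominator at a half-integer site, as a product over `l = 0..2N`. -/
theorem den_site (N i : ℕ) :
    Den N ((N : ℝ) + i + 1 / 2) = ∏ l ∈ range (2 * N + 1), ((i : ℝ) + 1 / 2 + l) := by
  unfold Den
  refine Finset.prod_bij' (fun j _ => ((N : ℤ) - j).toNat) (fun l _ => (N : ℤ) - l) ?_ ?_ ?_ ?_ ?_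
  · intro j hj
    rw [Finset.mem_Icc] at hj
    rw [Finset.mem_range]
    omega
  · intro l hl
    rw [Finset.mem_range] at hl
    rw [Finset.mem_Icc]
    omega
  · intro j hj
    rw [Finset.mem_Icc] at hj
    omega
  · intro l hl
    simp
  · intro j hj
    rw [Finset.mem_Icc] at hj
    have h1 : ((((N : ℤ) - j).toNat : ℕ) : ℝ) = (N : ℝ) - j := by
      have h2 : ((((N : ℤ) - j).toNat : ℕ) : ℤ) = (N : ℤ) - j := Int.toNat_of_nonneg (by omega)
      have h3 : (((((N : ℤ) - j).toNat : ℕ) : ℤ) : ℝ) = (((N : ℤ) - j : ℤ) : ℝ) := by rw [h2]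
      push_cast at h3
      simpa using h3
    rw [h1]
    ring

theorem den_ge (N i : ℕ) (hN : 1 ≤ N) :
    (1 / 2 : ℝ) * (((2 * N).factorial : ℝ) * (((i : ℝ) + 2 * N) / (2 * N)) ^ (2 * N)) ≤
      Den N ((N : ℝ) + i + 1 / 2) := by
  have hN' : (1 : ℝ) ≤ N := by exact_mod_cast hN
  have hi : (0 : ℝ) ≤ i := Nat.cast_nonneg i
  rw [den_site, Finset.prod_range_succ', mul_comm]
  refine mul_le_mul ?_ (by push_cast; linarith) (by norm_num) (Finset.prod_nonneg fun l _ => by positivity)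
  have h1 : ((2 * N).factorial : ℝ) = ∏ l ∈ range (2 * N), ((l : ℝ) + 1) := by
    rw [← Finset.prod_range_add_one_eq_factorial]
    push_cast
    rfl
  have h2 : (((i : ℝ) + 2 * N) / (2 * N)) ^ (2 * N) =
      ∏ l ∈ range (2 * N), (((i : ℝ) + 2 * N) / (2 * N)) := by
    rw [Finset.prod_const, Finset.card_range]
  rw [h1, h2, ← Finset.prod_mul_distrib]
  refine Finset.prod_le_prod (fun l _ => by positivity) fun l hl => ?_
  have hl' : (l : ℝ) + 1 ≤ 2 * N := by exact_mod_cast Finset.mem_range.1 hl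
  have hl0 : (0 : ℝ) ≤ l := Nat.cast_nonneg l
  push_cast
  rw [mul_div_assoc', div_le_iff₀ (by positivity)]
  nlinarith [mul_nonneg hi (sub_nonneg.2 hl')]

theorem term_le (N m i : ℕ) (hN : 1 ≤ N) (hm : m + 2 ≤ 5 * N) :
    ((2 * N).factorial : ℝ) ^ 5 * |wt5 N i * (((N : ℝ) + i + 1 / 2) ^ 2) ^ m| ≤
      (32 * (2 * (N : ℝ)) ^ (2 * m + 4)) * (1 / ((i : ℝ) + 1) ^ 3) := by
  have hN' : (1 : ℝ) ≤ N := by exact_mod_cast hN
  have hi : (0 : ℝ) ≤ i := Nat.cast_nonneg i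
  have h2N : (0 : ℝ) < 2 * N := by linarith
  set F : ℝ := ((2 * N).factorial : ℝ) with hF
  have hF0 : 0 < F := by rw [hF]; positivity
  set r : ℝ := ((i : ℝ) + 2 * N) / (2 * N) with hr
  have hr1 : 1 ≤ r := by
    rw [hr, le_div_iff₀ h2N]; linarith
  have hr0 : 0 < r := by linarith
  set t : ℝ := (N : ℝ) + i + 1 / 2 with ht
  have ht0 : 0 < t := by rw [ht]; positivity
  have htr : t ≤ 2 * N * r := by
    have : 2 * (N : ℝ) * r = i + 2 * N := by rw [hr]; field_simp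
    rw [this, ht]; linarith
  have hD := den_ge N i hN
  rw [← hF, ← hr, ← ht] at hD
  set D : ℝ := Den N t with hDdef
  have hlow0 : 0 < 1 / 2 * (F * r ^ (2 * N)) := by positivity
  have hD0 : 0 < D := lt_of_lt_of_le hlow0 hD
  have habs : |wt5 N i * (t ^ 2) ^ m| = t ^ (2 * m + 1) / D ^ 5 := by
    have h1 : wt5 N i = (-1) ^ (N + i) * (t / D ^ 5) := by
      unfold wt5 f5
      rw [← ht, ← hDdef]
    rw [h1, abs_mul, abs_mul, abs_pow, abs_neg, abs_one, one_pow, one_mul,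
      abs_of_pos (by positivity : 0 < t / D ^ 5), abs_of_pos (by positivity : 0 < (t ^ 2) ^ m)]
    rw [← pow_mul, pow_succ]
    ring
  rw [habs]
  have hD5 : F ^ 5 * r ^ (10 * N) / 32 ≤ D ^ 5 := by
    calc F ^ 5 * r ^ (10 * N) / 32 = (1 / 2 * (F * r ^ (2 * N))) ^ 5 := by
          rw [mul_pow, mul_pow, ← pow_mul, show 2 * N * 5 = 10 * N by ring]; ring
      _ ≤ D ^ 5 := pow_le_pow_left₀ hlow0.le hD 5
  have htp : t ^ (2 * m + 1) ≤ (2 * N * r) ^ (2 * m + 1) := pow_le_pow_left₀ ht0.le htr _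
  obtain ⟨e, he⟩ : ∃ e, 10 * N = 2 * m + 1 + 3 + e := ⟨10 * N - (2 * m + 4), by omega⟩
  have hre : 1 ≤ r ^ e := one_le_pow₀ hr1
  have hr3 : ((i : ℝ) + 1) ^ 3 ≤ (2 * N * r) ^ 3 := by
    refine pow_le_pow_left₀ (by positivity) ?_ 3
    have : 2 * (N : ℝ) * r = i + 2 * N := by rw [hr]; field_simp
    rw [this]; linarith
  calc F ^ 5 * (t ^ (2 * m + 1) / D ^ 5)
      ≤ F ^ 5 * ((2 * N * r) ^ (2 * m + 1) / (F ^ 5 * r ^ (10 * N) / 32)) := by
        refine mul_le_mul_of_nonneg_left ?_ (by positivity)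
        exact div_le_div₀ (by positivity) htp (by positivity) hD5
    _ = 32 * (2 * (N : ℝ)) ^ (2 * m + 1) / (r ^ 3 * r ^ e) := by
        rw [he, pow_add _ (2 * m + 1 + 3) e, pow_add _ (2 * m + 1) 3, mul_pow]
        field_simp
    _ ≤ 32 * (2 * (N : ℝ)) ^ (2 * m + 1) / r ^ 3 := by
        refine div_le_div_of_nonneg_left (by positivity) (by positivity) ?_
        exact le_mul_of_one_le_right (by positivity) hre
    _ = 32 * (2 * (N : ℝ)) ^ (2 * m + 4) / (2 * N * r) ^ 3 := by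
        rw [show 2 * m + 4 = 2 * m + 1 + 3 by ring, pow_add _ (2 * m + 1) 3, mul_pow (2 * (N : ℝ)) r 3]
        field_simp
    _ ≤ 32 * (2 * (N : ℝ)) ^ (2 * m + 4) / ((i : ℝ) + 1) ^ 3 :=
        div_le_div_of_nonneg_left (by positivity) (by positivity) hr3
    _ = _ := by ring

theorem main : MOM := by
  have hs : Summable fun i : ℕ => 1 / ((i : ℝ) + 1) ^ 3 := by
    have h1 : Summable fun n : ℕ => 1 / (n : ℝ) ^ 3 := Real.summable_one_div_nat_pow.2 (by norm_num)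
    have h2 := (summable_nat_add_iff 1).2 h1
    refine h2.congr fun i => ?_
    push_cast
    rfl
  obtain ⟨S, hS⟩ := hs
  have hS0 : 0 ≤ S := hS.nonneg fun i => by positivity
  refine ⟨(32 * (S + 1)) * 256, fun N hN m hm => ?_⟩
  have hN' : (1 : ℝ) ≤ N := by exact_mod_cast hN
  set F : ℝ := ((2 * N).factorial : ℝ) ^ 5 with hF
  have hF0 : 0 < F := by rw [hF]; positivity
  have h1 : |mom5 N m| ≤ (32 * (2 * (N : ℝ)) ^ (2 * m + 4) / F) * S := by
    unfold mom5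
    rw [← Real.norm_eq_abs]
    refine tsum_of_norm_bounded (hS.mul_left _) fun i => ?_
    rw [Real.norm_eq_abs]
    have h2 := term_le N m i hN hm
    rw [← hF] at h2
    rw [div_mul_eq_mul_div, le_div_iff₀ hF0, mul_comm]
    exact h2
  have h3 : (2 * (N : ℝ)) ^ 4 ≤ 256 ^ N := by
    have h4 : 2 * (N : ℝ) ≤ 4 ^ N := by
      have h5 : 2 * N < 2 ^ (2 * N) := Nat.lt_two_pow_self
      have h6 : ((2 * N : ℕ) : ℝ) ≤ ((2 ^ (2 * N) : ℕ) : ℝ) := by exact_mod_cast h5.le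
      push_cast at h6
      rwa [pow_mul, show (2 : ℝ) ^ 2 = 4 by norm_num] at h6
    calc (2 * (N : ℝ)) ^ 4 ≤ (4 ^ N) ^ 4 := pow_le_pow_left₀ (by positivity) h4 4
      _ = 256 ^ N := by rw [← pow_mul, mul_comm, pow_mul]; norm_num
  have h7 : 32 * (S + 1) ≤ (32 * (S + 1)) ^ N := by
    refine le_self_pow₀ ?_ (by omega)
    linarith
  calc F * |mom5 N m| ≤ F * ((32 * (2 * (N : ℝ)) ^ (2 * m + 4) / F) * S) :=
        mul_le_mul_of_nonneg_left h1 hF0.le
    _ = (32 * S) * (2 * (N : ℝ)) ^ 4 * (2 * (N : ℝ)) ^ (2 * m) := by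
        rw [show 2 * m + 4 = 4 + 2 * m by ring, pow_add]
        field_simp
    _ ≤ (32 * (S + 1)) ^ N * 256 ^ N * (2 * (N : ℝ)) ^ (2 * m) := by
        refine mul_le_mul_of_nonneg_right ?_ (by positivity)
        refine mul_le_mul (le_trans (by linarith) h7) h3 (by positivity) (by positivity)
    _ = _ := by rw [mul_pow (32 * (S + 1)) 256 N]

end Vale.Agent.P030.Q.MomA

namespace Vale.Agent.P030.Q

theorem xMom : MOM := MomA.main

end Vale.Agent.P030.Q
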