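import Vale.Agent.P030.Q.Defs

set_option linter.all false

/-! Block PHI: the explicit inverse Laplace transform. -/

namespace Vale.Agent.P030.Five

open Finset Polynomial MeasureTheory Vale.Agent.P030 Vale.Agent.P030.Q

theorem h363_phi (N k : ℕ) (hN : 1 ≤ N) (P : ℝ[X]) (hP : P ≠ 0) (hk : P.natDegree = k)
    (hkN : 2 * k < 5 * N) :
    ContDiff ℝ ((⊤ : ℕ∞) : WithTop ℕ∞) (NVPhi_F (cs N P)) ∧ NVPhi_F (cs N P) ≠ 0 ∧
      (∀ x, NVPhi_F (cs N P) (-x) = -NVPhi_F (cs N P) x) ∧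
      (∃ l : List ℝ, l.length = 12 * N + 5 ∧ Ann l (NVPhi_F (cs N P))) ∧
      (∀ i < 12 * N + 3 - 2 * k, iteratedDeriv i (NVPhi_F (cs N P)) 0 = 0) ∧
      (∃ C : ℝ, ∀ s : ℝ, 0 ≤ s → |NVPhi_F (cs N P) s| ≤
        C * s ^ (12 * N + 3 - 2 * k) * Real.exp (((N : ℝ) + 1 / 4) * s)) ∧
      (∀ t : ℝ, (N : ℝ) + 1 / 4 < t →
        ∫ s in Set.Ioi (0 : ℝ), NVPhi_F (cs N P) s * Real.exp (-(t * s)) =
          t * P.eval (t ^ 2) / (Den N t ^ 5 * Num N t)) := by
  have hcs : cs N P = fun r => PowerSeries.coeff r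
      ((NVPhi_A (12 * N + 3 - 2 * k) P : PowerSeries ℝ) * NVPhi_B N) := by
    subst hk; rfl
  rw [hcs]
  have _hN := hN
  obtain ⟨μ, hμ⟩ : ∃ μ, μ = 12 * N + 3 - 2 * k := ⟨_, rfl⟩
  have hμ' : μ + 2 * k = 12 * N + 3 := by omega
  have hμodd : Odd μ := ⟨6 * N + 1 - k, by (clear * - hμ hμ'; omega)⟩
  rw [← hμ]
  set ρ : ℝ := (N : ℝ) + 1 / 4 with hρdef
  have hρ : 0 < ρ := by positivity
  have hNρ : (N : ℝ) < ρ := by rw [hρdef]; linarith only []
  set G : PowerSeries ℝ := (NVPhi_A μ P : PowerSeries ℝ) * NVPhi_B N with hG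
  have hGne : G ≠ 0 := by
    refine mul_ne_zero ?_ (NVPhi_B_ne N)
    rw [Ne, Polynomial.coe_eq_zero_iff]
    exact NVPhi_A_ne μ hP
  have hev : ∀ t : ℝ, (N : ℝ) < t → (N : ℝ) * |1 / t| < 1 := by
    intro t ht
    have ht0 : 0 < t := lt_of_le_of_lt (Nat.cast_nonneg N) ht
    rw [abs_of_pos (by positivity), mul_one_div, div_lt_one ht0]
    exact ht
  have hBd : NVPhi_Bd ρ (fun r => PowerSeries.coeff r G) :=
    NVPhi_Bd_of_Sm hρ (NVPhi_G_ev N μ P (hev ρ hNρ)).1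
  set c : ℕ → ℝ := fun r => PowerSeries.coeff r G with hc
  have hcμ : ∀ r < μ, c r = 0 := by
    intro r hr
    simp only [hc, hG]
    rw [NVPhi_A, Polynomial.coe_mul, Polynomial.coe_pow, Polynomial.coe_X, mul_assoc,
      PowerSeries.coeff_X_pow_mul', if_neg (by omega)]
  refine ⟨NVPhi_contDiff hρ.le hBd, ?_, ?_, ⟨NVPhi_list N, NVPhi_list_length N, ?_⟩,
    ?_, ?_, ?_⟩
  · intro h0
    apply hGne
    ext r
    have h1 := NVPhi_iteratedDeriv_zero hρ.le r hBd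
    rw [h0] at h1
    have h2 : iteratedDeriv r (0 : ℝ → ℝ) 0 = 0 := by
      have : (0 : ℝ → ℝ) = fun _ => (0 : ℝ) := rfl
      rw [this]
      simp
    rw [h2] at h1
    rw [map_zero]
    exact h1.symm
  · exact NVPhi_odd c (fun r hr => NVPhi_G_odd N hμodd P hr)
  · refine NVPhi_ann hρ.le _ c hBd G 0 (fun r => rfl) (fun r => ?_)
    rw [NVPhi_list_length, hG, mul_left_comm, NVPhi_list_mul_B, mul_one, Polynomial.coeff_coe]
    refine Polynomial.coeff_eq_zero_of_natDegree_lt (lt_of_le_of_lt (NVPhi_A_natDegree μ P) ?_)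
    omega
  · intro i hi
    rw [NVPhi_iteratedDeriv_zero hρ.le i hBd]
    exact hcμ i hi
  · obtain ⟨C, hC0, hC⟩ := hBd
    exact ⟨C * ρ ^ μ, fun s hs => NVPhi_growth hρ.le hC0 hC μ hcμ s hs⟩
  · intro t ht
    have ht0 : 0 < t := lt_trans hρ ht
    have htN : (N : ℝ) < t := lt_trans hNρ ht
    rw [NVPhi_laplace hρ.le hBd ht]
    have h1 : (∑' r : ℕ, c r * (1 / t) ^ (r + 1)) = NVPhi_ev (1 / t) G * (1 / t) := by
      unfold NVPhi_ev
      rw [← tsum_mul_right]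
      refine tsum_congr fun r => ?_
      simp only [hc]
      ring
    rw [h1, hG, (NVPhi_G_ev N μ P (hev t htN)).2]
    have : Invertible (t ^ 2) := invertibleOfNonzero (by positivity)
    have h2 := Polynomial.eval₂_reverse_mul_pow (RingHom.id ℝ) (t ^ 2) P
    rw [Polynomial.eval₂_id, Polynomial.eval₂_id, invOf_eq_inv, hk] at h2
    have h3 : (1 / t) ^ 2 = (t ^ 2)⁻¹ := by rw [div_pow, one_pow, one_div]
    have h4 : Den N t = t ^ (2 * N + 1) * ∏ j ∈ Icc (-(N : ℤ)) N, (1 - (j : ℝ) * (1 / t)) := by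
      unfold Den
      have hcard : (Icc (-(N : ℤ)) N).card = 2 * N + 1 := by
        rw [Int.card_Icc]; omega
      rw [← hcard, ← Finset.prod_const, ← Finset.prod_mul_distrib]
      refine Finset.prod_congr rfl fun j _ => ?_
      field_simp
    have h4' : Num N t = t ^ (2 * N) * ∏ k ∈ range N, ((1 - ((k : ℝ) + 1 / 2) * (1 / t)) *
        (1 - -((k : ℝ) + 1 / 2) * (1 / t))) := by
      unfold Num
      rw [pow_mul]
      nth_rewrite 2 [← Finset.card_range N]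
      rw [← Finset.prod_const, ← Finset.prod_mul_distrib]
      refine Finset.prod_congr rfl fun j _ => ?_
      field_simp
      ring
    have h5 : ∏ j ∈ Icc (-(N : ℤ)) N, ((1 - (j : ℝ) * (1 / t))⁻¹) ^ 5 =
        ((∏ j ∈ Icc (-(N : ℤ)) N, (1 - (j : ℝ) * (1 / t))) ^ 5)⁻¹ := by
      rw [Finset.prod_pow, Finset.prod_inv_distrib, inv_pow]
    have h5' : ∏ k ∈ range N, ((1 - ((k : ℝ) + 1 / 2) * (1 / t))⁻¹ *
        (1 - -((k : ℝ) + 1 / 2) * (1 / t))⁻¹) =
        (∏ k ∈ range N, ((1 - ((k : ℝ) + 1 / 2) * (1 / t)) *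
          (1 - -((k : ℝ) + 1 / 2) * (1 / t))))⁻¹ := by
      rw [← Finset.prod_inv_distrib]
      refine Finset.prod_congr rfl fun k _ => ?_
      rw [mul_inv]
    have h6 : ∏ j ∈ Icc (-(N : ℤ)) N, (1 - (j : ℝ) * (1 / t)) ≠ 0 := by
      refine Finset.prod_ne_zero_iff.mpr fun j hj h => ?_
      rw [Finset.mem_Icc] at hj
      have hjN : (j : ℝ) ≤ N := by exact_mod_cast hj.2
      have : (j : ℝ) * (1 / t) = 1 := by linarith only [h]
      rw [mul_one_div, div_eq_one_iff_eq ht0.ne'] at this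
      linarith only [hρdef, ht, hjN, this]
    have h6' : ∏ k ∈ range N, ((1 - ((k : ℝ) + 1 / 2) * (1 / t)) *
        (1 - -((k : ℝ) + 1 / 2) * (1 / t))) ≠ 0 := by
      refine Finset.prod_ne_zero_iff.mpr fun k hk => ?_
      rw [Finset.mem_range] at hk
      have hkN : (k : ℝ) + 1 ≤ N := by exact_mod_cast hk
      have ht1 : 0 < 1 / t := by positivity
      refine mul_ne_zero ?_ ?_
      · have : ((k : ℝ) + 1 / 2) * (1 / t) < 1 := by
          rw [mul_one_div, div_lt_one ht0]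
          linarith only [hNρ, ht, hkN]
        linarith only [this]
      · have : 0 ≤ ((k : ℝ) + 1 / 2) * (1 / t) := by (clear * - ht0; positivity)
        linarith only [this]
    rw [← h2, h3, h4, h4', h5, h5']
    set D := ∏ j ∈ Icc (-(N : ℤ)) N, (1 - (j : ℝ) * (1 / t)) with hD
    set D' := ∏ k ∈ range N, ((1 - ((k : ℝ) + 1 / 2) * (1 / t)) *
        (1 - -((k : ℝ) + 1 / 2) * (1 / t))) with hD'
    set E := Polynomial.eval ((t ^ 2)⁻¹) P.reverse with hE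
    have h7 : (t ^ (2 * N + 1) * D) ^ 5 * (t ^ (2 * N) * D') =
        (t ^ μ * t) * (t * (t ^ 2) ^ k) * (D ^ 5 * D') := by
      have e1 : (t ^ (2 * N + 1) * D) ^ 5 * (t ^ (2 * N) * D') =
        (t ^ ((2 * N + 1) * 5) * t ^ (2 * N)) * (D ^ 5 * D') := by
        rw [mul_pow, ← pow_mul]; ring
      have e2 : (t ^ μ * t) * (t * (t ^ 2) ^ k) = t ^ ((2 * N + 1) * 5) * t ^ (2 * N) := by
        rw [← pow_mul, ← pow_succ, ← pow_succ', ← pow_add, ← pow_add]
        congr 1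
        (clear * - hμ hμ'; omega)
      rw [e1, e2]
    rw [h7, div_pow, one_pow]
    have htμ : t ^ μ ≠ 0 := pow_ne_zero _ ht0.ne'
    have htk : (t ^ 2) ^ k ≠ 0 := pow_ne_zero _ (pow_ne_zero _ ht0.ne')
    have hD7 : D ^ 5 ≠ 0 := pow_ne_zero _ h6
    field_simp

end Vale.Agent.P030.Five

namespace Vale.Agent.P030.Q

theorem xPhi : PHI := fun N P hN hP hkN => Five.h363_phi N P.natDegree hN P hP rfl hkN

end Vale.Agent.P030.Q
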