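import Vale.Agent.P030.Q.Defs

/-! Orthogonal polynomials for `psi5 N` and the product formula for the Hankel determinant. -/

set_option autoImplicit false

namespace Vale.Agent.P030.Q.Pr

open Finset Polynomial MeasureTheory Vale.Agent.P030 Vale.Agent.P030.Five

/-- orthogonality to the powers `X^a`, `a < k`, gives orthogonality to polynomials of degree `< k`. -/
theorem orth_poly {N k : ℕ} {P : ℝ[X]} (h : ∀ a < k, psi5 N (P * X ^ a) = 0) {Q : ℝ[X]}
    (hQ : Q.natDegree < k) : psi5 N (P * Q) = 0 := by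
  rw [Q.as_sum_range_C_mul_X_pow, Finset.mul_sum, map_sum]
  apply Finset.sum_eq_zero
  intro i hi
  have hi' : i < k := by have := Finset.mem_range.mp hi; omega
  have e : P * (C (Q.coeff i) * X ^ i) = (Q.coeff i) • (P * X ^ i) := by
    rw [smul_eq_C_mul]; ring
  rw [e, map_smul, h i hi', smul_zero]

/-- existence of the orthogonal polynomial. -/
theorem exists_orth (N k : ℕ) (hN : 1 ≤ N) (hk : 2 * k ≤ 5 * N) :
    ∃ P : ℝ[X], P.Monic ∧ P.natDegree = k ∧ ∀ a < k, psi5 N (P * X ^ a) = 0 := by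
  set H : Matrix (Fin k) (Fin k) ℝ :=
    Matrix.of fun a b : Fin k => psi5 N (X ^ ((a : ℕ) + (b : ℕ))) with hH
  have hdet : IsUnit H.det := (HK5_ne_zero N k hN hk).isUnit
  set w : Fin k → ℝ := fun a => -psi5 N (X ^ (k + (a : ℕ))) with hw
  set v : Fin k → ℝ := H⁻¹.mulVec w with hv
  have hHv : H.mulVec v = w := by
    rw [hv, Matrix.mulVec_mulVec, Matrix.mul_nonsing_inv _ hdet, Matrix.one_mulVec]
  set R : ℝ[X] := ∑ b : Fin k, C (v b) * X ^ (b : ℕ) with hR
  have hdeg : R.degree < (k : ℕ) := by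
    rw [hR]
    apply Polynomial.degree_sum_fin_lt
  refine ⟨X ^ k + R, ?_, ?_, ?_⟩
  · exact (monic_X_pow k).add_of_left (by rwa [degree_X_pow])
  · rw [natDegree_add_eq_left_of_degree_lt (by rwa [degree_X_pow]), natDegree_X_pow]
  · intro a ha
    have h1 := congrFun hHv ⟨a, ha⟩
    have h2 : ∑ b : Fin k, psi5 N (X ^ (a + (b : ℕ))) * v b = -psi5 N (X ^ (k + a)) := by
      simpa [Matrix.mulVec, dotProduct, hH, hw] using h1
    rw [add_mul, map_add, ← pow_add, hR, Finset.sum_mul, map_sum]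
    have h3 : ∑ b : Fin k, psi5 N (C (v b) * X ^ (b : ℕ) * X ^ a) =
        ∑ b : Fin k, psi5 N (X ^ (a + (b : ℕ))) * v b := by
      refine Finset.sum_congr rfl fun b _ => ?_
      have e : C (v b) * X ^ (b : ℕ) * X ^ a = (v b) • (X ^ (a + (b : ℕ)) : ℝ[X]) := by
        rw [smul_eq_C_mul, mul_assoc, ← pow_add, add_comm (b : ℕ) a]
      rw [e, map_smul, smul_eq_mul, mul_comm]
    rw [h3, h2]
    ring

end Vale.Agent.P030.Q.Pr

namespace Vale.Agent.P030.Q

open Finset Polynomial MeasureTheory Vale.Agent.P030 Vale.Agent.P030.Five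

/-- (PROD) the Hankel determinant is the product of the norms of the orthogonal polynomials. -/
theorem prod_thm : PROD := by
  intro N K hN hK
  have hex : ∀ k : ℕ, ∃ P : ℝ[X], P.Monic ∧ P.natDegree = k ∧
      (k < K → ∀ a < k, psi5 N (P * X ^ a) = 0) := by
    intro k
    by_cases hk : k < K
    · obtain ⟨P, h1, h2, h3⟩ := Pr.exists_orth N k hN (by omega)
      exact ⟨P, h1, h2, fun _ => h3⟩
    · exact ⟨X ^ k, monic_X_pow k, natDegree_X_pow k, fun h => absurd h hk⟩
  choose P hm hd ho using hex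
  refine ⟨P, fun k hk => ⟨hm k, hd k, ho k hk⟩, ?_⟩
  rw [HK5_eq_det N K P hm hd]
  have hdiag : (Matrix.of fun a b : Fin K => psi5 N (P a * P b)) =
      Matrix.diagonal fun a : Fin K => psi5 N (P a * P a) := by
    ext a b
    rw [Matrix.of_apply]
    by_cases hab : a = b
    · subst hab
      rw [Matrix.diagonal_apply_eq]
    · rw [Matrix.diagonal_apply_ne _ hab]
      rcases lt_or_gt_of_ne (fun h : (a : ℕ) = (b : ℕ) => hab (Fin.ext h)) with h | h
      · rw [mul_comm]
        exact Pr.orth_poly (ho b b.2) (by rw [hd]; exact h)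
      · exact Pr.orth_poly (ho a a.2) (by rw [hd]; exact h)
  rw [hdiag, Matrix.det_diagonal, Finset.prod_range]

end Vale.Agent.P030.Q
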