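import Vale.Agent.P030.Q.Defs

/-! # (SIGN): a function orthogonal to the first powers, with few zeros -/

namespace Vale.Agent.P030.Q.SignB

open Finset Polynomial MeasureTheory Vale.Agent.P030 Vale.Agent.P030.Five

theorem xSIGN : SIGN := by
  intro N k Φ hcont hz hint horth
  -- the zero set
  have hfin : {x : ℝ | 0 < x ∧ Φ x = 0}.Finite := by
    by_contra hinf
    obtain ⟨S, hS, hcard⟩ := Set.Infinite.exists_subset_card_eq hinf (k + 1)
    have := hz S (fun x hx => hS hx)
    omega
  set Z := hfin.toFinset with hZ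
  have hZmem : ∀ x, x ∈ Z ↔ 0 < x ∧ Φ x = 0 := by intro x; simp [hZ]
  obtain ⟨S, hSZ, hS⟩ := NVSign_aux Φ hcont Z.card Z rfl (Set.Ioi 0) Set.ordConnected_Ioi
    (fun x hx h => (hZmem x).mpr ⟨hx, h⟩)
  set q : ℝ[X] := ∏ w ∈ S, (X - C (gg w ^ 2)) with hq
  have hSk : S.card ≤ k := (Finset.card_le_card hSZ).trans (hz Z (fun x hx => (hZmem x).mp hx))
  have hqmon : q.Monic := monic_prod_of_monic _ _ fun i _ => monic_X_sub_C _
  have hqdeg : q.natDegree = S.card := by
    rw [hq, natDegree_prod_of_monic _ _ (fun i _ => monic_X_sub_C _)]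
    simp only [natDegree_X_sub_C, sum_const, smul_eq_mul, mul_one]
  have hqk : q.natDegree ≤ k := hqdeg.le.trans hSk
  set h : ℝ → ℝ := fun s => Φ s * (gg s ^ (2 * N + 1) * q.eval (gg s ^ 2)) with hh
  have e1 : h = fun s => ∑ l ∈ range (k + 1),
      q.coeff l * (Φ s * gg s ^ (2 * N + 2 * l + 1)) := by
    ext s
    simp only [hh]
    rw [eval_eq_sum_range' (Nat.lt_succ_of_le hqk), Finset.mul_sum, Finset.mul_sum]
    apply Finset.sum_congr rfl
    intro l _
    ring
  have hhint : IntegrableOn h (Set.Ioi 0) := by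
    rw [e1]
    apply integrable_finsetSum
    intro l hl
    apply Integrable.const_mul
    exact hint l (by have := Finset.mem_range.mp hl; omega)
  -- the integral
  have hI : ∫ s in Set.Ioi (0 : ℝ), h s =
      q.coeff k * ∫ s in Set.Ioi (0 : ℝ), Φ s * gg s ^ (2 * N + 2 * k + 1) := by
    rw [e1, integral_finsetSum]
    · rw [Finset.sum_range_succ, Finset.sum_eq_zero]
      · rw [zero_add, integral_const_mul]
      · intro l hl
        rw [integral_const_mul, horth l (Finset.mem_range.1 hl), mul_zero]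
    · intro l hl
      apply Integrable.const_mul
      exact hint l (by have := Finset.mem_range.mp hl; omega)
  have hck : |q.coeff k| ≤ 1 := by
    rcases hqk.lt_or_eq with h1 | h1
    · rw [coeff_eq_zero_of_natDegree_lt h1, abs_zero]
      exact zero_le_one
    · rw [← h1]
      have := hqmon
      rw [Monic, leadingCoeff] at this
      rw [this, abs_one]
  -- the absolute value
  have habs : ∀ s, |h s| = |Φ s| * (gg s ^ (2 * N + 1) * ∏ z ∈ S, |gg s ^ 2 - gg z ^ 2|) := by
    intro s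
    simp only [hh, hq]
    rw [abs_mul, abs_mul, abs_of_pos (pow_pos (NVSum_gg_pos s) _), eval_prod, Finset.abs_prod]
    simp only [eval_sub, eval_X, eval_C]
  -- `h` in terms of the sign function
  have hfac : ∀ s : ℝ, 0 < s → s ∉ Z → ∃ c : ℝ, 0 < c ∧ h s = c * (Φ s * ∏ w ∈ S, (w - s)) := by
    intro s hs hsZ
    refine ⟨gg s ^ (2 * N + 1) * ∏ w ∈ S, ((gg s ^ 2 - gg w ^ 2) / (w - s)), ?_, ?_⟩
    · apply mul_pos (pow_pos (NVSum_gg_pos s) _)
      apply Finset.prod_pos
      intro w hw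
      have hwZ := hSZ hw
      exact NVSign_gg_sub hs ((hZmem w).mp hwZ).1 (fun e => hsZ (e ▸ hwZ))
    · simp only [hh, hq]
      rw [eval_prod]
      simp only [eval_sub, eval_X, eval_C]
      have e2 : ∏ w ∈ S, (gg s ^ 2 - gg w ^ 2) =
          (∏ w ∈ S, ((gg s ^ 2 - gg w ^ 2) / (w - s))) * ∏ w ∈ S, (w - s) := by
        rw [← Finset.prod_mul_distrib]
        apply Finset.prod_congr rfl
        intro w hw
        have hwZ := hSZ hw
        have : w - s ≠ 0 := by
          intro e
          have : s = w := by linarith only [e]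
          exact hsZ (this ▸ hwZ)
        field_simp
      rw [e2]; ring
  have hzeroZ : ∀ s ∈ Z, h s = 0 := by
    intro s hs
    simp only [hh]
    rw [((hZmem s).mp hs).2, zero_mul]
  have hconst : |∫ s in Set.Ioi (0 : ℝ), h s| = ∫ s in Set.Ioi (0 : ℝ), |h s| := by
    rcases hS with hS | hS
    · have h0 : ∀ s ∈ Set.Ioi (0 : ℝ), |h s| = h s := by
        intro s hs
        by_cases hsZ : s ∈ Z
        · rw [hzeroZ s hsZ, abs_zero]
        · obtain ⟨c, hc, e⟩ := hfac s hs hsZ
          rw [e, abs_of_pos (mul_pos hc (hS s hs hsZ))]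
      have h1 : ∫ s in Set.Ioi (0 : ℝ), |h s| = ∫ s in Set.Ioi (0 : ℝ), h s :=
        setIntegral_congr_fun measurableSet_Ioi h0
      rw [← h1]
      exact abs_of_nonneg (integral_nonneg fun s => abs_nonneg _)
    · have h0 : ∀ s ∈ Set.Ioi (0 : ℝ), |h s| = -h s := by
        intro s hs
        by_cases hsZ : s ∈ Z
        · rw [hzeroZ s hsZ, abs_zero, neg_zero]
        · obtain ⟨c, hc, e⟩ := hfac s hs hsZ
          rw [e, abs_of_neg (mul_neg_of_pos_of_neg hc (hS s hs hsZ))]
      have h1 : ∫ s in Set.Ioi (0 : ℝ), |h s| = -∫ s in Set.Ioi (0 : ℝ), h s := by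
        rw [← integral_neg]
        exact setIntegral_congr_fun measurableSet_Ioi h0
      rw [← abs_neg, ← h1]
      exact abs_of_nonneg (integral_nonneg fun s => abs_nonneg _)
  refine ⟨S, hSk, fun z hzS => ((hZmem z).mp (hSZ hzS)).1, ?_, ?_⟩
  · have h2 : IntegrableOn (fun s => |h s|) (Set.Ioi 0) := hhint.abs
    exact h2.congr_fun (fun s _ => habs s) measurableSet_Ioi
  · have h2 : ∫ s in Set.Ioi (0 : ℝ), |Φ s| * (gg s ^ (2 * N + 1) *
        ∏ z ∈ S, |gg s ^ 2 - gg z ^ 2|) = ∫ s in Set.Ioi (0 : ℝ), |h s| :=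
      (setIntegral_congr_fun measurableSet_Ioi fun s _ => habs s).symm
    rw [h2, ← hconst, hI, abs_mul]
    calc _ ≤ 1 * |∫ s in Set.Ioi (0 : ℝ), Φ s * gg s ^ (2 * N + 2 * k + 1)| :=
          mul_le_mul_of_nonneg_right hck (abs_nonneg _)
      _ = _ := one_mul _

end Vale.Agent.P030.Q.SignB
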