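import Vale.Agent.P030.Q.Final
import Vale.Agent.P030.Q.Cor
import Vale.Agent.P030.Q.Lrem
import Vale.Agent.P030.Q.Phi
import Vale.Agent.P030.Q.Prod
import Vale.Agent.P030.Q.Sign
import Vale.Agent.P030.Q.Coeff
import Vale.Agent.P030.Q.Mom
import Vale.Agent.P030.Q.Bmb
import Vale.Agent.P030.Q.Grid
import Vale.Agent.P030.Q.LowRow
import Vale.Agent.P030.Q.Lip
import Vale.Agent.P030.Q.Arith

set_option linter.all false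

namespace Vale.Agent.P030.Q

open Finset Polynomial Filter Topology Vale.Agent.P030 Vale.Agent.P030.Five

theorem xLowRow : LOWROW :=
  LowRow.lowrow_of xPhi (grid_of xLrem CoeffB.xCOEFF) SignB.xSIGN CoeffB.xCOEFF

theorem measure : ∃ C : ℝ, 0 < C ∧ ∀ (p r : ℤ) (q : ℕ), 2 ≤ q →
    Real.exp (-(C * Real.log (q : ℝ) ^ 2)) ≤ max |beta 2 - (p : ℝ) / (q : ℝ)| |beta 4 - (r : ℝ) / (q : ℝ)| :=
  measure_of Arith.xArith (Lip.lip_of xMom Bmb.xBMB) prod_thm xLowRow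

theorem all_results :
    (Irrational (∑' j : ℕ, (-1 : ℝ) ^ j / (2 * (j : ℝ) + 1) ^ 2) ∨
      Irrational (∑' j : ℕ, (-1 : ℝ) ^ j / (2 * (j : ℝ) + 1) ^ 4)) ∧
    (∃ C : ℝ, 0 < C ∧ ∀ (p r : ℤ) (q : ℕ), 2 ≤ q →
      Real.exp (-(C * Real.log (q : ℝ) ^ 2)) ≤
        max |(∑' j : ℕ, (-1 : ℝ) ^ j / (2 * (j : ℝ) + 1) ^ 2) - (p : ℝ) / (q : ℝ)|
          |(∑' j : ℕ, (-1 : ℝ) ^ j / (2 * (j : ℝ) + 1) ^ 4) - (r : ℝ) / (q : ℝ)|) ∧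
    (¬ Irrational (∑' j : ℕ, (-1 : ℝ) ^ j / (2 * (j : ℝ) + 1) ^ 4) →
      ∃ C : ℝ, 0 < C ∧ ∀ (p : ℤ) (q : ℕ), 2 ≤ q → Real.exp (-(C * Real.log (q : ℝ) ^ 2)) ≤
        |(∑' j : ℕ, (-1 : ℝ) ^ j / (2 * (j : ℝ) + 1) ^ 2) - (p : ℝ) / (q : ℝ)|) ∧
    (¬ Irrational (∑' j : ℕ, (-1 : ℝ) ^ j / (2 * (j : ℝ) + 1) ^ 2) →
      ∃ C : ℝ, 0 < C ∧ ∀ (p : ℤ) (q : ℕ), 2 ≤ q → Real.exp (-(C * Real.log (q : ℝ) ^ 2)) ≤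
        |(∑' j : ℕ, (-1 : ℝ) ^ j / (2 * (j : ℝ) + 1) ^ 4) - (p : ℝ) / (q : ℝ)|) := by
  obtain ⟨C, hC, h⟩ := measure
  refine ⟨Vale.Agent.P030.Five.main5, ⟨C, hC, h⟩, fun h4 => ?_, fun h2 => ?_⟩
  · exact cor_rat (beta 2) (beta 4) C hC h h4
  · exact cor_rat (beta 4) (beta 2) C hC (fun p r q hq => by
      rw [max_comm]
      exact h r p q hq) h2

end Vale.Agent.P030.Q
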