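import Vale.Agent.P030.Bdl.B2

set_option linter.all false

/-! Simultaneous approximation measure for `β(2)`, `β(4)`: definitions and the interface. -/

namespace Vale.Agent.P030.Q

open Finset Polynomial MeasureTheory Vale.Agent.P030 Vale.Agent.P030.Five

/-- moments of the `r`-th residue functional. -/
noncomputable def bm (N r m : ℕ) : ℚ :=
  ∑ j ∈ Icc (-(N : ℤ)) N, (-1 : ℚ) ^ j * PowerSeries.coeff r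
    (((((X : ℚ[X]) ^ (2 * m + 1)).comp (X + C (j : ℚ)) : ℚ[X]) : PowerSeries ℚ) *
      F5PF_E (Icc (-(N : ℤ)) N) j)

/-- the residue functional on real polynomials. -/
noncomputable def bt (N r : ℕ) : ℝ[X] →ₗ[ℝ] ℝ :=
  Polynomial.lsum fun i => (LinearMap.id : ℝ →ₗ[ℝ] ℝ).smulRight ((bm N r i : ℚ) : ℝ)

/-- the functional with `4 β(2)`, `16 β(4)` replaced by the rational numbers `c 2`, `c 4`. -/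
noncomputable def psiC (N : ℕ) (c : ℕ → ℚ) : ℝ[X] →ₗ[ℝ] ℝ :=
  psi5 N + ((c 4 : ℝ) - 2 ^ 4 * beta 4) • bt N 1 + ((c 2 : ℝ) - 2 ^ 2 * beta 2) • bt N 3

/-- its Hankel determinant. -/
noncomputable def HKc (N K : ℕ) (c : ℕ → ℚ) : ℝ :=
  (Matrix.of fun a b : Fin K => psiC N c (X ^ ((a : ℕ) + (b : ℕ)))).det

/-- the normalizing factor. -/
noncomputable def Nf (N K : ℕ) : ℝ :=
  ∏ k ∈ range K, (((2 * N).factorial : ℝ) ^ 5 / ((2 * k - 1).factorial : ℝ) ^ 2)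

/-- Taylor coefficients (times `r!`) of the inverse Laplace transform. -/
noncomputable def cs (N : ℕ) (P : ℝ[X]) (r : ℕ) : ℝ :=
  PowerSeries.coeff r ((NVPhi_A (12 * N + 3 - 2 * P.natDegree) P : PowerSeries ℝ) * NVPhi_B N)

/-- the weighted size of `P`. -/
noncomputable def Ws (N : ℕ) (P : ℝ[X]) : ℝ :=
  ∑ i ∈ range (12 * N + 4), |(NVPhi_A (12 * N + 3 - 2 * P.natDegree) P).coeff i| / (N : ℝ) ^ i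

/-! ### interface -/

/-- (PSI) owner helper111 -/
def PSI : Prop := ∀ (N : ℕ) (c : ℕ → ℚ), c 1 = 0 → c 3 = 0 → c 5 = 0 →
  ∀ l : Multiset ℤ, l.card ≤ 5 * N → psiC N c (nodePoly2 l) = ((psiQ5 c N l - exQ5 N l : ℚ) : ℝ)

/-- (ARITH) -/
def ARITH : Prop := ∃ M₀ : ℕ, ∀ M ≥ M₀, ∀ (P R : ℤ) (q : ℕ), 1 ≤ q → ∀ x : ℚ, x ≠ 0 →
  (∀ l : ℕ → Multiset ℤ, (∀ a, (l a).card = a) →
    x = (F5LevMat (F5MN_c ((P : ℚ) / q) ((R : ℚ) / q)) (2 * M) (5 * M) l).det) →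
  -81.9 * (M : ℝ) ^ 2 - 5 * M * Real.log q ≤
    Real.log |((F5MN_y (2 * M) (5 * M) x : ℚ) : ℝ)|

/-- (MOM) -/
def MOM : Prop := ∃ C : ℝ, ∀ N : ℕ, 1 ≤ N → ∀ m : ℕ, m + 2 ≤ 5 * N →
  ((2 * N).factorial : ℝ) ^ 5 * |mom5 N m| ≤ C ^ N * (2 * (N : ℝ)) ^ (2 * m)

/-- (BMB) -/
def BMB : Prop := ∃ C : ℝ, ∀ N : ℕ, 1 ≤ N → ∀ r m : ℕ, r ≤ 3 → m + 2 ≤ 5 * N →
  ((2 * N).factorial : ℝ) ^ 5 * |((bm N r m : ℚ) : ℝ)| ≤ C ^ N * (2 * (N : ℝ)) ^ (2 * m)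

/-- (LIP) -/
def LIP : Prop := ∃ C : ℝ, ∀ M : ℕ, 1 ≤ M → ∀ (c : ℕ → ℚ) (δ : ℝ), 0 ≤ δ → δ ≤ 1 →
  |(c 4 : ℝ) - 2 ^ 4 * beta 4| ≤ δ → |(c 2 : ℝ) - 2 ^ 2 * beta 2| ≤ δ →
  |HKc (2 * M) (5 * M) c - HK5 (2 * M) (5 * M)| * Nf (2 * M) (5 * M) ≤
    δ * Real.exp (C * (M : ℝ) ^ 2)

/-- (LREM) Lagrange-Remez: a polynomial that is small at `d + 1` separated points has small
coefficients. -/
def LREM : Prop := ∀ (d : ℕ) (p : ℝ[X]) (S : Finset ℕ) (x : ℕ → ℝ) (h b η : ℝ),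
  p.natDegree ≤ d → S.card = d + 1 → 0 < h → 0 ≤ b → (∀ i ∈ S, |x i| ≤ b) →
  (∀ i ∈ S, ∀ j ∈ S, h * |(i : ℝ) - j| ≤ |x i - x j|) → (∀ i ∈ S, |p.eval (x i)| ≤ η) →
  ∀ r : ℕ, |p.coeff r| ≤ η * (d + 1) * (2 * (1 + b)) ^ d / (h ^ d * d.factorial)

/-- (COEFF) -/
def COEFF : Prop := ∀ N : ℕ, 1 ≤ N → ∀ P : ℝ[X], P.Monic → 2 * P.natDegree < 5 * N →
  (∀ r, |cs N P r| ≤ 2 ^ (12 * N + 4) * (2 * (N : ℝ)) ^ r * Ws N P) ∧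
  Ws N P ≤ 2 ^ (12 * N + 5) * ∑ r ∈ range (12 * N + 4), |cs N P r| / (N : ℝ) ^ r ∧
  1 / (N : ℝ) ^ (12 * N + 3 - 2 * P.natDegree) ≤ Ws N P

/-- (GRID) (hypotheses LREM, COEFF may be used) -/
def GRID : Prop := ∃ C : ℝ, ∀ N : ℕ, 1 ≤ N → ∀ P : ℝ[X], P.Monic → 2 * P.natDegree < 5 * N →
  ∀ Z : Finset ℝ, Z.card ≤ P.natDegree → (∀ z ∈ Z, 0 < z) →
  IntegrableOn (fun s => |NVPhi_F (cs N P) s| *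
    (gg s ^ (2 * N + 1) * ∏ z ∈ Z, |gg s ^ 2 - gg z ^ 2|)) (Set.Ioi 0) →
  Ws N P * Real.exp (-(C * N)) ≤ ∫ s in Set.Ioi (0 : ℝ), |NVPhi_F (cs N P) s| *
    (gg s ^ (2 * N + 1) * ∏ z ∈ Z, |gg s ^ 2 - gg z ^ 2|)

/-- (SIGN) -/
def SIGN : Prop := ∀ (N k : ℕ) (Φ : ℝ → ℝ), Continuous Φ →
  (∀ S : Finset ℝ, (∀ x ∈ S, 0 < x ∧ Φ x = 0) → S.card ≤ k) →
  (∀ l ≤ k, IntegrableOn (fun s => Φ s * gg s ^ (2 * N + 2 * l + 1)) (Set.Ioi 0)) →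
  (∀ l < k, ∫ s in Set.Ioi (0 : ℝ), Φ s * gg s ^ (2 * N + 2 * l + 1) = 0) →
  ∃ Z : Finset ℝ, Z.card ≤ k ∧ (∀ z ∈ Z, 0 < z) ∧
    IntegrableOn (fun s => |Φ s| *
      (gg s ^ (2 * N + 1) * ∏ z ∈ Z, |gg s ^ 2 - gg z ^ 2|)) (Set.Ioi 0) ∧
    ∫ s in Set.Ioi (0 : ℝ), |Φ s| * (gg s ^ (2 * N + 1) * ∏ z ∈ Z, |gg s ^ 2 - gg z ^ 2|) ≤
      |∫ s in Set.Ioi (0 : ℝ), Φ s * gg s ^ (2 * N + 2 * k + 1)|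

/-- (PHI) explicit form of `exists_Phi5` -/
def PHI : Prop := ∀ (N : ℕ) (P : ℝ[X]), 1 ≤ N → P ≠ 0 → 2 * P.natDegree < 5 * N →
  ContDiff ℝ ((⊤ : ℕ∞) : WithTop ℕ∞) (NVPhi_F (cs N P)) ∧ NVPhi_F (cs N P) ≠ 0 ∧
  (∀ x, NVPhi_F (cs N P) (-x) = -NVPhi_F (cs N P) x) ∧
  (∃ l : List ℝ, l.length = 12 * N + 5 ∧ Ann l (NVPhi_F (cs N P))) ∧
  (∀ i < 12 * N + 3 - 2 * P.natDegree, iteratedDeriv i (NVPhi_F (cs N P)) 0 = 0) ∧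
  (∃ C : ℝ, ∀ s : ℝ, 0 ≤ s → |NVPhi_F (cs N P) s| ≤
    C * s ^ (12 * N + 3 - 2 * P.natDegree) * Real.exp (((N : ℝ) + 1 / 4) * s)) ∧
  (∀ t : ℝ, (N : ℝ) + 1 / 4 < t →
    ∫ s in Set.Ioi (0 : ℝ), NVPhi_F (cs N P) s * Real.exp (-(t * s)) =
      t * P.eval (t ^ 2) / (Den N t ^ 5 * Num N t))

/-- (LOWROW) from PHI, GRID, SIGN, COEFF -/
def LOWROW : Prop := ∃ C : ℝ, ∀ N : ℕ, 1 ≤ N → ∀ P : ℝ[X], P.Monic → 2 * P.natDegree < 5 * N →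
  (∀ a < P.natDegree, psi5 N (P * X ^ a) = 0) →
  Real.exp (-(C * N)) ≤ |psi5 N (P * P)| *
    (((2 * N).factorial : ℝ) ^ 5 / ((2 * P.natDegree - 1).factorial : ℝ) ^ 2)

/-- (PROD) -/
def PROD : Prop := ∀ N K : ℕ, 1 ≤ N → 2 * K ≤ 5 * N → ∃ P : ℕ → ℝ[X],
  (∀ k < K, (P k).Monic ∧ (P k).natDegree = k ∧ ∀ a < k, psi5 N (P k * X ^ a) = 0) ∧
  HK5 N K = ∏ k ∈ range K, psi5 N (P k * P k)

end Vale.Agent.P030.Q
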