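import Mathlib.LinearAlgebra.Matrix.Determinant.Basic
import Mathlib.Analysis.Normed.Field.Basic
import Mathlib.Data.Real.Basic

/-! Lipschitz estimate for determinants. -/

set_option autoImplicit false

namespace Vale.Agent.P030.Q.DetLip

open Finset

/-- difference of two products with factors bounded by `X`. -/
theorem abs_prod_sub_prod_le {ι : Type*} (s : Finset ι) (a b : ι → ℝ) {X δ : ℝ} (hX : 0 ≤ X)
    (hδ : 0 ≤ δ) (ha : ∀ i ∈ s, |a i| ≤ X) (hb : ∀ i ∈ s, |b i| ≤ X)
    (hab : ∀ i ∈ s, |a i - b i| ≤ δ) :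
    |∏ i ∈ s, a i - ∏ i ∈ s, b i| ≤ s.card * X ^ (s.card - 1) * δ := by
  classical
  induction s using Finset.induction_on with
  | empty => simp
  | insert i s hi ih =>
    have ih' := ih (fun j hj => ha j (mem_insert_of_mem hj)) (fun j hj => hb j (mem_insert_of_mem hj))
      (fun j hj => hab j (mem_insert_of_mem hj))
    have h1 : |∏ j ∈ s, a j| ≤ X ^ s.card := by
      rw [Finset.abs_prod]
      calc ∏ j ∈ s, |a j| ≤ ∏ _j ∈ s, X :=
            Finset.prod_le_prod (fun j _ => abs_nonneg _) fun j hj => ha j (mem_insert_of_mem hj)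
        _ = X ^ s.card := by simp
    have hai := ha i (mem_insert_self i s)
    have hbi := hb i (mem_insert_self i s)
    have habi := hab i (mem_insert_self i s)
    rw [Finset.prod_insert hi, Finset.prod_insert hi, Finset.card_insert_of_notMem hi]
    have e : a i * ∏ j ∈ s, a j - b i * ∏ j ∈ s, b j =
        (a i - b i) * ∏ j ∈ s, a j + b i * (∏ j ∈ s, a j - ∏ j ∈ s, b j) := by ring
    rw [e]
    refine (abs_add_le _ _).trans ?_
    rw [abs_mul, abs_mul]
    have h2 : |a i - b i| * |∏ j ∈ s, a j| ≤ δ * X ^ s.card :=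
      mul_le_mul habi h1 (abs_nonneg _) hδ
    have h3 : |b i| * |∏ j ∈ s, a j - ∏ j ∈ s, b j| ≤ X * (s.card * X ^ (s.card - 1) * δ) :=
      mul_le_mul hbi ih' (abs_nonneg _) hX
    have h4 : X * (s.card * X ^ (s.card - 1) * δ) ≤ s.card * X ^ s.card * δ := by
      rcases Nat.eq_zero_or_pos s.card with h0 | h0
      · rw [h0]; simp
      · have : X ^ s.card = X * X ^ (s.card - 1) := by
          rw [← pow_succ']; congr 1; omega
        rw [this]
        apply le_of_eq; ring
    have h5 : s.card + 1 - 1 = s.card := by omega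
    rw [h5]
    push_cast
    linarith only [h2, h3, h4]

/-- `|det A - det B| ≤ K! K X^(K-1) δ`. -/
theorem abs_det_sub_det_le {K : ℕ} (A B : Matrix (Fin K) (Fin K) ℝ) {X δ : ℝ} (hX : 0 ≤ X)
    (hδ : 0 ≤ δ) (hA : ∀ i j, |A i j| ≤ X) (hB : ∀ i j, |B i j| ≤ X)
    (hAB : ∀ i j, |A i j - B i j| ≤ δ) :
    |A.det - B.det| ≤ K.factorial * (K * X ^ (K - 1) * δ) := by
  rw [Matrix.det_apply, Matrix.det_apply, ← Finset.sum_sub_distrib]
  calc |∑ σ : Equiv.Perm (Fin K), (Equiv.Perm.sign σ • ∏ i, A (σ i) i -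
          Equiv.Perm.sign σ • ∏ i, B (σ i) i)|
      ≤ ∑ σ : Equiv.Perm (Fin K), |Equiv.Perm.sign σ • ∏ i, A (σ i) i -
          Equiv.Perm.sign σ • ∏ i, B (σ i) i| := Finset.abs_sum_le_sum_abs _ _
    _ ≤ ∑ _σ : Equiv.Perm (Fin K), (K * X ^ (K - 1) * δ : ℝ) := by
        refine Finset.sum_le_sum fun σ _ => ?_
        have h : |∏ i, A (σ i) i - ∏ i, B (σ i) i| ≤ K * X ^ (K - 1) * δ := by
          have := abs_prod_sub_prod_le (Finset.univ : Finset (Fin K)) (fun i => A (σ i) i)
            (fun i => B (σ i) i) hX hδ (fun i _ => hA _ _) (fun i _ => hB _ _) (fun i _ => hAB _ _)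
          simpa using this
        rw [← smul_sub]
        rcases Int.units_eq_one_or (Equiv.Perm.sign σ) with hs | hs
        · rw [hs, one_smul]; exact h
        · rw [hs, Units.neg_smul, one_smul, abs_neg]; exact h
    _ = K.factorial * (K * X ^ (K - 1) * δ) := by
        rw [Finset.sum_const, Finset.card_univ, Fintype.card_perm, Fintype.card_fin, nsmul_eq_mul]

end Vale.Agent.P030.Q.DetLip
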