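import Vale.Agent.P030.Q.Psi

set_option linter.all false

/-! Final assembly of the measure. -/

namespace Vale.Agent.P030.Q

open Finset Polynomial Filter Topology Vale.Agent.P030 Vale.Agent.P030.Five

theorem Nf_pos (N K : ℕ) : 0 < Nf N K := by
  unfold Nf
  refine Finset.prod_pos fun k _ => ?_
  have h1 : (0 : ℝ) < ((2 * N).factorial : ℝ) := by exact_mod_cast Nat.factorial_pos _
  have h2 : (0 : ℝ) < ((2 * k - 1).factorial : ℝ) := by exact_mod_cast Nat.factorial_pos _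
  positivity

theorem log_Nf (N K : ℕ) : Real.log (Nf N K) =
    ∑ k ∈ range K, (5 * Real.log (2 * N).factorial - 2 * Real.log (2 * k - 1).factorial) := by
  unfold Nf
  have h1 : ((2 * N).factorial : ℝ) ≠ 0 := by exact_mod_cast (Nat.factorial_pos _).ne'
  have h2 : ∀ k : ℕ, ((2 * k - 1).factorial : ℝ) ≠ 0 := fun k => by
    exact_mod_cast (Nat.factorial_pos _).ne'
  rw [Real.log_prod (fun k _ => div_ne_zero (pow_ne_zero _ h1) (pow_ne_zero _ (h2 k)))]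
  refine sum_congr rfl fun k _ => ?_
  rw [Real.log_div (pow_ne_zero _ h1) (pow_ne_zero _ (h2 k)), Real.log_pow, Real.log_pow]
  push_cast
  ring

theorem abs_y (N K : ℕ) (x : ℚ) : |((F5MN_y N K x : ℚ) : ℝ)| = |(x : ℝ)| * Nf N K := by
  have h : ((F5MN_y N K x : ℚ) : ℝ) = (x : ℝ) * Nf N K := by
    unfold F5MN_y Nf
    push_cast
    rfl
  rw [h, abs_mul, abs_of_pos (Nf_pos N K)]

theorem real_low (hP : PROD) (hL : LOWROW) : ∃ C : ℝ, 0 ≤ C ∧ ∀ M : ℕ, 1 ≤ M →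
    Real.exp (-(C * (M : ℝ) ^ 2)) ≤ |HK5 (2 * M) (5 * M)| * Nf (2 * M) (5 * M) := by
  obtain ⟨C, hC⟩ := hL
  refine ⟨10 * |C|, by positivity, fun M hM => ?_⟩
  obtain ⟨P, h1, h2⟩ := hP (2 * M) (5 * M) (by omega) (by omega)
  rw [h2, Finset.abs_prod, Nf, ← Finset.prod_mul_distrib]
  have h3 : ∏ k ∈ range (5 * M), Real.exp (-(|C| * ((2 * M : ℕ) : ℝ))) ≤
      ∏ k ∈ range (5 * M), (|psi5 (2 * M) (P k * P k)| *
        (((2 * (2 * M)).factorial : ℝ) ^ 5 / ((2 * k - 1).factorial : ℝ) ^ 2)) := by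
    refine Finset.prod_le_prod (fun k _ => (Real.exp_pos _).le) fun k hk => ?_
    rw [mem_range] at hk
    obtain ⟨a1, a2, a3⟩ := h1 k hk
    have h4 := hC (2 * M) (by omega) (P k) a1 (by rw [a2]; omega) (by rw [a2]; exact a3)
    rw [a2] at h4
    refine le_trans (Real.exp_le_exp.2 ?_) h4
    have : C * ((2 * M : ℕ) : ℝ) ≤ |C| * ((2 * M : ℕ) : ℝ) :=
      mul_le_mul_of_nonneg_right (le_abs_self C) (by positivity)
    linarith
  refine le_trans (le_of_eq ?_) h3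
  rw [Finset.prod_const, Finset.card_range, ← Real.exp_nat_mul]
  congr 1
  push_cast
  ring

/-- numerical lemma 1 -/
theorem num1 (C1 C2 δ m : ℝ) (hδ : 0 ≤ δ) (hm : 4 ≤ m)
    (key : Real.exp (-((82 + C2) * m)) / 2 ≤ 16 * δ * Real.exp (C1 * m)) :
    Real.exp (-((82 + |C1| + C2 + 4) * m)) ≤ δ := by
  have hm0 : 0 ≤ m := by linarith only [hm]
  have h2 : Real.exp (C1 * m) ≤ Real.exp (|C1| * m) :=
    Real.exp_le_exp.2 (mul_le_mul_of_nonneg_right (le_abs_self _) hm0)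
  have h3 : 16 * δ * Real.exp (C1 * m) ≤ 16 * δ * Real.exp (|C1| * m) :=
    mul_le_mul_of_nonneg_left h2 (by positivity)
  have h1 : Real.exp (-((82 + C2) * m)) ≤ 32 * δ * Real.exp (|C1| * m) := by
    linarith only [key, h3]
  have e1 : Real.exp (-((82 + |C1| + C2) * m)) = Real.exp (-((82 + C2) * m)) *
      Real.exp (-(|C1| * m)) := by
    rw [← Real.exp_add]; congr 1; ring
  have e2 : Real.exp (|C1| * m) * Real.exp (-(|C1| * m)) = 1 := by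
    rw [← Real.exp_add]; simp
  have h4 : Real.exp (-((82 + |C1| + C2) * m)) ≤ 32 * δ := by
    rw [e1]
    calc _ ≤ (32 * δ * Real.exp (|C1| * m)) * Real.exp (-(|C1| * m)) :=
          mul_le_mul_of_nonneg_right h1 (Real.exp_pos _).le
      _ = 32 * δ * (Real.exp (|C1| * m) * Real.exp (-(|C1| * m))) := by ring
      _ = 32 * δ := by rw [e2, mul_one]
  have e3 : Real.exp (-((82 + |C1| + C2 + 4) * m)) = Real.exp (-((82 + |C1| + C2) * m)) *
      Real.exp (-(4 * m)) := by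
    rw [← Real.exp_add]; congr 1; ring
  have e4 : Real.exp (-(4 * m)) ≤ 1 / 32 := by
    have e5 : Real.exp (-(4 * m)) ≤ Real.exp (-(5 * Real.log 2)) := by
      apply Real.exp_le_exp.2
      have := Real.log_two_lt_d9
      linarith only [this, hm]
    have e6 : Real.exp (-(5 * Real.log 2)) = 1 / 32 := by
      rw [Real.exp_neg, show (5 : ℝ) * Real.log 2 = ((5 : ℕ) : ℝ) * Real.log 2 by norm_num,
        Real.exp_nat_mul, Real.exp_log (by norm_num)]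
      norm_num
    exact e5.trans e6.le
  rw [e3]
  calc _ ≤ (32 * δ) * (1 / 32) :=
        mul_le_mul h4 e4 (Real.exp_pos _).le (by positivity)
    _ = δ := by ring

/-- numerical lemma 2 -/
theorem num2 (C1 C2 δ m F x H : ℝ) (hδ : 0 ≤ δ) (hm : 4 ≤ m) (hC2 : 0 ≤ C2) (hF : 0 < F)
    (hlip : |x - H| * F ≤ 16 * δ * Real.exp (C1 * m)) (hlow : Real.exp (-(C2 * m)) ≤ |H| * F)
    (hup : |H| * F ≤ Real.exp (-82.2 * m))
    (hx : x ≠ 0 → Real.exp (-82 * m) ≤ |x| * F) :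
    Real.exp (-((82 + C2) * m)) / 2 ≤ 16 * δ * Real.exp (C1 * m) := by
  have hm0 : 0 ≤ m := by linarith only [hm]
  have hp := Real.exp_pos (-((82 + C2) * m))
  have hC2m : 0 ≤ C2 * m := mul_nonneg hC2 hm0
  by_cases hx0 : x = 0
  · rw [hx0, zero_sub, abs_neg] at hlip
    have h1 : Real.exp (-((82 + C2) * m)) ≤ Real.exp (-(C2 * m)) :=
      Real.exp_le_exp.2 (by linarith only [hm0])
    linarith only [h1, hp, hlip, hlow]
  · have h2 := hx hx0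
    have e1 : Real.exp (-82.2 * m) = Real.exp (-82 * m) * Real.exp (-(0.2 * m)) := by
      rw [← Real.exp_add]; congr 1; ring
    have e3 : Real.exp (-(0.2 * m)) ≤ Real.exp (-Real.log 2) := by
      apply Real.exp_le_exp.2
      have := Real.log_two_lt_d9
      linarith only [this, hm]
    rw [Real.exp_neg (Real.log 2), Real.exp_log (by norm_num)] at e3
    have h3 : Real.exp (-82.2 * m) ≤ Real.exp (-82 * m) * 2⁻¹ := by
      rw [e1]
      exact mul_le_mul_of_nonneg_left e3 (Real.exp_pos _).le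
    have h4 : (|x| - |H|) * F ≤ |x - H| * F :=
      mul_le_mul_of_nonneg_right (abs_sub_abs_le_abs_sub _ _) hF.le
    have h5 : Real.exp (-((82 + C2) * m)) ≤ Real.exp (-82 * m) :=
      Real.exp_le_exp.2 (by linarith only [hC2m])
    have h6 : (|x| - |H|) * F = |x| * F - |H| * F := by ring
    linarith only [h2, h3, h4, h5, h6, hlip, hup]

theorem num3 (δ a : ℝ) (ha : 2.8 ≤ a) (h : δ < Real.exp (-a)) : δ ≤ 1 / 16 := by
  have h1 : Real.exp (-a) ≤ Real.exp (-(4 * Real.log 2)) := by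
    apply Real.exp_le_exp.2
    have := Real.log_two_lt_d9
    linarith only [this, ha]
  have h2 : Real.exp (-(4 * Real.log 2)) = 1 / 16 := by
    rw [Real.exp_neg, show (4 : ℝ) * Real.log 2 = ((4 : ℕ) : ℝ) * Real.log 2 by norm_num,
      Real.exp_nat_mul, Real.exp_log (by norm_num)]
    norm_num
  linarith only [h, h1, h2]

/-- the inequality for one `M`. -/
theorem step (M : ℕ) (hM2 : 2 ≤ M) (C1 C2 : ℝ) (hC20 : 0 ≤ C2)
    (hC1 : ∀ (c : ℕ → ℚ) (δ : ℝ), 0 ≤ δ → δ ≤ 1 →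
      |(c 4 : ℝ) - 2 ^ 4 * beta 4| ≤ δ → |(c 2 : ℝ) - 2 ^ 2 * beta 2| ≤ δ →
      |HKc (2 * M) (5 * M) c - HK5 (2 * M) (5 * M)| * Nf (2 * M) (5 * M) ≤
        δ * Real.exp (C1 * (M : ℝ) ^ 2))
    (hlow : Real.exp (-(C2 * (M : ℝ) ^ 2)) ≤ |HK5 (2 * M) (5 * M)| * Nf (2 * M) (5 * M))
    (harch : Real.log |HK5 (2 * M) (5 * M)| +
      ∑ k ∈ range (5 * M), (5 * Real.log (2 * (2 * M)).factorial -
        2 * Real.log (2 * k - 1).factorial) ≤ -82.2 * (M : ℝ) ^ 2)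
    (p r : ℤ) (q : ℕ) (hq : 2 ≤ q) (hA : ∀ x : ℚ, x ≠ 0 →
      (∀ l : ℕ → Multiset ℤ, (∀ a, (l a).card = a) →
        x = (F5LevMat (F5MN_c ((p : ℚ) / q) ((r : ℚ) / q)) (2 * M) (5 * M) l).det) →
      -81.9 * (M : ℝ) ^ 2 - 5 * M * Real.log q ≤
        Real.log |((F5MN_y (2 * M) (5 * M) x : ℚ) : ℝ)|)
    (hM50 : 50 * Real.log q ≤ M) (δ : ℝ) (hδ0 : 0 ≤ δ) (hδ1 : δ ≤ 1 / 16)
    (hd2 : |beta 2 - p / q| ≤ δ) (hd4 : |beta 4 - r / q| ≤ δ) :
    Real.exp (-((82 + |C1| + C2 + 4) * (M : ℝ) ^ 2)) ≤ δ := by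
  have hM2R : (2 : ℝ) ≤ M := by exact_mod_cast hM2
  have hMM : (4 : ℝ) ≤ (M : ℝ) ^ 2 := by nlinarith only [hM2R]
  obtain ⟨c, hc⟩ : ∃ c, c = F5MN_c ((p : ℚ) / q) ((r : ℚ) / q) := ⟨_, rfl⟩
  have hc1 : c 1 = 0 := by rw [hc]; simp [F5MN_c]
  have hc3 : c 3 = 0 := by rw [hc]; simp [F5MN_c]
  have hc5 : c 5 = 0 := by rw [hc]; simp [F5MN_c]
  have hc2 : (c 2 : ℝ) = 4 * (p / q) := by rw [hc]; simp [F5MN_c]
  have hc4 : (c 4 : ℝ) = 16 * (r / q) := by rw [hc]; simp [F5MN_c]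
  obtain ⟨x, hx⟩ : ∃ x : ℚ, x = (F5LevMat c (2 * M) (5 * M) evenNodes).det := ⟨_, rfl⟩
  have hxe : HKc (2 * M) (5 * M) c = (x : ℝ) := by
    rw [hx]
    exact HKc_det c hc1 hc3 hc5 _ _ (by omega) evenNodes F5Lev_card_evenNodes
  have hxl : ∀ l : ℕ → Multiset ℤ, (∀ a, (l a).card = a) →
      x = (F5LevMat c (2 * M) (5 * M) l).det := by
    intro l hl
    have h := HKc_det c hc1 hc3 hc5 (2 * M) (5 * M) (by omega) l hl
    rw [hxe] at h
    exact_mod_cast h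
  have hlip := hC1 c (16 * δ) (by positivity) (by linarith only [hδ1])
    (by
      rw [hc4, show (16 : ℝ) * (r / q) - 2 ^ 4 * beta 4 = -(16 * (beta 4 - r / q)) by ring,
        abs_neg, abs_mul, abs_of_pos (by norm_num : (0 : ℝ) < 16)]
      linarith only [hd4])
    (by
      rw [hc2, show (4 : ℝ) * (p / q) - 2 ^ 2 * beta 2 = -(4 * (beta 2 - p / q)) by ring,
        abs_neg, abs_mul, abs_of_pos (by norm_num : (0 : ℝ) < 4)]
      linarith only [hd2, hδ0])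
  rw [hxe] at hlip
  have hF0 := Nf_pos (2 * M) (5 * M)
  have hne := HK5_ne_zero (2 * M) (5 * M) (by omega) (by omega)
  rw [← log_Nf, ← Real.log_mul (abs_ne_zero.2 hne) (Nf_pos _ _).ne'] at harch
  have hHF : 0 < |HK5 (2 * M) (5 * M)| * Nf (2 * M) (5 * M) := mul_pos (abs_pos.2 hne) hF0
  have harch' : |HK5 (2 * M) (5 * M)| * Nf (2 * M) (5 * M) ≤
      Real.exp (-82.2 * (M : ℝ) ^ 2) := by
    rw [← Real.exp_log hHF]
    exact Real.exp_le_exp.2 harch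
  refine num1 C1 C2 δ _ hδ0 hMM (num2 C1 C2 δ _ _ (x : ℝ) _ hδ0 hMM hC20 hF0 hlip hlow harch' ?_)
  intro hx0
  have hx0' : x ≠ 0 := by
    rintro rfl
    exact hx0 Rat.cast_zero
  have h1 := hA x hx0' (by rw [← hc]; exact hxl)
  rw [abs_y] at h1
  have hxF : 0 < |(x : ℝ)| * Nf (2 * M) (5 * M) := mul_pos (abs_pos.2 hx0) hF0
  rw [← Real.exp_log hxF]
  refine Real.exp_le_exp.2 (le_trans ?_ h1)
  have h5 : (M : ℝ) * (50 * Real.log q) ≤ (M : ℝ) * M :=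
    mul_le_mul_of_nonneg_left hM50 (by positivity)
  have h6 : (M : ℝ) * M = (M : ℝ) ^ 2 := by ring
  linarith only [h5, h6]

theorem measure_of (hA : ARITH) (hLip : LIP) (hP : PROD) (hL : LOWROW) :
    ∃ C : ℝ, 0 < C ∧ ∀ (p r : ℤ) (q : ℕ), 2 ≤ q →
      Real.exp (-(C * Real.log q ^ 2)) ≤ max |beta 2 - p / q| |beta 4 - r / q| := by
  obtain ⟨M₀, hM₀⟩ := hA
  obtain ⟨C1, hC1⟩ := hLip
  obtain ⟨C2, hC20, hC2⟩ := real_low hP hL
  obtain ⟨M₁, hM₁⟩ := arch_total5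
  obtain ⟨Ms, hMs⟩ : ∃ Ms : ℕ, Ms = max (max M₀ M₁) 2 := ⟨_, rfl⟩
  have hMs0 : M₀ ≤ Ms := hMs ▸ le_trans (le_max_left _ _) (le_max_left _ _)
  have hMs1 : M₁ ≤ Ms := hMs ▸ le_trans (le_max_right _ _) (le_max_left _ _)
  have hMs2 : 2 ≤ Ms := hMs ▸ le_max_right _ _
  obtain ⟨A, hA⟩ : ∃ A : ℝ, A = 2 * ((Ms : ℝ) + 1) + 51 := ⟨_, rfl⟩
  obtain ⟨B, hB⟩ : ∃ B : ℝ, B = 82 + |C1| + C2 + 4 := ⟨_, rfl⟩
  have hA0 : 0 < A := by rw [hA]; positivity
  have hB0 : 0 < B := by rw [hB]; positivity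
  have hBA : 0 < B * A ^ 2 := by positivity
  refine ⟨B * A ^ 2 + 6, by positivity, fun p r q hq => ?_⟩
  by_contra hcon
  push Not at hcon
  obtain ⟨δ, hδ⟩ : ∃ δ, δ = max |beta 2 - p / q| |beta 4 - r / q| := ⟨_, rfl⟩
  rw [← hδ] at hcon
  have hqR : (2 : ℝ) ≤ q := by exact_mod_cast hq
  obtain ⟨L, hLd⟩ : ∃ L, L = Real.log q := ⟨_, rfl⟩
  have hl2 := Real.log_two_gt_d9
  have hL2 : Real.log 2 ≤ L := by rw [hLd]; exact Real.log_le_log (by norm_num) hqR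
  have hL0 : 0.69 ≤ L := by linarith only [hl2, hL2]
  have hδ0 : 0 ≤ δ := by rw [hδ]; exact le_trans (abs_nonneg _) (le_max_left _ _)
  have hd2 : |beta 2 - p / q| ≤ δ := by rw [hδ]; exact le_max_left _ _
  have hd4 : |beta 4 - r / q| ≤ δ := by rw [hδ]; exact le_max_right _ _
  have hL2' : (0.47 : ℝ) ≤ L ^ 2 := by nlinarith only [hL0]
  rw [← hLd] at hcon
  have hsmall : δ ≤ 1 / 16 := by
    refine num3 δ ((B * A ^ 2 + 6) * L ^ 2) ?_ hcon
    have h3 : (6 : ℝ) * 0.47 ≤ (B * A ^ 2 + 6) * L ^ 2 :=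
      mul_le_mul (by linarith only [hBA]) hL2' (by norm_num) (by positivity)
    linarith only [h3]
  obtain ⟨M, hM⟩ : ∃ M : ℕ, M = Ms + ⌈50 * L⌉₊ := ⟨_, rfl⟩
  have hM2 : 2 ≤ M := by omega
  have hL00 : 0 ≤ 50 * L := by linarith only [hL0]
  have hM50 : 50 * L ≤ M := by
    have h1 := Nat.le_ceil (50 * L)
    have h2 : ((⌈50 * L⌉₊ : ℕ) : ℝ) ≤ M := by exact_mod_cast (by omega : ⌈50 * L⌉₊ ≤ M)
    linarith only [h1, h2]
  have hMA : (M : ℝ) ≤ A * L := by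
    have h1 := Nat.ceil_lt_add_one hL00
    have h2 : (M : ℝ) = Ms + ((⌈50 * L⌉₊ : ℕ) : ℝ) := by rw [hM]; push_cast; ring
    have h3 : (0 : ℝ) ≤ (Ms : ℝ) + 1 := by positivity
    have h4 : ((Ms : ℝ) + 1) * 0.69 ≤ ((Ms : ℝ) + 1) * L := mul_le_mul_of_nonneg_left hL0 h3
    rw [h2, hA]
    linarith only [h1, h3, h4, hL0]
  have h := step M hM2 C1 C2 hC20 (hC1 M (by omega)) (hC2 M (by omega))
    (hM₁ M (by omega)) p r q hq (hM₀ M (by omega) p r q (by omega)) (by rw [← hLd]; exact hM50)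
    δ hδ0 hsmall hd2 hd4
  rw [← hB] at h
  have hlast : Real.exp (-((B * A ^ 2 + 6) * L ^ 2)) ≤ Real.exp (-(B * (M : ℝ) ^ 2)) := by
    apply Real.exp_le_exp.2
    have h1 : (M : ℝ) ^ 2 ≤ (A * L) ^ 2 := pow_le_pow_left₀ (by positivity) hMA 2
    have h2 : B * (M : ℝ) ^ 2 ≤ B * (A * L) ^ 2 :=
      mul_le_mul_of_nonneg_left h1 hB0.le
    have h3 : B * (A * L) ^ 2 = B * A ^ 2 * L ^ 2 := by ring
    have h4 := sq_nonneg L
    linarith only [h2, h3, h4]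
  linarith only [hlast, h, hcon]

end Vale.Agent.P030.Q
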