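import Vale.Agent.P030.Q.Defs

set_option linter.all false

/-! (PSI): the rational value of the perturbed functional. -/

namespace Vale.Agent.P030.Q.PsiPf

open Finset Polynomial Filter Topology Vale.Agent.P030 Vale.Agent.P030.Five Vale.Agent.P030.Q

/-- the residue functional on rational polynomials. -/
noncomputable def Lr (N r : ℕ) : ℚ[X] →ₗ[ℚ] ℚ where
  toFun Q := ∑ j ∈ Icc (-(N : ℤ)) N, (-1 : ℚ) ^ j * PowerSeries.coeff r
    ((((X * expand ℚ 2 Q).comp (X + C (j : ℚ)) : ℚ[X]) : PowerSeries ℚ) *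
      F5PF_E (Icc (-(N : ℤ)) N) j)
  map_add' P Q := by
    rw [← Finset.sum_add_distrib]
    refine Finset.sum_congr rfl fun j _ => ?_
    rw [map_add, mul_add, Polynomial.add_comp, Polynomial.coe_add, add_mul, map_add, mul_add]
  map_smul' a Q := by
    rw [RingHom.id_apply, Finset.smul_sum]
    refine Finset.sum_congr rfl fun j _ => ?_
    rw [map_smul, mul_smul_comm, Polynomial.smul_comp, Polynomial.coe_smul, smul_mul_assoc,
      PowerSeries.coeff_smul, mul_smul_comm]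

theorem Lr_X_pow (N r m : ℕ) : Lr N r (X ^ m) = bm N r m := by
  unfold bm Lr
  simp only [LinearMap.coe_mk, AddHom.coe_mk]
  refine Finset.sum_congr rfl fun j _ => ?_
  have : (X : ℚ[X]) * expand ℚ 2 (X ^ m) = X ^ (2 * m + 1) := by
    rw [map_pow, expand_X, ← pow_mul, pow_succ']
  rw [this]

theorem Lr_eq (N r : ℕ) (Q : ℚ[X]) : Lr N r Q = Q.sum fun i a => a * bm N r i := by
  conv_lhs => rw [Q.as_sum_support_C_mul_X_pow]
  rw [map_sum, Polynomial.sum]
  refine Finset.sum_congr rfl fun i _ => ?_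
  rw [← smul_eq_C_mul, map_smul, Lr_X_pow, smul_eq_mul]

/-- the rational node polynomial -/
noncomputable def nodeQ (l : Multiset ℤ) : ℚ[X] :=
  (l.map fun n : ℤ => (X : ℚ[X]) - C (((n : ℚ) / 2) ^ 2)).prod

theorem nodeQ_map (l : Multiset ℤ) : (nodeQ l).map (algebraMap ℚ ℝ) = nodePoly2 l := by
  rw [nodeQ, nodePoly2, Polynomial.map_multiset_prod, Multiset.map_map]
  congr 1
  refine Multiset.map_congr rfl fun n _ => ?_
  simp

theorem F_eq (l : Multiset ℤ) : F5PF_F l = X * expand ℚ 2 (nodeQ l) := by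
  rw [F5PF_F, nodeQ]
  congr 1
  induction l using Multiset.induction_on with
  | empty => simp
  | cons n l ih =>
    rw [Multiset.map_cons, Multiset.prod_cons, Multiset.map_cons, Multiset.prod_cons, map_mul, ih]
    congr 1
    rw [map_sub, expand_X, expand_C]
    rw [map_pow]
    ring

theorem bt_map (N r : ℕ) (Q : ℚ[X]) : bt N r (Q.map (algebraMap ℚ ℝ)) = ((Lr N r Q : ℚ) : ℝ) := by
  rw [Lr_eq]
  have h1 : bt N r (Q.map (algebraMap ℚ ℝ)) =
      (Q.map (algebraMap ℚ ℝ)).sum fun i a => a • ((bm N r i : ℚ) : ℝ) := rfl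
  rw [h1, Polynomial.sum_over_range _ (by intro n; simp), Polynomial.sum_over_range _ (by intro n; simp)]
  rw [Polynomial.natDegree_map, Rat.cast_sum]
  refine Finset.sum_congr rfl fun i _ => ?_
  rw [Polynomial.coeff_map]
  simp

theorem bt_node (N r : ℕ) (l : Multiset ℤ) : bt N r (nodePoly2 l) =
    ∑ j ∈ Icc (-(N : ℤ)) N, (-1 : ℝ) ^ j * ((PowerSeries.coeff r (uS5 N l j) : ℚ) : ℝ) := by
  rw [← nodeQ_map, bt_map]
  have h : Lr N r (nodeQ l) = ∑ j ∈ Icc (-(N : ℤ)) N, (-1 : ℚ) ^ j *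
      PowerSeries.coeff r (uS5 N l j) := by
    unfold Lr
    simp only [LinearMap.coe_mk, AddHom.coe_mk]
    refine Finset.sum_congr rfl fun j _ => ?_
    rw [F5PF_uS, F_eq]
  rw [h, Rat.cast_sum]
  refine Finset.sum_congr rfl fun j _ => ?_
  push_cast
  rfl

/-- the full alternating sum over `m ≥ 0`. -/
theorem full (c : ℕ → ℚ) (h1 : c 1 = 0) (h3 : c 3 = 0) (h5 : c 5 = 0) (N : ℕ) (l : Multiset ℤ)
    (hl : l.card ≤ 5 * N) :
    Tendsto (fun M : ℕ => ∑ m ∈ range M, (-1 : ℝ) ^ m * (f5 N ((m : ℝ) + 1 / 2) *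
      (nodePoly2 l).eval (((m : ℝ) + 1 / 2) ^ 2))) atTop (𝓝 ((psiQ5 c N l : ℝ) +
        (2 ^ 4 * beta 4 - (c 4 : ℝ)) * bt N 1 (nodePoly2 l) +
        (2 ^ 2 * beta 2 - (c 2 : ℝ)) * bt N 3 (nodePoly2 l))) := by
  have hex : ∀ r, ∃ L, r ∈ range 5 → Tendsto (PF_A (5 - r) 0) atTop (𝓝 L) := by
    intro r
    by_cases hr : r ∈ range 5
    · obtain ⟨L, hL⟩ := PF_exists_L (i := 5 - r) (by rw [mem_range] at hr; omega)
      exact ⟨L, fun _ => hL⟩
    · exact ⟨0, fun h => absurd h hr⟩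
  choose L hL using hex
  have hL1 : L 1 = 2 ^ 4 * beta 4 := tendsto_nhds_unique (hL 1 (by simp)) (PF_L_eq (by norm_num))
  have hL3 : L 3 = 2 ^ 2 * beta 2 := tendsto_nhds_unique (hL 3 (by simp)) (PF_L_eq (by norm_num))
  have h2 : ∀ M : ℕ, ∑ m ∈ range M, (-1 : ℝ) ^ m * (f5 N ((m : ℝ) + 1 / 2) *
      (nodePoly2 l).eval (((m : ℝ) + 1 / 2) ^ 2)) =
      ∑ r ∈ range 5, ∑ j ∈ Icc (-(N : ℤ)) N,
        ((PowerSeries.coeff r (uS5 N l j) : ℚ) : ℝ) * PF_A (5 - r) j M := by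
    intro M
    have h3 : ∀ m : ℕ, (-1 : ℝ) ^ m * (f5 N ((m : ℝ) + 1 / 2) *
        (nodePoly2 l).eval (((m : ℝ) + 1 / 2) ^ 2)) =
        ∑ r ∈ range 5, ∑ j ∈ Icc (-(N : ℤ)) N, ((PowerSeries.coeff r (uS5 N l j) : ℚ) : ℝ) *
          ((-1 : ℝ) ^ m / ((m : ℝ) + 1 / 2 - (j : ℝ)) ^ (5 - r)) := by
      intro m
      rw [F5PF_real N l hl _ (fun j _ => PF_half_ne m j), Finset.sum_comm,
        Finset.mul_sum]
      refine Finset.sum_congr rfl fun r _ => ?_
      rw [Finset.mul_sum]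
      refine Finset.sum_congr rfl fun j _ => ?_
      rw [← mul_assoc, mul_comm ((-1 : ℝ) ^ m), mul_assoc, mul_one_div]
    simp only [h3, PF_A]
    rw [Finset.sum_comm]
    refine Finset.sum_congr rfl fun r _ => ?_
    rw [Finset.sum_comm]
    refine Finset.sum_congr rfl fun j _ => ?_
    rw [Finset.mul_sum]
  have h4 : Tendsto (fun M : ℕ => ∑ m ∈ range M, (-1 : ℝ) ^ m * (f5 N ((m : ℝ) + 1 / 2) *
      (nodePoly2 l).eval (((m : ℝ) + 1 / 2) ^ 2))) atTop
      (𝓝 (∑ r ∈ range 5, ∑ j ∈ Icc (-(N : ℤ)) N, ((PowerSeries.coeff r (uS5 N l j) : ℚ) : ℝ) *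
        ((-1 : ℝ) ^ j * (L r + (Ssum (5 - r) j : ℝ))))) := by
    simp only [h2]
    refine tendsto_finsetSum _ fun r hr => tendsto_finsetSum _ fun j _ => ?_
    exact (PF_A_tendsto (hL r hr) j).const_mul _
  convert h4 using 2
  rw [F5PF_psiQ, bt_node, bt_node]
  have key : ∀ r, ∑ j ∈ Icc (-(N : ℤ)) N, ((PowerSeries.coeff r (uS5 N l j) : ℚ) : ℝ) *
      ((-1 : ℝ) ^ j * (L r + (Ssum (5 - r) j : ℝ))) =
      ∑ j ∈ Icc (-(N : ℤ)) N, (-1 : ℝ) ^ j * ((PowerSeries.coeff r (uS5 N l j) : ℚ) : ℝ) *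
        ((c (5 - r) : ℝ) + (Ssum (5 - r) j : ℝ)) + (L r - (c (5 - r) : ℝ)) *
      ∑ j ∈ Icc (-(N : ℤ)) N, (-1 : ℝ) ^ j * ((PowerSeries.coeff r (uS5 N l j) : ℚ) : ℝ) := by
    intro r
    rw [Finset.mul_sum, ← Finset.sum_add_distrib]
    refine Finset.sum_congr rfl fun j _ => ?_
    ring
  simp only [key]
  rw [Finset.sum_add_distrib, add_assoc]
  congr 1
  have e0 := F5PF_sum_zero N l (r := 0) (by decide)
  have e2 := F5PF_sum_zero N l (r := 2) (by decide)
  have e4 := F5PF_sum_zero N l (r := 4) (by decide)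
  simp only [Finset.sum_range_succ, Finset.sum_range_zero, e0, e2, e4, hL1, hL3]
  norm_num

theorem xPSI : PSI := by
  intro N c h1 h3 h5 l hl
  have habs := summable_wt5 N _ ((F5PF_natDegree_nodePoly l).trans hl)
  have hpsi := psi5_apply N _ ((F5PF_natDegree_nodePoly l).trans hl)
  have h1' := habs.of_abs.hasSum.tendsto_sum_nat
  rw [← hpsi] at h1'
  have h2 := full c h1 h3 h5 N l hl
  have h3' := (tendsto_add_atTop_iff_nat N).mpr h2
  have h4 := h3'.sub_const (exQ5 N l : ℝ)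
  have key : psi5 N (nodePoly2 l) = (psiQ5 c N l : ℝ) +
        (2 ^ 4 * beta 4 - (c 4 : ℝ)) * bt N 1 (nodePoly2 l) +
        (2 ^ 2 * beta 2 - (c 2 : ℝ)) * bt N 3 (nodePoly2 l) - (exQ5 N l : ℝ) := by
    refine tendsto_nhds_unique h1' (h4.congr fun M => ?_)
    rw [F5PF_exQ, add_comm M N, Finset.sum_range_add, add_sub_cancel_left]
    refine Finset.sum_congr rfl fun i _ => ?_
    rw [wt5]
    push_cast
    ring
  rw [psiC, LinearMap.add_apply, LinearMap.add_apply, LinearMap.smul_apply, LinearMap.smul_apply,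
    smul_eq_mul, smul_eq_mul, key, Rat.cast_sub]
  ring

end Vale.Agent.P030.Q.PsiPf

namespace Vale.Agent.P030.Q

open Finset Polynomial Filter Topology Vale.Agent.P030 Vale.Agent.P030.Five

theorem xPSI : PSI := PsiPf.xPSI

/-- change of basis in the Hankel determinant of a linear functional. -/
theorem det_basis (ψ : ℝ[X] →ₗ[ℝ] ℝ) (K : ℕ) (Q : ℕ → ℝ[X]) (hm : ∀ a, (Q a).Monic)
    (hd : ∀ a, (Q a).natDegree = a) :
    (Matrix.of fun a b : Fin K => ψ (X ^ ((a : ℕ) + (b : ℕ)))).det =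
      (Matrix.of fun a b : Fin K => ψ (Q a * Q b)).det := by
  set U : Matrix (Fin K) (Fin K) ℝ := Matrix.of fun a c => (Q a).coeff c with hU
  set H : Matrix (Fin K) (Fin K) ℝ :=
    Matrix.of fun a b : Fin K => ψ (X ^ ((a : ℕ) + (b : ℕ))) with hH
  have hQ : ∀ a : Fin K, Q a = ∑ c : Fin K, U a c • (X : ℝ[X]) ^ (c : ℕ) := by
    intro a
    have h1 : (Q a).natDegree < K := by rw [hd]; exact a.2
    conv_lhs => rw [Polynomial.as_sum_range' (Q a) K h1]
    rw [Finset.sum_range]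
    refine Finset.sum_congr rfl fun c _ => ?_
    rw [← Polynomial.smul_X_eq_monomial]
    rfl
  have hent : (Matrix.of fun a b : Fin K => ψ (Q a * Q b)) = U * H * U.transpose := by
    ext a b
    rw [Matrix.of_apply, hQ a, hQ b, Matrix.mul_apply]
    simp only [Matrix.mul_apply, Matrix.transpose_apply]
    rw [Finset.sum_mul_sum, map_sum]
    simp only [map_sum]
    rw [Finset.sum_comm]
    refine Finset.sum_congr rfl fun d _ => ?_
    rw [Finset.sum_mul]
    refine Finset.sum_congr rfl fun c _ => ?_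
    rw [smul_mul_smul_comm, ← pow_add, map_smul, smul_eq_mul, hH, Matrix.of_apply]
    ring
  have hdetU : U.det = 1 := by
    rw [Matrix.det_of_isLowerTriangular]
    · refine Finset.prod_eq_one fun a _ => ?_
      have h1 := (hm a).coeff_natDegree
      rw [hd] at h1
      exact h1
    · intro a c hac
      have hac' : (a : ℕ) < c := by
        simpa using hac
      exact Polynomial.coeff_eq_zero_of_natDegree_lt (by rw [hd]; exact hac')
  rw [hent, Matrix.det_mul, Matrix.det_mul, Matrix.det_transpose, hdetU, one_mul, mul_one]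

/-- the determinant of the perturbed functional as a rational number. -/
theorem HKc_det (c : ℕ → ℚ) (h1 : c 1 = 0) (h3 : c 3 = 0) (h5 : c 5 = 0) (N K : ℕ)
    (hK : 2 * K ≤ 5 * N) (l : ℕ → Multiset ℤ) (hl : ∀ a, (l a).card = a) :
    HKc N K c = ((F5LevMat c N K l).det : ℝ) := by
  rw [HKc, det_basis (psiC N c) K (fun a => nodePoly2 (l a)) (fun a => F5Lev_nodePoly_monic _)
    (fun a => by rw [F5Lev_nodePoly_natDegree, hl])]
  have h1' : (Matrix.of fun a b : Fin K => psiC N c (nodePoly2 (l a) * nodePoly2 (l b))) =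
      (F5LevMat c N K l).map (Rat.castHom ℝ) := by
    ext a b
    simp only [Matrix.of_apply, Matrix.map_apply, F5LevMat]
    rw [← F5Lev_nodePoly_add, xPSI N c h1 h3 h5]
    · rfl
    · rw [Multiset.card_add, hl, hl]
      have := a.2
      have := b.2
      omega
  rw [h1']
  exact ((Rat.castHom ℝ).map_det (F5LevMat c N K l)).symm

end Vale.Agent.P030.Q
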