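import Vale.Agent.P030.Q.Defs

/-! Taylor remainder of `NVPhi_F`. -/

set_option autoImplicit false

namespace Vale.Agent.P030.Q.Taylor

open Finset Vale.Agent.P030 Vale.Agent.P030.Five

/-- If `|c r| ≤ A ρ^r`, then for `0 ≤ s ≤ 1 ≤ λ` the remainder after `n` terms is at most
`A e^(λρ) / λ^n`. -/
theorem taylor_rem {c : ℕ → ℝ} {A ρ lam s : ℝ} (hA : 0 ≤ A) (hρ : 0 ≤ ρ) (hlam : 1 ≤ lam)
    (hs0 : 0 ≤ s) (hs1 : s ≤ 1) (hc : ∀ r, |c r| ≤ A * ρ ^ r) (n : ℕ) :
    |NVPhi_F c s - ∑ r ∈ range n, c r * s ^ r / (r.factorial : ℝ)| ≤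
      A * Real.exp (lam * ρ) / lam ^ n := by
  have hlam0 : 0 < lam := by linarith
  have hexp : HasSum (fun r : ℕ => (lam * ρ) ^ r / (r.factorial : ℝ)) (Real.exp (lam * ρ)) := by
    rw [Real.exp_eq_exp_ℝ]
    exact NormedSpace.expSeries_div_hasSum_exp (lam * ρ)
  have hterm : ∀ r, |c r * s ^ r / (r.factorial : ℝ)| ≤ A * (ρ ^ r / (r.factorial : ℝ)) := by
    intro r
    have hf : (0 : ℝ) < r.factorial := by exact_mod_cast r.factorial_pos
    rw [abs_div, abs_mul, abs_pow, abs_of_nonneg hs0, abs_of_pos hf, ← mul_div_assoc]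
    apply div_le_div_of_nonneg_right _ hf.le
    calc |c r| * s ^ r ≤ |c r| * 1 :=
          mul_le_mul_of_nonneg_left (pow_le_one₀ hs0 hs1) (abs_nonneg _)
      _ = |c r| := mul_one _
      _ ≤ A * ρ ^ r := hc r
  have hdom : Summable fun r : ℕ => A * (ρ ^ r / (r.factorial : ℝ)) :=
    (Real.summable_pow_div_factorial ρ).mul_left A
  have hsum : Summable fun r : ℕ => c r * s ^ r / (r.factorial : ℝ) :=
    Summable.of_norm_bounded hdom fun r => by rw [Real.norm_eq_abs]; exact hterm r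
  have h1 : NVPhi_F c s - ∑ r ∈ range n, c r * s ^ r / (r.factorial : ℝ) =
      ∑' r : ℕ, c (r + n) * s ^ (r + n) / ((r + n).factorial : ℝ) := by
    unfold NVPhi_F
    rw [← hsum.sum_add_tsum_nat_add n]
    ring
  rw [h1]
  have hdomn : Summable fun r : ℕ => A * ((lam * ρ) ^ (r + n) / ((r + n).factorial : ℝ)) / lam ^ n :=
    (((summable_nat_add_iff n).mpr hexp.summable).mul_left A).div_const _
  have hle : ∀ r : ℕ, ‖c (r + n) * s ^ (r + n) / ((r + n).factorial : ℝ)‖ ≤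
      A * ((lam * ρ) ^ (r + n) / ((r + n).factorial : ℝ)) / lam ^ n := by
    intro r
    rw [Real.norm_eq_abs]
    refine (hterm (r + n)).trans ?_
    have hf : (0 : ℝ) < (r + n).factorial := by exact_mod_cast (r + n).factorial_pos
    have h2 : ρ ^ (r + n) ≤ (lam * ρ) ^ (r + n) / lam ^ n := by
      rw [le_div_iff₀ (pow_pos hlam0 n), mul_pow]
      have : lam ^ n ≤ lam ^ (r + n) := pow_le_pow_right₀ hlam (by omega)
      rw [mul_comm]
      exact mul_le_mul_of_nonneg_right this (pow_nonneg hρ _)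
    calc A * (ρ ^ (r + n) / ((r + n).factorial : ℝ))
        ≤ A * (((lam * ρ) ^ (r + n) / lam ^ n) / ((r + n).factorial : ℝ)) := by
          apply mul_le_mul_of_nonneg_left _ hA
          exact div_le_div_of_nonneg_right h2 hf.le
      _ = A * ((lam * ρ) ^ (r + n) / ((r + n).factorial : ℝ)) / lam ^ n := by
          field_simp
  have h3 := tsum_of_norm_bounded hdomn.hasSum hle
  rw [Real.norm_eq_abs] at h3
  refine h3.trans ?_
  rw [tsum_div_const, tsum_mul_left]
  apply div_le_div_of_nonneg_right _ (pow_nonneg hlam0.le n)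
  apply mul_le_mul_of_nonneg_left _ hA
  rw [← hexp.tsum_eq, ← hexp.summable.sum_add_tsum_nat_add n]
  have : 0 ≤ ∑ i ∈ range n, (lam * ρ) ^ i / (i.factorial : ℝ) :=
    Finset.sum_nonneg fun i _ => by positivity
  linarith

end Vale.Agent.P030.Q.Taylor
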